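import Vale.Agent.P163.Gap.Defs

/-!
# Integration by parts on the sphere, for functions of one component
-/

noncomputable section

namespace Vale.Agent.P163.Gap

open MeasureTheory Finset

variable {ι : Type} [Fintype ι] [DecidableEq ι] {n : ℕ}

omit [Fintype ι] [DecidableEq ι] in
theorem continuous_comp_vec (i : Fin n) :
    Continuous fun σ : Conf ι n => fun y => co (σ y) i :=
  continuous_pi fun y => (continuous_co i).comp (continuous_apply y)

omit [DecidableEq ι] in
theorem Blk.continuous_U (P : Blk ι n) : Continuous P.U := by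
  unfold Blk.U Blk.fieldDot
  fun_prop

omit [DecidableEq ι] in
theorem Blk.continuous_q (P : Blk ι n) (x : ι) : Continuous fun σ => P.q σ x := by
  unfold Blk.q Blk.fieldDot
  fun_prop

/-- The local field at `x`. -/
def Blk.W (P : Blk ι n) (σ : Conf ι n) (x : ι) (k : Fin n) : ℝ :=
  ∑ y, P.A x y * co (σ y) k + P.h x k

omit [DecidableEq ι] in
theorem Blk.q_eq (P : Blk ι n) (σ : Conf ι n) (x : ι) :
    P.q σ x = ∑ k, co (σ x) k * P.W σ x k := by
  simp only [Blk.q, Blk.W, Blk.fieldDot, dot_eq, mul_add, sum_add_distrib, mul_sum]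
  rw [sum_comm]
  congr 1
  exact sum_congr rfl fun k _ => sum_congr rfl fun y _ => by ring

omit [DecidableEq ι] in
/-- Only the spin at `x` changes. -/
theorem Blk.U_change (P : Blk ι n) (hs : ∀ x y, P.A x y = P.A y x) (hd : ∀ x, P.A x x = 0)
    (x : ι) (σ σ' : Conf ι n) (h : ∀ y, y ≠ x → σ' y = σ y) :
    P.U σ' = P.U σ + n * P.b * ∑ k, (co (σ' x) k - co (σ x) k) * P.W σ x k := by
  classical
  have hfield : ∑ y, P.fieldDot σ' y
      = ∑ y, P.fieldDot σ y + ∑ k, (co (σ' x) k - co (σ x) k) * P.h x k := by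
    have e : ∀ y ∈ (univ : Finset ι).erase x, P.fieldDot σ' y = P.fieldDot σ y := fun y hy => by
      simp [Blk.fieldDot, h y (ne_of_mem_erase hy)]
    rw [← add_sum_erase _ _ (mem_univ x), ← add_sum_erase _ (P.fieldDot σ) (mem_univ x),
      sum_congr rfl e]
    simp only [Blk.fieldDot, sub_mul, sum_sub_distrib]
    abel
  have inner : ∀ a : ι, a ≠ x → ∑ y, P.A a y * dot (σ' a) (σ' y)
      = ∑ y, P.A a y * dot (σ a) (σ y) + P.A a x * (dot (σ a) (σ' x) - dot (σ a) (σ x)) := by
    intro a ha
    have e : ∀ y ∈ (univ : Finset ι).erase x,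
        P.A a y * dot (σ' a) (σ' y) = P.A a y * dot (σ a) (σ y) := fun y hy => by
      rw [h a ha, h y (ne_of_mem_erase hy)]
    rw [← add_sum_erase _ _ (mem_univ x),
      ← add_sum_erase _ (fun y => P.A a y * dot (σ a) (σ y)) (mem_univ x), sum_congr rfl e, h a ha]
    ring
  have centre : ∑ y, P.A x y * dot (σ' x) (σ' y) = ∑ y, P.A x y * dot (σ' x) (σ y) := by
    refine sum_congr rfl fun y _ => ?_
    rcases eq_or_ne y x with rfl | hy
    · simp [hd]
    · rw [h y hy]
  have key : ∑ y, P.A x y * dot (σ' x) (σ y) - ∑ y, P.A x y * dot (σ x) (σ y)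
      = ∑ k, (co (σ' x) k - co (σ x) k) * ∑ y, P.A x y * co (σ y) k := by
    simp only [← sum_sub_distrib, dot_eq, mul_sum, sub_mul]
    rw [sum_comm]
    exact sum_congr rfl fun k _ => sum_congr rfl fun y _ => by ring
  have cross : ∑ a ∈ (univ : Finset ι).erase x, P.A a x * (dot (σ a) (σ' x) - dot (σ a) (σ x))
      = ∑ k, (co (σ' x) k - co (σ x) k) * ∑ y, P.A x y * co (σ y) k := by
    rw [sum_erase _ (by simp [hd]), ← key, ← sum_sub_distrib]
    refine sum_congr rfl fun a _ => ?_
    rw [hs a x]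
    simp only [dot_eq, mul_comm (co (σ a) _)]
    ring
  have quad : ∑ a, ∑ y, P.A a y * dot (σ' a) (σ' y) = ∑ a, ∑ y, P.A a y * dot (σ a) (σ y)
      + 2 * ∑ k, (co (σ' x) k - co (σ x) k) * ∑ y, P.A x y * co (σ y) k := by
    rw [← add_sum_erase _ _ (mem_univ x),
      ← add_sum_erase _ (fun a => ∑ y, P.A a y * dot (σ a) (σ y)) (mem_univ x),
      sum_congr rfl fun a ha => inner a (ne_of_mem_erase ha), sum_add_distrib, cross, centre]
    linarith [key]
  simp only [Blk.U, quad, hfield, Blk.W, mul_add, sum_add_distrib]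
  ring

variable [NeZero n]

/-- The rotation of the site `x` in the plane `i`, `j`, integrated by parts. -/
theorem ibp_plane (P : Blk ι n) (hs : ∀ x y, P.A x y = P.A y x) (hd : ∀ x, P.A x x = 0)
    {i j : Fin n} (hij : i ≠ j) (x : ι) {Ψ D : (ι → ℝ) → ℝ} (hΨ : Continuous Ψ)
    (hD : Continuous D)
    (hder : ∀ s, HasDerivAt (fun t => Ψ (Function.update s x t)) (D s) (s x)) :
    ∫ σ, Real.exp (P.U σ) * (co (σ x) i * Ψ (fun y => co (σ y) i)
        - co (σ x) j ^ 2 * D (fun y => co (σ y) i)
        + co (σ x) j * Ψ (fun y => co (σ y) i) *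
          (n * P.b * (co (σ x) i * P.W σ x j - co (σ x) j * P.W σ x i))) ∂base ι n = 0 := by
  set v : Conf ι n → ι → ℝ := fun σ y => co (σ y) i
  have hv : Continuous v := continuous_comp_vec i
  set a : ℝ → Conf ι n → ℝ := fun θ σ => Real.cos θ * co (σ x) i - Real.sin θ * co (σ x) j
  set c : ℝ → Conf ι n → ℝ := fun θ σ => Real.sin θ * co (σ x) i + Real.cos θ * co (σ x) j
  set u : ℝ → Conf ι n → ℝ := fun θ σ => P.U σ + n * P.b *
    ((a θ σ - co (σ x) i) * P.W σ x i + (c θ σ - co (σ x) j) * P.W σ x j)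
  set G : ℝ → Conf ι n → ℝ := fun θ σ =>
    Real.exp (u θ σ) * (c θ σ * Ψ (Function.update (v σ) x (a θ σ))) with hG
  set G' : ℝ → Conf ι n → ℝ := fun θ σ =>
    Real.exp (u θ σ) * (n * P.b * (-c θ σ * P.W σ x i + a θ σ * P.W σ x j)) *
        (c θ σ * Ψ (Function.update (v σ) x (a θ σ))) +
      Real.exp (u θ σ) * (a θ σ * Ψ (Function.update (v σ) x (a θ σ)) +
        c θ σ * (D (Function.update (v σ) x (a θ σ)) * -c θ σ))
  have hW : ∀ k, Continuous fun σ => P.W σ x k := fun k => by unfold Blk.W; fun_prop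
  have hU := P.continuous_U
  have hc2 : Continuous fun p : ℝ × Conf ι n => Function.update (v p.2) x (a p.1 p.2) := by
    refine Continuous.update (hv.comp continuous_snd) x ?_
    simp only [a]
    fun_prop
  have hΨ2 := hΨ.comp hc2
  have hD2 := hD.comp hc2
  have hG'c : Continuous fun p : ℝ × Conf ι n => G' p.1 p.2 := by
    simp only [G', u, a, c] at hΨ2 hD2 ⊢
    fun_prop
  have hGc : ∀ θ, Continuous (G θ) := by
    intro θ
    have := hΨ2.comp (Continuous.prodMk_right θ)
    simp only [hG, u, a, c] at this ⊢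
    fun_prop
  have hcst : ∀ θ, ∫ σ, G θ σ ∂base ι n
      = ∫ σ, Real.exp (P.U σ) * (co (σ x) j * Ψ (v σ)) ∂base ι n := by
    intro θ
    set φ : ι → ℝ := fun y => if y = x then θ else 0
    rw [← integral_turnAll hij φ (f := fun σ => Real.exp (P.U σ) * (co (σ x) j * Ψ (v σ)))
      (by fun_prop)]
    refine integral_congr_ae (Filter.Eventually.of_forall fun σ => ?_)
    have hoff : ∀ y, y ≠ x → turnAll hij φ σ y = σ y := fun y hy => by
      simp [turnAll, φ, hy, turn_zero]
    have hUc := P.U_change hs hd x σ (turnAll hij φ σ) hoff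
    have hsum : ∑ k, (co (turnAll hij φ σ x) k - co (σ x) k) * P.W σ x k
        = (a θ σ - co (σ x) i) * P.W σ x i + (c θ σ - co (σ x) j) * P.W σ x j := by
      rw [sum_split hij]
      have : ∀ k ∈ (univ.erase i).erase j,
          (co (turnAll hij φ σ x) k - co (σ x) k) * P.W σ x k = 0 := fun k hk => by
        simp only [mem_erase] at hk
        simp [turnAll, co_turn_other hij hk.2.1 hk.1]
      rw [sum_eq_zero this]
      simp [turnAll, φ, co_turn_fst hij, co_turn_snd hij, a, c]
    have hvec : v (turnAll hij φ σ) = Function.update (v σ) x (a θ σ) := by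
      funext y
      rcases eq_or_ne y x with rfl | hy
      · simp [v, turnAll, φ, co_turn_fst hij, a]
      · simp [v, Function.update_of_ne hy, hoff y hy]
    have hj : co (turnAll hij φ σ x) j = c θ σ := by simp [turnAll, φ, co_turn_snd hij, c]
    simp only [hG, u]
    rw [hUc, hsum, hvec, hj]
  obtain ⟨B, hB⟩ := ((isCompact_closedBall (0 : ℝ) 1).prod
    isCompact_univ).exists_bound_of_continuousOn hG'c.continuousOn
  have hder0 := (hasDerivAt_integral_of_dominated_loc_of_deriv_le (μ := base ι n) (F := G)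
    (F' := G') (x₀ := (0 : ℝ)) (bound := fun _ => B)
    (Metric.closedBall_mem_nhds _ one_pos)
    (Filter.Eventually.of_forall fun θ => (hGc θ).aestronglyMeasurable)
    (integrable_base (hGc 0))
    (hG'c.comp (Continuous.prodMk_right 0)).aestronglyMeasurable
    (Filter.Eventually.of_forall fun σ θ hθ => hB (θ, σ) ⟨hθ, Set.mem_univ _⟩)
    (integrable_const B) (Filter.Eventually.of_forall fun σ θ _ => ?_)).2
  · have h0 : (fun θ => ∫ σ, G θ σ ∂base ι n)
        = fun _ => ∫ σ, Real.exp (P.U σ) * (co (σ x) j * Ψ (v σ)) ∂base ι n := funext hcst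
    rw [h0] at hder0
    have hz := hder0.unique (hasDerivAt_const (0 : ℝ) _)
    refine Eq.trans (integral_congr_ae (Filter.Eventually.of_forall fun σ => ?_)) hz
    simp only [G', u, a, c, Real.cos_zero, Real.sin_zero, one_mul, zero_mul, sub_zero, zero_add,
      sub_self, mul_zero, add_zero, v, Function.update_eq_self]
    ring
  · have ha : HasDerivAt (fun t => a t σ) (-c θ σ) θ :=
      (((Real.hasDerivAt_cos θ).mul_const _).sub ((Real.hasDerivAt_sin θ).mul_const _)).congr_deriv
        (by simp only [c]; ring)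
    have hc : HasDerivAt (fun t => c t σ) (a θ σ) θ :=
      (((Real.hasDerivAt_sin θ).mul_const _).add ((Real.hasDerivAt_cos θ).mul_const _)).congr_deriv
        (by simp only [a]; ring)
    have hu : HasDerivAt (fun t => u t σ)
        (n * P.b * (-c θ σ * P.W σ x i + a θ σ * P.W σ x j)) θ :=
      ((((ha.sub_const _).mul_const _).add ((hc.sub_const _).mul_const _)).const_mul _).const_add _
    have hψ : HasDerivAt (fun t => Ψ (Function.update (v σ) x (a t σ)))
        (D (Function.update (v σ) x (a θ σ)) * -c θ σ) θ := by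
      have h := hder (Function.update (v σ) x (a θ σ))
      simp only [Function.update_idem, Function.update_self] at h
      exact h.comp θ ha
    exact hu.exp.mul (hc.mul hψ)

/-- Integration by parts along one component. -/
theorem ibpGoal : IBPGoal := by
  intro ι _ _ n P hn hs hd i x Ψ D hΨ hD hder
  have : NeZero n := ⟨by omega⟩
  have hU := P.continuous_U
  have hq := P.continuous_q x
  have hW : ∀ k, Continuous fun σ => P.W σ x k := fun k => by unfold Blk.W; fun_prop
  have hv := continuous_comp_vec (ι := ι) i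
  have hΨv := hΨ.comp hv
  have hDv := hD.comp hv
  simp only [Function.comp_def] at hΨv hDv
  set v : Conf ι n → ι → ℝ := fun σ y => co (σ y) i
  have hz : ∫ σ, ∑ j ∈ univ.erase i, Real.exp (P.U σ) * (co (σ x) i * Ψ (v σ)
        - co (σ x) j ^ 2 * D (v σ) + co (σ x) j * Ψ (v σ) *
          (n * P.b * (co (σ x) i * P.W σ x j - co (σ x) j * P.W σ x i))) ∂base ι n = 0 := by
    rw [integral_finsetSum _ fun j _ => integrable_base (by fun_prop)]
    exact sum_eq_zero fun j hj => ibp_plane P hs hd (ne_of_mem_erase hj).symm x hΨ hD hder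
  have hn0 : (n : ℝ) ≠ 0 := by exact_mod_cast (by omega : n ≠ 0)
  have hpt : ∀ σ : Conf ι n, ∑ j ∈ univ.erase i, Real.exp (P.U σ) * (co (σ x) i * Ψ (v σ)
        - co (σ x) j ^ 2 * D (v σ) + co (σ x) j * Ψ (v σ) *
          (n * P.b * (co (σ x) i * P.W σ x j - co (σ x) j * P.W σ x i)))
      = (n : ℝ) * (Real.exp (P.U σ) * (Ψ (v σ) * ((1 - 1 / n + P.b * P.q σ x) * co (σ x) i
            - P.b * (∑ y, P.A x y * co (σ y) i) - P.b * P.h x i)))
        - Real.exp (P.U σ) * (D (v σ) * (1 - co (σ x) i ^ 2)) := by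
    intro σ
    have e1 : ∑ j ∈ (univ : Finset (Fin n)).erase i, co (σ x) j ^ 2 = 1 - co (σ x) i ^ 2 := by
      rw [← co_sq_sum (σ x), ← add_sum_erase _ _ (mem_univ i)]
      ring
    have e2 : ∑ j ∈ (univ : Finset (Fin n)).erase i, co (σ x) j * P.W σ x j
        = P.q σ x - co (σ x) i * P.W σ x i := by
      rw [P.q_eq, ← add_sum_erase _ _ (mem_univ i)]
      ring
    have e3 : (((univ : Finset (Fin n)).erase i).card : ℝ) = n - 1 := by
      rw [card_erase_of_mem (mem_univ i), card_univ, Fintype.card_fin,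
        Nat.cast_sub (by omega), Nat.cast_one]
    calc _ = Real.exp (P.U σ) *
          ((((univ : Finset (Fin n)).erase i).card : ℝ) * (co (σ x) i * Ψ (v σ))
            - D (v σ) * ∑ j ∈ univ.erase i, co (σ x) j ^ 2
            + Ψ (v σ) * (n * P.b) * co (σ x) i * ∑ j ∈ univ.erase i, co (σ x) j * P.W σ x j
            - Ψ (v σ) * (n * P.b) * P.W σ x i * ∑ j ∈ univ.erase i, co (σ x) j ^ 2) := by
          simp only [mul_sum, ← nsmul_eq_mul, ← sum_const, ← sum_sub_distrib, ← sum_add_distrib]
          exact sum_congr rfl fun j _ => by ring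
      _ = _ := by
          rw [e1, e2, e3, show P.W σ x i = ∑ y, P.A x y * co (σ y) i + P.h x i from rfl]
          field_simp
          ring
  rw [integral_congr_ae (Filter.Eventually.of_forall hpt),
    integral_sub ((integrable_base (by fun_prop)).const_mul _) (integrable_base (by fun_prop)),
    integral_const_mul, sub_eq_zero] at hz
  simp only [avg]
  rw [← hz, mul_div_assoc, mul_div_cancel_left₀ _ hn0]

end Vale.Agent.P163.Gap
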