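import Vale.Agent.P163.Gap.Window
import Vale.Agent.P163.Gap.IBP
import Mathlib.Algebra.Order.Chebyshev

/-!
# Blocks inside a window: block data, merging of configurations and the tower property
-/

noncomputable section

namespace Vale.Agent.P163.Gap

open MeasureTheory Finset

variable {V E : Type} [Fintype V] [Fintype E] [DecidableEq V] {n : ℕ}
  {src dst : E → V} {ℓ : V → Site} {dir : E → Bool} {K : ℕ}

theorem sdist_comm (x y : Site) : sdist x y = sdist y x := by
  simp only [sdist]; omega

theorem sdist_triangle (x y z : Site) : sdist x z ≤ sdist x y + sdist y z := by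
  simp only [sdist]; omega

theorem sdist_self (x : Site) : sdist x x = 0 := by simp [sdist]

theorem sdist_step (x : Site) (d : Bool) : sdist x (step x d) = 1 := by
  cases d <;> simp [sdist, step]

omit [Fintype E] [DecidableEq V] in
theorem mem_ball {c : Site} {r : ℕ} {v : V} : v ∈ ball ℓ c r ↔ sdist (ℓ v) c ≤ r := by
  simp [ball]

namespace Lat

variable (hL : Lat src dst ℓ dir K)
include hL

omit [Fintype V] [Fintype E] [DecidableEq V] in
theorem sdist_bond {e : E} {v : V} (hv : ℓ v ∈ box K) (he : src e = v ∨ dst e = v) :
    sdist (ℓ (src e)) (ℓ (dst e)) = 1 := by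
  rw [hL.window.link e (by rcases he with h | h <;> simp [h, hv]), sdist_step]

omit [Fintype V] [DecidableEq V] in
theorem incident_card {v : V} (hv : ℓ v ∈ box K) [DecidableEq V] :
    (univ.filter fun e => src e = v ∨ dst e = v).card ≤ 4 := by
  classical
  refine le_trans (card_le_card_of_injOn (t := (univ : Finset (Bool × Bool)))
    (fun e => (decide (src e = v), dir e)) (fun e _ => mem_univ _) ?_) (by simp)
  intro a ha c hc h
  simp only [coe_filter, mem_univ, true_and, Set.mem_ofPred_eq] at ha hc
  simp only [Prod.mk.injEq, decide_eq_decide] at h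
  apply hL.window.inj
  simp only [Prod.mk.injEq]
  refine ⟨?_, h.2⟩
  by_cases hs : src a = v
  · rw [hs, h.1.1 hs]
  · have hda : dst a = v := ha.resolve_left hs
    have hdc : dst c = v := hc.resolve_left fun hc' => hs (h.1.2 hc')
    have e1 := hL.window.link a (Or.inr (hda ▸ hv))
    have e2 := hL.window.link c (Or.inr (hdc ▸ hv))
    rw [hda] at e1
    rw [hdc] at e2
    have key := e1.symm.trans e2
    rw [h.2] at key
    revert key
    generalize ℓ (src a) = p, ℓ (src c) = p', dir c = d
    intro key
    cases d <;> simp [step, Prod.ext_iff] at key ⊢ <;> omega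

omit [Fintype E] [DecidableEq V] in
theorem card_ball (c : Site) (r : ℕ) : (ball ℓ c r).card ≤ (2 * r + 1) ^ 2 := by
  classical
  rw [← card_image_of_injective _ hL.ℓinj]
  refine le_trans (card_le_card (t := Icc (c.1 - r, c.2 - r) (c.1 + r, c.2 + r)) fun z hz => ?_) ?_
  · obtain ⟨v, hv, rfl⟩ := mem_image.1 hz
    rw [mem_ball, sdist] at hv
    simp only [mem_Icc, Prod.le_def]
    omega
  · rw [← Finset.Icc_product_Icc, card_product, Int.card_Icc, Int.card_Icc, pow_two]
    apply le_of_eq
    congr 1 <;> omega

end Lat

omit [Fintype V] [Fintype E] in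
theorem inEnd_mem {S : Finset V} {e : E} (h : crossing src dst S e) :
    inEnd src dst S e ∈ S ∧ outEnd src dst S e ∉ S := by
  unfold crossing at h
  unfold inEnd outEnd
  split_ifs with hs <;> tauto

omit [Fintype V] [Fintype E] in
theorem ends_cases (S : Finset V) (e : E) :
    (inEnd src dst S e = src e ∧ outEnd src dst S e = dst e) ∨
      (inEnd src dst S e = dst e ∧ outEnd src dst S e = src e) := by
  unfold inEnd outEnd
  split_ifs <;> simp

omit [Fintype V] in
/-- The block data of a set inside a window satisfy the standing assumptions. -/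
theorem blockOf_ok (hL : Lat src dst ℓ dir K) {β : ℝ} (hβ : 0 < β) (hn : 0 < n) (S : Finset V)
    (hS : ∀ v ∈ S, ℓ v ∈ box K) (τ : Conf V n) : (blockOf β src dst S τ).Ok where
  b_pos := div_pos hβ (by exact_mod_cast hn)
  symm x y := by
    simp only [blockOf, Nat.cast_inj]
    congr 1
    exact filter_congr fun e _ => or_comm
  nonneg x y := Nat.cast_nonneg _
  diag x := by
    simp only [blockOf, or_self, Nat.cast_eq_zero, card_eq_zero, filter_eq_empty_iff]
    exact fun e _ h => hL.loopless e (h.1.trans h.2.symm)
  row x := by
    classical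
    simp only [blockOf, ← Nat.cast_sum]
    have hd : ((univ : Finset ↥S) : Set ↥S).PairwiseDisjoint
        fun y => univ.filter fun e => (src e = x.1 ∧ dst e = y.1) ∨ (src e = y.1 ∧ dst e = x.1) := by
      intro y _ z _ hyz
      rw [Function.onFun, disjoint_left]
      intro e hy hz
      simp only [mem_filter, mem_univ, true_and] at hy hz
      apply hyz
      apply Subtype.ext
      have := hL.loopless e
      rcases hy with ⟨a, b⟩ | ⟨a, b⟩ <;> rcases hz with ⟨c, d⟩ | ⟨c, d⟩
      · exact b.symm.trans d
      · exact absurd (a.trans d.symm) this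
      · exact absurd (c.trans b.symm) this
      · exact a.symm.trans c
    rw [← card_biUnion hd]
    refine le_trans (Nat.cast_le.2 (card_le_card fun e he => ?_))
      (by exact_mod_cast hL.incident_card (hS x.1 x.2))
    simp only [mem_biUnion, mem_filter, mem_univ, true_and] at he ⊢
    obtain ⟨y, ⟨h, -⟩ | ⟨-, h⟩⟩ := he
    · exact Or.inl h
    · exact Or.inr h
  field x := by
    set T := univ.filter fun e => crossing src dst S e ∧ inEnd src dst S e = x.1
    have hc : T.card ≤ 4 := le_trans (card_le_card fun e he => by
      simp only [T, mem_filter, mem_univ, true_and] at he ⊢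
      rcases ends_cases (src := src) (dst := dst) S e with h | h
      · exact Or.inl (h.1 ▸ he.2)
      · exact Or.inr (h.1 ▸ he.2)) (hL.incident_card (hS x.1 x.2))
    change ∑ i, (∑ e ∈ T, co (τ (outEnd src dst S e)) i) ^ 2 ≤ 16
    calc ∑ i, (∑ e ∈ T, co (τ (outEnd src dst S e)) i) ^ 2
        ≤ ∑ i, (T.card : ℝ) * ∑ e ∈ T, co (τ (outEnd src dst S e)) i ^ 2 :=
          sum_le_sum fun i _ => sq_sum_le_card_mul_sum_sq
      _ = (T.card : ℝ) * T.card := by
          rw [← mul_sum, sum_comm]
          simp [co_sq_sum]
      _ ≤ 16 := by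
          have h4 : (T.card : ℝ) ≤ 4 := by exact_mod_cast hc
          nlinarith [Nat.cast_nonneg (α := ℝ) T.card]

omit [Fintype V] [DecidableEq V] in
/-- The part of a bond sum outside a set. -/
theorem sum_bond_split (S : Finset V) [DecidableEq V] (g : E → ℝ) :
    ∑ e, g e = ∑ e ∈ univ.filter (inside src dst S), g e
      + ∑ e ∈ univ.filter (fun e => crossing src dst S e), g e
      + ∑ e ∈ univ.filter (fun e => src e ∉ S ∧ dst e ∉ S), g e := by
  simp only [sum_filter, ← sum_add_distrib]
  refine sum_congr rfl fun e _ => ?_
  by_cases h1 : src e ∈ S <;> by_cases h2 : dst e ∈ S <;> simp [inside, crossing, h1, h2]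

omit [Fintype V] in
/-- The energy in a set given the outside is the block energy up to a constant. -/
theorem energy_glue (hl : ∀ e, src e ≠ dst e) (β : ℝ) (hn : 0 < n) (S : Finset V) (τ : Conf V n)
    (σ : Conf ↥S n) :
    energy β src dst (glue S σ τ) = (blockOf β src dst S τ).U σ
      + β * ∑ e ∈ univ.filter (fun e => src e ∉ S ∧ dst e ∉ S), dot (τ (src e)) (τ (dst e)) := by
  classical
  set ω := glue S σ τ
  have hin : ∀ v (h : v ∈ S), ω v = σ ⟨v, h⟩ := fun v h => by simp [ω, glue, h]
  have hout : ∀ v, v ∉ S → ω v = τ v := fun v h => by simp [ω, glue, h]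
  rw [energy, sum_bond_split (src := src) (dst := dst) S]
  have h3 : ∑ e ∈ univ.filter (fun e => src e ∉ S ∧ dst e ∉ S), dot (ω (src e)) (ω (dst e))
      = ∑ e ∈ univ.filter (fun e => src e ∉ S ∧ dst e ∉ S), dot (τ (src e)) (τ (dst e)) :=
    sum_congr rfl fun e he => by
      simp only [mem_filter] at he
      rw [hout _ he.2.1, hout _ he.2.2]
  have hcomm : ∀ a c : Spin n, dot a c = dot c a := fun a c => real_inner_comm _ _
  have h1 : ∑ x : ↥S, ∑ y : ↥S, (blockOf β src dst S τ).A x y * dot (σ x) (σ y)
      = 2 * ∑ e ∈ univ.filter (inside src dst S), dot (ω (src e)) (ω (dst e)) := by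
    simp only [blockOf, natCast_card_filter, sum_mul, sum_filter, mul_sum]
    rw [sum_congr rfl fun x _ => sum_comm, sum_comm]
    refine sum_congr rfl fun e _ => ?_
    have e1 : ∀ x y : ↥S, (if (src e = x.1 ∧ dst e = y.1) ∨ (src e = y.1 ∧ dst e = x.1) then
        (1 : ℝ) else 0) * dot (σ x) (σ y)
        = (if src e = x.1 ∧ dst e = y.1 then dot (ω (src e)) (ω (dst e)) else 0)
          + if src e = y.1 ∧ dst e = x.1 then dot (ω (src e)) (ω (dst e)) else 0 := by
      intro x y
      by_cases ha : src e = x.1 ∧ dst e = y.1
      · have hb : ¬ (src e = y.1 ∧ dst e = x.1) := fun hb => hl e (ha.1.trans hb.2.symm)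
        rw [if_pos (Or.inl ha), if_pos ha, if_neg hb, ha.1, ha.2, hin _ x.2, hin _ y.2]
        simp
      · by_cases hb : src e = y.1 ∧ dst e = x.1
        · rw [if_pos (Or.inr hb), if_neg ha, if_pos hb, hb.1, hb.2, hin _ x.2, hin _ y.2, hcomm]
          simp
        · simp [ha, hb]
    simp only [e1, sum_add_distrib]
    rw [sum_comm (f := fun x y => if src e = (y : ↥S).1 ∧ dst e = (x : ↥S).1 then _ else _),
      ← two_mul]
    by_cases hi : inside src dst S e
    · rw [if_pos hi, sum_eq_single ⟨src e, hi.1⟩ (fun x _ hx => sum_eq_zero fun y _ =>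
          if_neg fun h => hx (Subtype.ext h.1.symm)) (by simp),
        sum_eq_single ⟨dst e, hi.2⟩ (fun y _ hy => if_neg fun h => hy (Subtype.ext h.2.symm))
          (by simp), if_pos ⟨rfl, rfl⟩]
    · rw [if_neg hi, sum_eq_zero fun x _ => sum_eq_zero fun y _ =>
        if_neg fun (h : src e = x.1 ∧ dst e = y.1) => hi ⟨h.1 ▸ x.2, h.2 ▸ y.2⟩, mul_zero]
  have h2 : ∑ x : ↥S, (blockOf β src dst S τ).fieldDot σ x
      = ∑ e ∈ univ.filter (fun e => crossing src dst S e), dot (ω (src e)) (ω (dst e)) := by
    simp only [Blk.fieldDot, blockOf, mul_sum, sum_filter]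
    rw [sum_congr rfl fun x _ => sum_comm, sum_comm]
    refine sum_congr rfl fun e _ => ?_
    by_cases hc : crossing src dst S e
    · obtain ⟨hi, ho⟩ := inEnd_mem hc
      rw [if_pos hc, sum_eq_single ⟨inEnd src dst S e, hi⟩ (fun x _ hx => sum_eq_zero fun i _ =>
        by rw [if_neg fun h => hx (Subtype.ext h.2.symm), mul_zero]) (by simp)]
      have : ∑ i, co (σ ⟨inEnd src dst S e, hi⟩) i * (if crossing src dst S e ∧
          inEnd src dst S e = inEnd src dst S e then co (τ (outEnd src dst S e)) i else 0)
          = dot (ω (inEnd src dst S e)) (ω (outEnd src dst S e)) := by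
        rw [hin _ hi, hout _ ho, dot_eq]
        simp [hc]
      rw [this]
      rcases ends_cases (src := src) (dst := dst) S e with ⟨a, b⟩ | ⟨a, b⟩
      · rw [a, b]
      · rw [a, b, hcomm]
    · rw [if_neg hc]
      exact sum_eq_zero fun x _ => sum_eq_zero fun i _ => by simp [hc]
  rw [h3, Blk.U, h1, h2, show (n : ℝ) * (blockOf β src dst S τ).b = β from
    mul_div_cancel₀ β (by exact_mod_cast hn.ne')]
  ring

omit [DecidableEq V] [Fintype E] in
theorem avg_add_const {ι : Type} [Fintype ι] (U f : Conf ι n → ℝ) (c : ℝ) :
    avg (fun σ => U σ + c) f = avg U f := by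
  simp only [avg, Real.exp_add, mul_right_comm _ (Real.exp c)]
  rw [integral_mul_const, integral_mul_const, mul_div_mul_right _ _ (Real.exp_pos c).ne']

/-- A conditional expectation is an average in block data. -/
theorem condAvg_eq (hl : ∀ e, src e ≠ dst e) (β : ℝ) (hn : 0 < n) (S : Finset V) (τ : Conf V n)
    (f : Conf V n → ℝ) :
    condAvg β src dst S τ f = avg (blockOf β src dst S τ).U (fun σ => f (glue S σ τ)) := by
  rw [condAvg]
  simp only [energy_glue hl β hn]
  exact avg_add_const _ _ _

omit [Fintype V] [Fintype E] in
theorem continuous_glue (S : Finset V) (τ : Conf V n) :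
    Continuous fun σ : Conf ↥S n => glue S σ τ :=
  continuous_pi fun v => by
    by_cases h : v ∈ S
    · simp only [glue, h, dif_pos]; exact continuous_apply _
    · simp only [glue, h]; exact continuous_const

/-- Take the spins of `T` from `η` and the others from `σ`. -/
def merge (T : Finset V) (η σ : Conf V n) : Conf V n := fun v => if v ∈ T then η v else σ v

omit [Fintype V] [Fintype E] in
theorem continuous_merge (T : Finset V) :
    Continuous fun p : Conf V n × Conf V n => merge T p.1 p.2 :=
  continuous_pi fun v => by
    by_cases h : v ∈ T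
    · simp only [merge, h, if_true]; exact (continuous_apply v).comp continuous_fst
    · simp only [merge, h, if_false]; exact (continuous_apply v).comp continuous_snd

omit [Fintype E] in
theorem measurePreserving_merge [NeZero n] (T : Finset V) :
    MeasurePreserving (fun p : Conf V n × Conf V n => merge T p.1 p.2)
      ((base V n).prod (base V n)) (base V n) := by
  refine ⟨(continuous_merge T).measurable, ?_⟩
  refine (Measure.pi_eq fun s hs => ?_).symm
  rw [Measure.map_apply (continuous_merge T).measurable (MeasurableSet.univ_pi hs)]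
  have e : (fun p : Conf V n × Conf V n => merge T p.1 p.2) ⁻¹' Set.univ.pi s
      = (Set.univ.pi fun v => if v ∈ T then s v else Set.univ) ×ˢ
        (Set.univ.pi fun v => if v ∈ T then Set.univ else s v) := by
    ext p
    simp only [Set.mem_preimage, Set.mem_univ_pi, Set.mem_prod, merge]
    constructor
    · intro h
      constructor <;> intro v <;> have := h v <;> split_ifs at this ⊢ <;> simp_all
    · rintro ⟨h1, h2⟩ v
      have := h1 v
      have := h2 v
      split_ifs <;> simp_all
  rw [e, Measure.prod_prod, base, Measure.pi_pi, Measure.pi_pi, ← prod_mul_distrib]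
  refine prod_congr rfl fun v _ => ?_
  split_ifs <;> simp

omit [Fintype E] in
theorem integral_merge [NeZero n] (T : Finset V) {G : Conf V n → ℝ} (hG : Continuous G) :
    ∫ σ, ∫ η, G (merge T η σ) ∂base V n ∂base V n = ∫ ω, G ω ∂base V n := by
  have hm := measurePreserving_merge (n := n) T
  have hc : Continuous fun p : Conf V n × Conf V n => G (merge T p.1 p.2) :=
    hG.comp (continuous_merge T)
  have hint : Integrable (fun p : Conf V n × Conf V n => G (merge T p.1 p.2))
      ((base V n).prod (base V n)) :=
    hm.integrable_comp_of_integrable (integrable_base hG)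
  rw [← integral_prod_symm _ hint]
  exact (integral_map hm.measurable.aemeasurable hG.aestronglyMeasurable).symm.trans (by rw [hm.map_eq])

omit [Fintype E] in
theorem integral_sub_base [NeZero n] (S : Finset V) {G : Conf ↥S n → ℝ} (hG : Continuous G) :
    ∫ σ, G σ ∂base ↥S n = ∫ ω, G (fun v => ω v.1) ∂base V n := by
  have hr : Measurable fun ω : Conf V n => fun v : ↥S => ω v.1 :=
    measurable_pi_lambda _ fun v => measurable_pi_apply v.1
  have hmap : Measure.map (fun ω : Conf V n => fun v : ↥S => ω v.1) (base V n) = base ↥S n := by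
    refine (Measure.pi_eq fun s hs => ?_).symm
    rw [Measure.map_apply hr (MeasurableSet.univ_pi hs)]
    have e : (fun ω : Conf V n => fun v : ↥S => ω v.1) ⁻¹' Set.univ.pi s
        = Set.univ.pi fun v => if h : v ∈ S then s ⟨v, h⟩ else Set.univ := by
      ext ω
      simp only [Set.mem_preimage, Set.mem_univ_pi]
      constructor
      · intro h v
        split_ifs with hv
        · exact h ⟨v, hv⟩
        · exact Set.mem_univ _
      · intro h v
        have := h v.1
        rwa [dif_pos v.2] at this
    rw [e, base, Measure.pi_pi,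
      ← Finset.prod_subset (subset_univ S) fun v _ hv => by rw [dif_neg hv]; simp,
      ← Finset.prod_coe_sort S]
    exact Finset.prod_congr rfl fun v _ => by rw [dif_pos v.2]
  rw [← hmap, integral_map hr.aemeasurable hG.aestronglyMeasurable]

/-- The weight and mass of a set given the outside, written on the whole vertex set. -/
theorem condAvg_eq_merge [NeZero n] (β : ℝ) (S : Finset V) (τ : Conf V n) {f : Conf V n → ℝ}
    (hf : Continuous f) :
    condAvg β src dst S τ f
      = (∫ ω, Real.exp (energy β src dst (merge S ω τ)) * f (merge S ω τ) ∂base V n)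
        / ∫ ω, Real.exp (energy β src dst (merge S ω τ)) ∂base V n := by
  have hg := continuous_glue (n := n) S τ
  have e : ∀ ω : Conf V n, glue S (fun v => ω v.1) τ = merge S ω τ := fun ω => funext fun v => by
    by_cases h : v ∈ S <;> simp [glue, merge, h]
  rw [condAvg, avg, integral_sub_base (G := fun σ => Real.exp (energy β src dst (glue S σ τ))
      * f (glue S σ τ)) S (by fun_prop),
    integral_sub_base (G := fun σ => Real.exp (energy β src dst (glue S σ τ))) S (by fun_prop)]
  simp only [e]

theorem continuous_condAvg [NeZero n] (β : ℝ) (S : Finset V) {f : Conf V n → ℝ}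
    (hf : Continuous f) : Continuous fun τ => condAvg β src dst S τ f := by
  simp only [condAvg_eq_merge β S _ hf]
  have hm : Continuous fun p : Conf V n × Conf V n => merge S p.2 p.1 :=
    (continuous_merge S).comp (continuous_snd.prodMk continuous_fst)
  refine Continuous.div ?_ ?_ fun τ => (integral_exp_pos (integrable_base ?_)).ne'
  · have hc : Continuous (Function.uncurry fun (τ : Conf V n) (ω : Conf V n) =>
        Real.exp (energy β src dst (merge S ω τ)) * f (merge S ω τ)) :=
      (Real.continuous_exp.comp ((continuous_energy β src dst).comp hm)).mul (hf.comp hm)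
    simpa using continuous_parametric_integral_of_continuous (μ := base V n) hc isCompact_univ
  · have hc : Continuous (Function.uncurry fun (τ : Conf V n) (ω : Conf V n) =>
        Real.exp (energy β src dst (merge S ω τ))) :=
      Real.continuous_exp.comp ((continuous_energy β src dst).comp hm)
    simpa using continuous_parametric_integral_of_continuous (μ := base V n) hc isCompact_univ
  · exact Continuous.rexp ((continuous_energy β src dst).comp (hm.comp (Continuous.prodMk_right τ)))

/-- The tower property. -/
theorem condAvg_tower [NeZero n] (β : ℝ) {T S : Finset V} (hTS : T ⊆ S) (τ : Conf V n)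
    {f : Conf V n → ℝ} (hf : Continuous f) :
    condAvg β src dst S τ f = condAvg β src dst S τ fun ω => condAvg β src dst T ω f := by
  set W : Conf V n → ℝ := fun ω => Real.exp (energy β src dst ω)
  have hW : Continuous W := Real.continuous_exp.comp (continuous_energy β src dst)
  set g := fun ω => condAvg β src dst T ω f
  have hg : Continuous g := continuous_condAvg β T hf
  have hmS : Continuous fun ω : Conf V n => merge S ω τ :=
    (continuous_merge S).comp (continuous_id.prodMk continuous_const)
  have key : ∫ ω, W (merge S ω τ) * f (merge S ω τ) ∂base V n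
      = ∫ ω, W (merge S ω τ) * g (merge S ω τ) ∂base V n := by
    rw [← integral_merge T (G := fun ω => W (merge S ω τ) * f (merge S ω τ)) (by fun_prop),
      ← integral_merge T (G := fun ω => W (merge S ω τ) * g (merge S ω τ)) (by fun_prop)]
    refine integral_congr_ae (Filter.Eventually.of_forall fun σ => ?_)
    have e : ∀ η, merge S (merge T η σ) τ = merge T η (merge S σ τ) := fun η => funext fun v => by
      by_cases h : v ∈ T
      · simp [merge, h, hTS h]
      · simp [merge, h]
    have eg : ∀ η, g (merge T η (merge S σ τ)) = g (merge S σ τ) := fun η => by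
      simp only [g, condAvg_eq_merge β T _ hf]
      have ee : ∀ ω, merge T ω (merge T η (merge S σ τ)) = merge T ω (merge S σ τ) := fun ω =>
        funext fun v => by by_cases h : v ∈ T <;> simp [merge, h]
      simp only [ee]
    simp only [e, eg]
    rw [integral_mul_const, show g (merge S σ τ) = _ from condAvg_eq_merge β T _ hf]
    refine (mul_div_cancel₀ _ ?_).symm
    exact (integral_exp_pos (integrable_base (hW.comp
      ((continuous_merge T).comp (continuous_id.prodMk continuous_const))))).ne'
  rw [condAvg_eq_merge β S τ hf, condAvg_eq_merge β S τ hg]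
  simp only [W] at key
  rw [key]

end Vale.Agent.P163.Gap
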