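import Vale.Agent.P163.Gap.Defs
import Mathlib.Analysis.Matrix.PosDef
import Mathlib.Analysis.Matrix.Order
import Mathlib.LinearAlgebra.Matrix.SchurComplement

/-!
# The spherical saddle of a block, its gap and the decay of its Green function
-/

noncomputable section

namespace Vale.Agent.P163.Gap

open Matrix Finset

variable {ι : Type} [Fintype ι] {n : ℕ}

/-- Cauchy-Schwarz for a positive semidefinite form. -/
theorem form_cs {M : Matrix ι ι ℝ} (hM : M.PosSemidef) (u v : ι → ℝ) :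
    (u ⬝ᵥ (M *ᵥ v)) ^ 2 ≤ (u ⬝ᵥ (M *ᵥ u)) * (v ⬝ᵥ (M *ᵥ v)) := by
  have hs : v ⬝ᵥ (M *ᵥ u) = u ⬝ᵥ (M *ᵥ v) := by
    have h : Mᵀ = M := by simpa [Matrix.IsHermitian] using hM.1
    rw [dotProduct_mulVec, ← mulVec_transpose, h, dotProduct_comm]
  have h : ∀ t : ℝ, 0 ≤ (v ⬝ᵥ (M *ᵥ v)) * (t * t) + 2 * (u ⬝ᵥ (M *ᵥ v)) * t + u ⬝ᵥ (M *ᵥ u) := by
    intro t
    have h := hM.dotProduct_mulVec_nonneg (u + t • v)
    simp only [star_trivial, mulVec_add, mulVec_smul, add_dotProduct, dotProduct_add,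
      smul_dotProduct, dotProduct_smul, smul_eq_mul, hs] at h
    linarith
  have h := discrim_le_zero h
  rw [discrim] at h
  linarith

variable [DecidableEq ι]

/-- A vector is bounded by the form and the diagonal of the inverse. -/
theorem sq_le_form {M : Matrix ι ι ℝ} (hM : M.PosDef) (f : ι → ℝ) (x : ι) :
    f x ^ 2 ≤ M⁻¹ x x * (f ⬝ᵥ (M *ᵥ f)) := by
  have hu : IsUnit M.det := hM.det_pos.ne'.isUnit
  have h := form_cs hM.posSemidef f (M⁻¹ *ᵥ Pi.single x 1)
  rw [mulVec_mulVec, mul_nonsing_inv _ hu, one_mulVec] at h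
  simpa [dotProduct_single, Matrix.mulVec_single, mul_comm] using h

namespace Blk

variable (P : Blk ι n)

omit [Fintype ι] in
theorem H_diag (hP : ∀ x, P.A x x = 0) (lam : ι → ℝ) (x : ι) : P.H lam x x = lam x := by
  simp [H, hP x]

omit [Fintype ι] in
theorem H_isHermitian (hs : ∀ x y, P.A x y = P.A y x) (lam : ι → ℝ) :
    (P.H lam).IsHermitian := by
  refine Matrix.IsHermitian.ext fun x y => ?_
  rcases eq_or_ne x y with rfl | h
  · simp
  · simp [H, h, h.symm, hs x y]

theorem mulVec_H (lam f : ι → ℝ) (x : ι) :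
    (P.H lam *ᵥ f) x = lam x * f x - P.b * ∑ y, P.A x y * f y := by
  rw [H, sub_mulVec, smul_mulVec, Pi.sub_apply, mulVec_diagonal, Pi.smul_apply, smul_eq_mul]
  simp [mulVec, dotProduct]

theorem form_eq (lam f : ι → ℝ) :
    f ⬝ᵥ (P.H lam *ᵥ f)
      = ∑ x, lam x * f x ^ 2 - P.b * ∑ x, ∑ y, P.A x y * (f x * f y) := by
  simp only [dotProduct, P.mulVec_H, mul_sub, sum_sub_distrib, mul_sum]
  congr 1
  · exact sum_congr rfl fun x _ => by ring
  · exact sum_congr rfl fun x _ => sum_congr rfl fun y _ => by ring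

omit [DecidableEq ι] in
theorem abs_adj_le (hP : P.Ok) (f : ι → ℝ) :
    ∑ x, ∑ y, P.A x y * |f x * f y| ≤ 4 * ∑ x, f x ^ 2 := by
  have h : ∑ x, ∑ y, P.A x y * |f x * f y|
      ≤ ∑ x, ∑ y, P.A x y * ((f x ^ 2 + f y ^ 2) / 2) := by
    refine sum_le_sum fun x _ => sum_le_sum fun y _ => mul_le_mul_of_nonneg_left ?_ (hP.nonneg x y)
    rw [abs_mul, ← sq_abs (f x), ← sq_abs (f y)]
    nlinarith [sq_nonneg (|f x| - |f y|)]
  have h2 : ∑ x, ∑ y, P.A x y * f y ^ 2 = ∑ x, ∑ y, P.A x y * f x ^ 2 := by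
    rw [sum_comm]
    exact sum_congr rfl fun x _ => sum_congr rfl fun y _ => by rw [hP.symm y x]
  have h3 : ∑ x, ∑ y, P.A x y * f x ^ 2 ≤ ∑ x, 4 * f x ^ 2 := sum_le_sum fun x _ => by
    rw [← sum_mul]
    exact mul_le_mul_of_nonneg_right (hP.row x) (sq_nonneg _)
  have h4 : ∑ x, ∑ y, P.A x y * ((f x ^ 2 + f y ^ 2) / 2)
      = (∑ x, ∑ y, P.A x y * f x ^ 2 + ∑ x, ∑ y, P.A x y * f y ^ 2) / 2 := by
    simp only [← sum_add_distrib, sum_div]
    exact sum_congr rfl fun x _ => sum_congr rfl fun y _ => by ring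
  rw [← mul_sum] at h3
  linarith

/-- The potential in the dual of the field of component `i`. -/
def src (i : Fin n) (x : ι) : ℝ := P.b * P.h x i

/-- The function minimised at the saddle. -/
def Phi (lam : ι → ℝ) : ℝ :=
  ∑ x, lam x - Real.log (P.H lam).det + ∑ i, P.src i ⬝ᵥ ((P.H lam)⁻¹ *ᵥ P.src i)

/-- A rank one change of the potential. -/
theorem perturb (lam : ι → ℝ) (x : ι) (hd : (P.H lam).PosDef) (t : ℝ)
    (ht : |t| * (P.H lam)⁻¹ x x < 1) :
    (P.H (lam + Pi.single x t)).PosDef ∧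
      P.Phi (lam + Pi.single x t) = P.Phi lam + t - Real.log (1 + t * (P.H lam)⁻¹ x x)
        - t / (1 + t * (P.H lam)⁻¹ x x) * ∑ i, ((P.H lam)⁻¹ *ᵥ P.src i) x ^ 2 := by
  set M := P.H lam with hM
  set C := M⁻¹ with hC
  have hu : IsUnit M.det := hd.det_pos.ne'.isUnit
  have hCpd : C.PosDef := hd.inv
  have hCxx : 0 ≤ C x x := hCpd.diag_pos.le
  have hpos : 0 < 1 + t * C x x := by
    nlinarith [neg_abs_le t]
  set e : ι → ℝ := Pi.single x 1 with he
  set c : ι → ℝ := C *ᵥ e with hc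
  have hM' : P.H (lam + Pi.single x t) = M + t • vecMulVec e e := by
    ext a b
    simp only [hM, H, he, Matrix.add_apply, Matrix.sub_apply, Matrix.smul_apply, diagonal_apply,
      vecMulVec_apply, Pi.add_apply, Pi.single_apply, smul_eq_mul]
    split_ifs <;> subst_vars <;> simp_all <;> ring
  have hMc : M *ᵥ c = e := by
    rw [hc, mulVec_mulVec, mul_nonsing_inv _ hu, one_mulVec]
  have hCs : Cᵀ = C := by simpa [Matrix.IsHermitian] using hCpd.1
  have hec : e ⬝ᵥ c = C x x := by simp [he, hc, mulVec_single]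
  have hcv : ∀ v, c ⬝ᵥ v = (C *ᵥ v) x := fun v => by
    rw [hc, dotProduct_comm, dotProduct_mulVec, ← mulVec_transpose, hCs, he, dotProduct_single,
      mul_one]
  have hinv : (P.H (lam + Pi.single x t))⁻¹ = C - (t / (1 + t * C x x)) • vecMulVec c c := by
    refine inv_eq_right_inv ?_
    rw [hM', add_mul, mul_sub, mul_sub, mul_nonsing_inv _ hu, mul_smul_comm, mul_vecMulVec, hMc,
      smul_mul_assoc, smul_mul_assoc, vecMulVec_mul, mul_smul_comm, vecMulVec_mul_vecMulVec, hec]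
    have hrow : e ᵥ* C = c := by rw [← mulVec_transpose, hCs]
    rw [hrow]
    ext a b
    simp only [Matrix.add_apply, Matrix.sub_apply, Matrix.smul_apply, vecMulVec_apply,
      smul_eq_mul, Pi.smul_apply]
    field_simp
    ring
  have hdet : (P.H (lam + Pi.single x t)).det = M.det * (1 + t * C x x) := by
    rw [hM', ← smul_vecMulVec, vecMulVec_eq Unit, det_add_replicateCol_mul_replicateRow hu]
    congr 1
    rw [det_unique, Matrix.add_apply, Matrix.one_apply_eq, Matrix.mul_assoc,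
      ← Matrix.replicateCol_mulVec, Matrix.replicateRow_mul_replicateCol_apply, mulVec_smul,
      dotProduct_smul, smul_eq_mul, ← hc, hec]
  refine ⟨?_, ?_⟩
  · have hherm : (t • vecMulVec e e : Matrix ι ι ℝ).IsHermitian :=
      Matrix.IsHermitian.ext fun a b => by simp [vecMulVec_apply, mul_comm (e b)]
    refine PosDef.of_dotProduct_mulVec_pos (by rw [hM']; exact hd.1.add hherm) fun f hf => ?_
    have h0 : 0 < f ⬝ᵥ (M *ᵥ f) := by simpa using hd.dotProduct_mulVec_pos hf
    have h1 : f ⬝ᵥ (P.H (lam + Pi.single x t) *ᵥ f) = f ⬝ᵥ (M *ᵥ f) + t * f x ^ 2 := by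
      rw [hM', add_mulVec, dotProduct_add, smul_mulVec, dotProduct_smul, smul_eq_mul,
        vecMulVec_mulVec]
      simp [he, pow_two]
    have h2 := sq_le_form hd f x
    rw [star_trivial, h1]
    nlinarith [mul_le_mul_of_nonneg_left h2 (abs_nonneg t), neg_abs_le t, sq_nonneg (f x),
      mul_lt_mul_of_pos_right ht h0]
  · have hq : ∀ v, v ⬝ᵥ ((P.H (lam + Pi.single x t))⁻¹ *ᵥ v)
        = v ⬝ᵥ (C *ᵥ v) - t / (1 + t * C x x) * (C *ᵥ v) x ^ 2 := fun v => by
      rw [hinv, sub_mulVec, dotProduct_sub, smul_mulVec, dotProduct_smul, smul_eq_mul,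
        vecMulVec_mulVec]
      simp [dotProduct_smul, dotProduct_comm v c, hcv, pow_two]
    simp only [Phi, hdet, hq, sum_sub_distrib, ← mul_sum, Real.log_mul hd.det_pos.ne' hpos.ne']
    simp only [← hM, ← hC, Pi.add_apply, sum_add_distrib, sum_pi_single', mem_univ, if_true]
    ring

/-- The saddle exists. -/
theorem exists_saddle (hP : P.Ok) : Nonempty (Saddle P) := by
  have hlog : ∀ {lam : ι → ℝ}, (P.H lam).PosDef → Real.log (P.H lam).det ≤ (∑ x, lam x) / 2 := by
    intro lam hd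
    rw [hd.1.det_eq_prod_eigenvalues]
    simp only [RCLike.ofReal_real_eq_id, id]
    rw [Real.log_prod fun i _ => (hd.eigenvalues_pos i).ne']
    have htr : ∑ x, lam x = ∑ i, hd.1.eigenvalues i := by
      have h := hd.1.trace_eq_sum_eigenvalues
      simpa [Matrix.trace, P.H_diag hP.diag] using h
    rw [htr, sum_div]
    refine sum_le_sum fun i _ => ?_
    have hpos := hd.eigenvalues_pos i
    have h1 := Real.log_le_sub_one_of_pos (show 0 < hd.1.eigenvalues i / 2 by linarith)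
    rw [Real.log_div hpos.ne' (by norm_num)] at h1
    linarith [Real.log_two_lt_d9]
  have hquad : ∀ {lam : ι → ℝ}, (P.H lam).PosDef →
      0 ≤ ∑ i, P.src i ⬝ᵥ ((P.H lam)⁻¹ *ᵥ P.src i) := fun hd =>
    sum_nonneg fun i _ => by simpa using hd.inv.posSemidef.dotProduct_mulVec_nonneg (P.src i)
  have hlam : ∀ {lam : ι → ℝ}, (P.H lam).PosDef → ∀ x, 0 < lam x := fun hd x => by
    simpa [P.H_diag hP.diag] using hd.diag_pos (i := x)
  set l₀ : ι → ℝ := fun _ => 1 + 4 * P.b
  have hd₀ : (P.H l₀).PosDef := by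
    refine PosDef.of_dotProduct_mulVec_pos (P.H_isHermitian hP.symm _) fun f hf => ?_
    rw [star_trivial, P.form_eq]
    have h := P.abs_adj_le hP f
    have hle : ∑ x, ∑ y, P.A x y * (f x * f y) ≤ ∑ x, ∑ y, P.A x y * |f x * f y| :=
      sum_le_sum fun x _ => sum_le_sum fun y _ =>
        mul_le_mul_of_nonneg_left (le_abs_self _) (hP.nonneg x y)
    have hsq : 0 < ∑ x, f x ^ 2 := by
      obtain ⟨x, hx⟩ := Function.ne_iff.1 hf
      exact sum_pos' (fun y _ => sq_nonneg _)
        ⟨x, mem_univ x, lt_of_le_of_ne (sq_nonneg _) (Ne.symm (pow_ne_zero 2 hx))⟩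
    simp only [l₀, ← mul_sum]
    nlinarith [hP.b_pos]
  set F₀ := P.Phi l₀ with hF₀
  set S : Set (ι → ℝ) := {lam | (∀ x, 0 ≤ lam x ∧ lam x ≤ 2 * F₀) ∧
    (∀ f, 0 ≤ f ⬝ᵥ (P.H lam *ᵥ f)) ∧ Real.exp (-F₀) ≤ (P.H lam).det}
  have hmem : ∀ {lam}, (P.H lam).PosDef → P.Phi lam ≤ F₀ → lam ∈ S := by
    intro lam hd hle
    have h1 := hlog hd
    have h2 := hquad hd
    simp only [Phi] at hle
    refine ⟨fun x => ⟨(hlam hd x).le, ?_⟩,
      fun f => by simpa using hd.posSemidef.dotProduct_mulVec_nonneg f, ?_⟩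
    · have h3 : lam x ≤ ∑ y, lam y :=
        single_le_sum (fun y _ => (hlam hd y).le) (mem_univ x)
      linarith
    · have h4 : 0 ≤ ∑ y, lam y := sum_nonneg fun y _ => (hlam hd y).le
      rw [← Real.exp_log hd.det_pos]
      exact Real.exp_le_exp.2 (by linarith)
  have hHc : Continuous fun lam : ι → ℝ => P.H lam := by
    refine continuous_pi fun a => continuous_pi fun b => ?_
    simp only [H, Matrix.sub_apply, diagonal_apply]
    split_ifs <;> fun_prop
  have hdc : Continuous fun lam : ι → ℝ => (P.H lam).det := hHc.matrix_det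
  have hbox : S ⊆ Set.pi Set.univ fun _ : ι => Set.Icc (0 : ℝ) (2 * F₀) :=
    fun lam h x _ => h.1 x
  have hclosed : IsClosed S := by
    simp only [S, Set.ofPred_and, Set.ofPred_forall]
    refine (isClosed_iInter fun x => ?_).inter ((isClosed_iInter fun f => ?_).inter ?_)
    · exact (isClosed_le continuous_const (continuous_apply x)).inter
        (isClosed_le (continuous_apply x) continuous_const)
    · exact isClosed_le continuous_const (by fun_prop)
    · exact isClosed_le continuous_const hdc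
  have hcpt : IsCompact S :=
    (isCompact_univ_pi fun _ => isCompact_Icc).of_isClosed_subset hclosed hbox
  have hpd : ∀ lam ∈ S, (P.H lam).PosDef := fun lam h => by
    have hps : (P.H lam).PosSemidef := .of_dotProduct_mulVec_nonneg (P.H_isHermitian hP.symm _)
      fun f => by simpa using h.2.1 f
    exact hps.posDef_iff_det_ne_zero.2 ((Real.exp_pos _).trans_le h.2.2).ne'
  have hcont : ContinuousOn P.Phi S := by
    have hne : ∀ lam ∈ S, (P.H lam).det ≠ 0 := fun lam h => (hpd lam h).det_pos.ne'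
    refine (ContinuousOn.sub (Continuous.continuousOn (by fun_prop))
      (hdc.continuousOn.log hne)).add (continuousOn_finsetSum _ fun i _ => ?_)
    have hinv : ∀ lam ∈ S, P.src i ⬝ᵥ ((P.H lam)⁻¹ *ᵥ P.src i)
        = ((P.H lam).det)⁻¹ * (P.src i ⬝ᵥ ((P.H lam).adjugate *ᵥ P.src i)) := fun lam h => by
      rw [Matrix.inv_def, Ring.inverse_eq_inv', smul_mulVec, dotProduct_smul, smul_eq_mul]
    refine ContinuousOn.congr ?_ hinv
    refine (hdc.continuousOn.inv₀ hne).mul ?_
    have := hHc.matrix_adjugate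
    exact (continuous_const.dotProduct (this.matrix_mulVec continuous_const)).continuousOn
  obtain ⟨lam, hlamS, hmin⟩ := hcpt.exists_isMinOn ⟨l₀, hmem hd₀ le_rfl⟩ hcont
  have hd := hpd lam hlamS
  have hglob : ∀ l, (P.H l).PosDef → P.Phi lam ≤ P.Phi l := by
    intro l hl
    rcases le_or_gt (P.Phi l) F₀ with h | h
    · exact hmin (hmem hl h)
    · exact le_trans (hmin (hmem hd₀ le_rfl)) h.le
  refine ⟨⟨lam, (P.H lam)⁻¹, fun x i => ((P.H lam)⁻¹ *ᵥ P.src i) x, hd, rfl, fun x i => rfl,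
    fun x => ?_⟩⟩
  set c := (P.H lam)⁻¹ x x
  set μ2 := ∑ i, ((P.H lam)⁻¹ *ᵥ P.src i) x ^ 2
  set g : ℝ → ℝ := fun t => t - Real.log (1 + t * c) - t / (1 + t * c) * μ2 with hg
  have hloc : IsLocalMin g 0 := by
    have hev : ∀ᶠ t : ℝ in nhds 0, |t| * c < 1 :=
      (continuous_abs.mul continuous_const).continuousAt.eventually_lt continuousAt_const (by simp)
    refine hev.mono fun t ht => ?_
    obtain ⟨hd', hphi⟩ := P.perturb lam x hd t ht
    have := hglob _ hd'
    rw [hphi] at this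
    simp only [hg, zero_mul, add_zero, Real.log_one, sub_zero, zero_div]
    linarith
  have hlin : HasDerivAt (fun t : ℝ => 1 + t * c) c 0 := by
    simpa using ((hasDerivAt_id (0 : ℝ)).mul_const c).const_add 1
  have hder : HasDerivAt g (1 - c - μ2) 0 := by
    have h1 := ((hasDerivAt_id (0 : ℝ)).sub (hlin.log (by simp))).sub
      (((hasDerivAt_id (0 : ℝ)).div hlin (by simp)).mul_const μ2)
    exact h1.congr_deriv (by simp)
  have := hloc.hasDerivAt_eq_zero hder
  linarith

end Blk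

namespace Saddle

variable {P : Blk ι n} (S : Saddle P)

theorem C_posDef : S.C.PosDef := S.C_eq ▸ S.posDef.inv

theorem C_symm (x y : ι) : S.C x y = S.C y x := by
  simpa using (S.C_posDef.1.apply x y).symm

theorem C_diag_le (x : ι) : S.C x x ≤ 1 := by
  have := S.diag_eq x
  linarith [sum_nonneg fun i (_ : i ∈ univ) => sq_nonneg (S.m x i)]

theorem H_mul_C : P.H S.lam * S.C = 1 := by
  rw [S.C_eq, mul_nonsing_inv _ S.posDef.det_pos.ne'.isUnit]

theorem two_C_le (x y : ι) : 2 * |S.C x y| ≤ S.C x x + S.C y y := by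
  have h := form_cs S.C_posDef.posSemidef (Pi.single x 1) (Pi.single y 1)
  simp only [mulVec_single, single_dotProduct, one_mul, MulOpposite.op_one, one_smul,
    Matrix.col_apply] at h
  rw [← sq_abs] at h
  nlinarith [S.C_posDef.diag_pos (i := x), S.C_posDef.diag_pos (i := y), abs_nonneg (S.C x y),
    sq_nonneg (S.C x x - S.C y y)]

theorem abs_C_le (x y : ι) : |S.C x y| ≤ 1 := by
  linarith [S.two_C_le x y, S.C_diag_le x, S.C_diag_le y]

theorem abs_G_le (x y : ι) : |S.G x y| ≤ 1 := by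
  have h1 := S.two_C_le x y
  have h2 : |∑ i, S.m x i * S.m y i| ≤ (∑ i, S.m x i ^ 2 + ∑ i, S.m y i ^ 2) / 2 := by
    refine (abs_sum_le_sum_abs _ _).trans ?_
    rw [← sum_add_distrib, sum_div]
    refine sum_le_sum fun i _ => ?_
    rw [abs_mul, ← sq_abs (S.m x i), ← sq_abs (S.m y i)]
    nlinarith [sq_nonneg (|S.m x i| - |S.m y i|)]
  have h3 := S.diag_eq x
  have h4 := S.diag_eq y
  rw [G]
  linarith [abs_add_le (S.C x y) (∑ i, S.m x i * S.m y i)]

/-- The potential is the mean local energy. -/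
theorem lam_eq (x : ι) : S.lam x = 1 + P.b * S.qbar x := by
  have h1 : (P.H S.lam *ᵥ fun y => S.C y x) x = 1 := by
    have := congrFun (congrFun S.H_mul_C x) x
    simpa [Matrix.mul_apply, mulVec, dotProduct] using this
  rw [P.mulVec_H] at h1
  have h2 : ∀ i, S.lam x * S.m x i - P.b * ∑ y, P.A x y * S.m y i = P.b * P.h x i := by
    intro i
    rw [← P.mulVec_H S.lam (fun y => S.m y i) x]
    have : (fun y => S.m y i) = S.C *ᵥ fun z => P.b * P.h z i := by
      funext y
      simp [S.m_eq, mulVec, dotProduct]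
    rw [this, mulVec_mulVec, H_mul_C, one_mulVec]
  have h3 : S.lam x * ∑ i, S.m x i ^ 2
      = P.b * ∑ y, P.A x y * ∑ i, S.m x i * S.m y i + P.b * ∑ i, S.m x i * P.h x i := by
    have : ∀ i ∈ (univ : Finset (Fin n)), S.lam x * S.m x i ^ 2
        = P.b * ∑ y, P.A x y * (S.m x i * S.m y i) + P.b * (S.m x i * P.h x i) := fun i _ => by
      have hmul : ∑ y, P.A x y * (S.m x i * S.m y i) = S.m x i * ∑ y, P.A x y * S.m y i := by
        rw [mul_sum]; exact sum_congr rfl fun y _ => by ring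
      rw [hmul]
      linear_combination S.m x i * h2 i
    rw [mul_sum, sum_congr rfl this, sum_add_distrib]
    simp only [mul_sum]
    rw [sum_comm]
  have h4 : ∑ y, P.A x y * S.G x y
      = ∑ y, P.A x y * S.C y x + ∑ y, P.A x y * ∑ i, S.m x i * S.m y i := by
    rw [← sum_add_distrib]
    exact sum_congr rfl fun y _ => by rw [G, S.C_symm y x]; ring
  rw [qbar, h4]
  linear_combination h1 + h3 - S.lam x * S.diag_eq x

theorem lam_le (hP : P.Ok) (x : ι) : S.lam x ≤ 1 + 8 * P.b := by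
  rw [S.lam_eq]
  have h1 : ∑ y, P.A x y * S.G x y ≤ 4 := by
    refine le_trans (sum_le_sum fun y _ => ?_) (hP.row x)
    calc P.A x y * S.G x y ≤ P.A x y * 1 :=
          mul_le_mul_of_nonneg_left ((le_abs_self _).trans (S.abs_G_le x y)) (hP.nonneg x y)
      _ = P.A x y := mul_one _
  have h2 : ∑ i, S.m x i * P.h x i ≤ 4 := by
    have h := sum_mul_sq_le_sq_mul_sq univ (fun i => S.m x i) (fun i => P.h x i)
    have hm : ∑ i, S.m x i ^ 2 ≤ 1 := by linarith [S.diag_eq x, S.C_posDef.diag_pos (i := x)]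
    nlinarith [hP.field x, sum_nonneg fun i (_ : i ∈ univ) => sq_nonneg (S.m x i),
      sum_nonneg fun i (_ : i ∈ univ) => sq_nonneg (P.h x i)]
  rw [qbar]
  nlinarith [hP.b_pos]

/-- Exponential decay of the Green function from a gap. -/
theorem decay (hP : P.Ok) {γ : ℝ} (hγ : 0 < γ) (hγ1 : γ ≤ 1) (hgap : P.Gap γ) (d : ι → ℝ) (y : ι)
    (hy : d y = 0) (hd : ∀ u v, P.A u v ≠ 0 → |d u - d v| ≤ 1) (x : ι) :
    |S.C x y| ≤ Real.sqrt (2 / γ) * Real.exp (-(γ / (8 * max P.b 1)) * d x) := by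
  set α := γ / (8 * max P.b 1) with hα
  have hB : (0 : ℝ) < 8 * max P.b 1 := by positivity
  have hα0 : 0 ≤ α := by positivity
  have hα1 : α ≤ 1 := by
    rw [hα, div_le_one hB]
    linarith [le_max_right P.b 1]
  set w : ι → ℝ := fun z => Real.exp (α * d z)
  set u : ι → ℝ := fun z => S.C z y
  set f : ι → ℝ := fun z => w z * u z
  have hHu : ∀ z, (P.H S.lam *ᵥ u) z = if z = y then 1 else 0 := fun z => by
    have := congrFun (congrFun S.H_mul_C z) y
    simpa [Matrix.mul_apply, mulVec, dotProduct, Matrix.one_apply, u] using this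
  set r : ι → ι → ℝ := fun a c => Real.exp (α * (d a - d c))
  have hpair : ∑ a, w a ^ 2 * u a * (P.H S.lam *ᵥ u) a
      = ∑ a, S.lam a * f a ^ 2 - P.b * ∑ a, ∑ c, P.A a c * r a c * (f a * f c) := by
    simp only [P.mulVec_H, mul_sub, sum_sub_distrib, mul_sum]
    congr 1
    · exact sum_congr rfl fun a _ => by ring
    · refine sum_congr rfl fun a _ => sum_congr rfl fun c _ => ?_
      have : r a c * w c = w a := by
        simp only [r, w, ← Real.exp_add]
        ring_nf
      simp only [f, pow_two]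
      linear_combination (-(P.b * P.A a c * w a * u a * u c)) * this
  have hval : ∑ a, w a ^ 2 * u a * (P.H S.lam *ᵥ u) a = u y := by
    simp [hHu, w, hy]
  have hsym : ∑ a, ∑ c, P.A a c * r a c * (f a * f c)
      = ∑ a, ∑ c, P.A a c * ((r a c + r c a) / 2) * (f a * f c) := by
    have e : ∑ a, ∑ c, P.A a c * r c a * (f a * f c) = ∑ a, ∑ c, P.A a c * r a c * (f a * f c) := by
      rw [sum_comm]
      exact sum_congr rfl fun a _ => sum_congr rfl fun c _ => by rw [hP.symm c a]; ring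
    have : ∑ a, ∑ c, P.A a c * ((r a c + r c a) / 2) * (f a * f c)
        = (∑ a, ∑ c, P.A a c * r a c * (f a * f c)
          + ∑ a, ∑ c, P.A a c * r c a * (f a * f c)) / 2 := by
      simp only [← sum_add_distrib, sum_div]
      exact sum_congr rfl fun a _ => sum_congr rfl fun c _ => by ring
    linarith
  have herr : ∑ a, ∑ c, P.A a c * ((r a c + r c a) / 2) * (f a * f c)
      ≤ ∑ a, ∑ c, P.A a c * (f a * f c) + α ^ 2 * ∑ a, ∑ c, P.A a c * |f a * f c| := by
    simp only [mul_sum, ← sum_add_distrib]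
    refine sum_le_sum fun a _ => sum_le_sum fun c _ => ?_
    rcases eq_or_ne (P.A a c) 0 with h0 | h0
    · simp [h0]
    have hc : (r a c + r c a) / 2 = Real.cosh (α * (d a - d c)) := by
      rw [Real.cosh_eq]
      simp only [r]
      congr 3
      ring
    have hx : |α * (d a - d c)| ≤ α := by
      rw [abs_mul, abs_of_nonneg hα0]
      calc α * |d a - d c| ≤ α * 1 := mul_le_mul_of_nonneg_left (hd a c h0) hα0
        _ = α := mul_one _
    have hsq : (α * (d a - d c)) ^ 2 / 2 ≤ α ^ 2 / 2 := by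
      rw [← sq_abs]
      gcongr
    have hle : |(r a c + r c a) / 2 - 1| ≤ α ^ 2 := by
      rw [hc, abs_of_nonneg (by linarith [Real.one_le_cosh (α * (d a - d c))])]
      have h1 := Real.cosh_le_exp_half_sq (α * (d a - d c))
      have h2 := Real.exp_le_exp.2 hsq
      have h3 := Real.abs_exp_sub_one_le (x := α ^ 2 / 2)
        (by rw [abs_of_nonneg (by positivity)]; nlinarith)
      rw [abs_of_nonneg (show 0 ≤ α ^ 2 / 2 by positivity)] at h3
      linarith [(abs_le.1 h3).2]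
    have h4 : ((r a c + r c a) / 2 - 1) * (f a * f c) ≤ α ^ 2 * |f a * f c| :=
      (le_abs_self _).trans (by rw [abs_mul]; exact mul_le_mul_of_nonneg_right hle (abs_nonneg _))
    nlinarith [mul_le_mul_of_nonneg_left h4 (hP.nonneg a c)]
  have hadj := P.abs_adj_le hP f
  have hg := hgap S.lam S.posDef (fun z => by rw [← S.C_eq]; exact S.C_diag_le z) f
  rw [P.form_eq] at hg
  have hsum0 : 0 ≤ ∑ a, f a ^ 2 := sum_nonneg fun a _ => sq_nonneg _
  have hbα : 4 * P.b * α ^ 2 ≤ γ / 2 := by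
    have h1 : P.b * α ≤ γ / 8 := by
      rw [hα, mul_div_assoc', div_le_div_iff₀ hB (by norm_num)]
      nlinarith [le_max_left P.b 1]
    nlinarith
  have hmain : γ / 2 * ∑ a, f a ^ 2 ≤ u y := by
    rw [← hval, hpair, hsym]
    have hb := hP.b_pos
    nlinarith [mul_le_mul_of_nonneg_left herr hb.le,
      mul_le_mul_of_nonneg_left hadj (by positivity : 0 ≤ P.b * α ^ 2),
      mul_le_mul_of_nonneg_right hbα hsum0]
  have hfx : f x ^ 2 ≤ 2 / γ := by
    have h1 : f x ^ 2 ≤ ∑ a, f a ^ 2 :=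
      single_le_sum (f := fun a => f a ^ 2) (fun a _ => sq_nonneg (f a)) (mem_univ x)
    rw [le_div_iff₀ hγ]
    nlinarith [S.C_diag_le y]
  have hfx' : |f x| ≤ Real.sqrt (2 / γ) := by
    rw [← Real.sqrt_sq_eq_abs]
    exact Real.sqrt_le_sqrt hfx
  have hu : |S.C x y| = |f x| * Real.exp (-α * d x) := by
    simp only [f, w, u, abs_mul, Real.abs_exp]
    rw [mul_comm, ← mul_assoc, ← Real.exp_add]
    simp
  rw [hu]
  exact mul_le_mul_of_nonneg_right hfx' (Real.exp_pos _).le

end Saddle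

/-- The saddle module. -/
theorem saddleGoal : SaddleGoal := fun _ _ _ _ P hP =>
  ⟨P.exists_saddle hP, fun S => ⟨fun x => S.lam_eq x, S.lam_le hP, S.abs_C_le, S.abs_G_le,
    fun _ d y hγ hγ1 hg hy hd => S.decay hP hγ hγ1 hg d y hy hd⟩⟩

/-- The cutoff criterion. -/
theorem cutoffGoal : CutoffGoal := by
  intro ι _ _ n P hP J _ g centre G₂ ε hinj hc hG hε hbε hG2 lam hd hdiag f
  set φ : J → ι → ℝ := fun j z => g j z * f z
  have hone : ∀ x, f x ^ 2 ≤ φ (centre x) ⬝ᵥ (P.H lam *ᵥ φ (centre x)) := fun x => by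
    have h := sq_le_form hd (φ (centre x)) x
    simp only [φ, hc, one_mul] at h ⊢
    refine h.trans (le_of_le_of_eq (mul_le_mul_of_nonneg_right (hdiag x) ?_) (one_mul _))
    simpa using hd.posSemidef.dotProduct_mulVec_nonneg (φ (centre x))
  have hall : ∑ x, f x ^ 2 ≤ ∑ j, φ j ⬝ᵥ (P.H lam *ᵥ φ j) := by
    classical
    calc ∑ x, f x ^ 2 ≤ ∑ x, φ (centre x) ⬝ᵥ (P.H lam *ᵥ φ (centre x)) :=
          sum_le_sum fun x _ => hone x
      _ = ∑ j ∈ univ.image centre, φ j ⬝ᵥ (P.H lam *ᵥ φ j) :=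
          (sum_image (f := fun j => φ j ⬝ᵥ (P.H lam *ᵥ φ j)) (fun a _ c _ h => hinj h)).symm
      _ ≤ _ := sum_le_sum_of_subset_of_nonneg (subset_univ _) fun j _ _ => by
          simpa using hd.posSemidef.dotProduct_mulVec_nonneg (φ j)
  have hid : ∑ j, φ j ⬝ᵥ (P.H lam *ᵥ φ j) = G₂ * (f ⬝ᵥ (P.H lam *ᵥ f))
      + P.b / 2 * ∑ x, ∑ y, P.A x y * (f x * f y) * ∑ j, (g j x - g j y) ^ 2 := by
    simp only [P.form_eq, sum_sub_distrib, φ]
    have e1 : ∑ j, ∑ x, lam x * (g j x * f x) ^ 2 = G₂ * ∑ x, lam x * f x ^ 2 := by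
      rw [sum_comm, mul_sum]
      refine sum_congr rfl fun x _ => ?_
      rw [← hG x, sum_mul]
      exact sum_congr rfl fun j _ => by ring
    have e2 : ∀ x y, ∑ j, g j x * g j y = G₂ - (∑ j, (g j x - g j y) ^ 2) / 2 := by
      intro x y
      have : ∑ j, (g j x - g j y) ^ 2
          = ∑ j, g j x ^ 2 + ∑ j, g j y ^ 2 - 2 * ∑ j, g j x * g j y := by
        rw [mul_sum, ← sum_add_distrib, ← sum_sub_distrib]
        exact sum_congr rfl fun j _ => by ring
      rw [hG x, hG y] at this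
      linarith
    have e3 : ∑ j, P.b * ∑ x, ∑ y, P.A x y * (g j x * f x * (g j y * f y))
        = P.b * ∑ x, ∑ y, P.A x y * (f x * f y)
            * (G₂ - (∑ j, (g j x - g j y) ^ 2) / 2) := by
      rw [← mul_sum, sum_comm]
      refine congrArg (P.b * ·) (sum_congr rfl fun x _ => ?_)
      rw [sum_comm]
      refine sum_congr rfl fun y _ => ?_
      rw [← e2, mul_sum]
      exact sum_congr rfl fun j _ => by ring
    have e4 : ∑ x, ∑ y, P.A x y * (f x * f y) * (G₂ - (∑ j, (g j x - g j y) ^ 2) / 2)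
        = G₂ * ∑ x, ∑ y, P.A x y * (f x * f y)
          - (∑ x, ∑ y, P.A x y * (f x * f y) * ∑ j, (g j x - g j y) ^ 2) / 2 := by
      rw [mul_sum, sum_div, ← sum_sub_distrib]
      refine sum_congr rfl fun x _ => ?_
      rw [mul_sum, sum_div, ← sum_sub_distrib]
      exact sum_congr rfl fun y _ => by ring
    rw [e1, e3, e4]
    ring
  have herr : ∑ x, ∑ y, P.A x y * (f x * f y) * ∑ j, (g j x - g j y) ^ 2
      ≤ max ε 0 * (4 * ∑ x, f x ^ 2) := by
    refine le_trans ?_ (mul_le_mul_of_nonneg_left (P.abs_adj_le hP f) (le_max_right ε 0))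
    simp only [mul_sum (s := univ) (a := max ε 0)]
    refine sum_le_sum fun x _ => sum_le_sum fun y _ => ?_
    rcases eq_or_ne (P.A x y) 0 with h0 | h0
    · simp [h0]
    calc P.A x y * (f x * f y) * ∑ j, (g j x - g j y) ^ 2
        ≤ P.A x y * |f x * f y| * ∑ j, (g j x - g j y) ^ 2 :=
          mul_le_mul_of_nonneg_right (mul_le_mul_of_nonneg_left (le_abs_self _) (hP.nonneg x y))
            (sum_nonneg fun j _ => sq_nonneg _)
      _ ≤ P.A x y * |f x * f y| * max ε 0 :=
          mul_le_mul_of_nonneg_left ((hε x y h0).trans (le_max_left _ _))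
            (mul_nonneg (hP.nonneg x y) (abs_nonneg _))
      _ = max ε 0 * (P.A x y * |f x * f y|) := mul_comm _ _
  have hb := hP.b_pos
  have hS : 0 ≤ ∑ x, f x ^ 2 := sum_nonneg fun x _ => sq_nonneg _
  have hbe : 4 * P.b * max ε 0 * ∑ x, f x ^ 2 ≤ 1 * ∑ x, f x ^ 2 := by
    refine mul_le_mul_of_nonneg_right ?_ hS
    rcases le_total ε 0 with h | h
    · simp [max_eq_right h]
    · rwa [max_eq_left h]
  rw [div_mul_eq_mul_div, one_mul, div_le_iff₀ (by linarith)]
  nlinarith [mul_le_mul_of_nonneg_left herr (by positivity : 0 ≤ P.b / 2), hall, hid, hbe]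

end Vale.Agent.P163.Gap
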