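import Vale.Agent.P163.Gap.StepIface
import Vale.Agent.P163.Gap.BlockConv
import Vale.Agent.P163.Gap.Saddle
import Mathlib.NumberTheory.Harmonic.Bounds

/-!
# The gap of a block inside a window, from translated logarithmic cutoffs
-/

noncomputable section

namespace Vale.Agent.P163.Gap

open Finset

/-- The sup norm of a lattice site. -/
def supNorm (w : Site) : ℕ := max w.1.natAbs w.2.natAbs

/-- The logarithmic cutoff of radius `r`. -/
def logCut (r k : ℕ) : ℝ :=
  ((harmonic r : ℝ) - (harmonic (min k r) : ℝ)) / (harmonic r : ℝ)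

/-- The squared increment of the logarithmic cutoff. -/
def cutInc (r k : ℕ) : ℝ :=
  if k < r then ((((k : ℝ) + 1) * (harmonic r : ℝ)) ^ 2)⁻¹ else 0

theorem mem_box_iff_supNorm {r : ℕ} {w : Site} : w ∈ box r ↔ supNorm w ≤ r := by
  rw [mem_box, supNorm, Int.abs_eq_natAbs, Int.abs_eq_natAbs, Nat.cast_le, Nat.cast_le]
  omega

theorem cutInc_nonneg (r k : ℕ) : 0 ≤ cutInc r k := by
  unfold cutInc; split_ifs <;> positivity

theorem logCut_diff (r k : ℕ) : (logCut r k - logCut r (k + 1)) ^ 2 = cutInc r k := by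
  unfold cutInc logCut
  split_ifs with h
  · rw [min_eq_left h.le, min_eq_left h, harmonic_succ, div_sub_div_same]
    push_cast
    rw [show (harmonic r : ℝ) - (harmonic k : ℝ)
      - ((harmonic r : ℝ) - ((harmonic k : ℝ) + ((k : ℝ) + 1)⁻¹)) = ((k : ℝ) + 1)⁻¹ by ring,
      div_pow, inv_pow, mul_pow, mul_inv, div_eq_mul_inv]
  · rw [min_eq_right (not_lt.1 h), min_eq_right (by omega)]
    simp

/-- The sum of a translate of a function supported in `box r`. -/
theorem sum_translate (K r : ℕ) (F : Site → ℝ) (hF : ∀ w, w ∉ box r → F w = 0) (x : Site)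
    (hx : x ∈ box K) :
    ∑ z : ↥(box (K + r)), F (z.1 - x) = ∑ w ∈ box r, F w := by
  rw [sum_coe_sort (box (K + r)) fun z => F (z - x)]
  calc ∑ z ∈ box (K + r), F (z - x)
      = ∑ z ∈ (box r).image (fun w => x + w), F (z - x) := by
        refine (sum_subset (fun z hz => ?_) fun z hz hz' => hF _ fun h => hz' ?_).symm
        · obtain ⟨w, hw, rfl⟩ := mem_image.1 hz
          simp only [mem_box_iff_supNorm, supNorm, Prod.fst_add, Prod.snd_add] at hx hw ⊢
          omega
        · exact mem_image.2 ⟨z - x, h, by abel⟩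
    _ = _ := by
        rw [sum_image fun a _ b _ h => add_left_cancel h]
        simp

/-- The energy of one increment of the cutoff is of order the reciprocal harmonic number. -/
theorem sum_cutInc_le {r : ℕ} (hr : 0 < r) :
    ∑ w ∈ box r, cutInc r (supNorm w) ≤ 8 / (harmonic r : ℝ) := by
  have hH : (0 : ℝ) < (harmonic r : ℝ) := by
    simp only [harmonic]; push_cast
    exact sum_pos (fun i _ => by positivity) ⟨0, mem_range.2 hr⟩
  rw [← sum_fiberwise_of_maps_to (g := supNorm) (t := range (r + 1))
    (fun w hw => mem_range.2 (Nat.lt_succ_of_le (mem_box_iff_supNorm.1 hw)))]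
  calc ∑ k ∈ range (r + 1), ∑ w ∈ (box r).filter (fun w => supNorm w = k), cutInc r (supNorm w)
      ≤ ∑ k ∈ range (r + 1), (8 * ((k : ℝ) + 1)) * cutInc r k := by
        refine sum_le_sum fun k _ => ?_
        rw [sum_congr rfl fun w hw => by rw [(mem_filter.1 hw).2], sum_const, nsmul_eq_mul]
        refine mul_le_mul_of_nonneg_right ?_ (cutInc_nonneg r k)
        have hc : ((box r).filter fun w => supNorm w = k).card ≤ 8 * (k + 1) := by
          rcases Nat.eq_zero_or_pos k with rfl | hk
          · refine (card_le_card fun w hw => ?_).trans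
              ((card_box 0).le.trans (by norm_num))
            exact mem_box_iff_supNorm.2 (mem_filter.1 hw).2.le
          · have hsub : box (k - 1) ⊆ box k := fun w hw => by
              rw [mem_box_iff_supNorm] at hw ⊢; omega
            refine (card_le_card (t := box k \ box (k - 1)) fun w hw => ?_).trans ?_
            · simp only [mem_sdiff, mem_box_iff_supNorm, (mem_filter.1 hw).2]
              omega
            · rw [card_sdiff_of_subset hsub, card_box, card_box]
              obtain ⟨j, rfl⟩ : ∃ j, k = j + 1 := ⟨k - 1, by omega⟩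
              rw [Nat.add_sub_cancel]
              apply Nat.sub_le_iff_le_add.2
              ring_nf
              omega
        exact_mod_cast hc
    _ = 8 / (harmonic r : ℝ) ^ 2 * ∑ k ∈ range r, ((k : ℝ) + 1)⁻¹ := by
        rw [sum_range_succ, cutInc, if_neg (lt_irrefl r), mul_zero, add_zero, mul_sum]
        refine sum_congr rfl fun k hk => ?_
        rw [cutInc, if_pos (mem_range.1 hk)]
        field_simp
    _ = 8 / (harmonic r : ℝ) := by
        have e : ∑ k ∈ range r, ((k : ℝ) + 1)⁻¹ = (harmonic r : ℝ) := by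
          simp only [harmonic]; push_cast; rfl
        rw [e]; field_simp

theorem cutRadius_spec (B : ℝ) :
    0 < cutRadius B ∧ 200 * B ≤ (harmonic (cutRadius B) : ℝ) := by
  have hr : 0 < cutRadius B := Nat.ceil_pos.2 (Real.exp_pos _)
  refine ⟨hr, le_trans ?_ (log_add_one_le_harmonic _)⟩
  rw [← Real.log_exp (200 * B)]
  refine Real.log_le_log (Real.exp_pos _) ?_
  have := Nat.le_ceil (Real.exp (200 * B))
  rw [cutRadius]
  push_cast
  linarith

/-- Blocks inside a window have a gap. -/
theorem blockGapGoal : BlockGapGoal := by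
  intro V E _ _ _ src dst ℓ dir K n hL hn β B hβ hB hb S hS τ
  classical
  obtain ⟨hr, hH⟩ := cutRadius_spec B
  unfold gapConst
  generalize cutRadius B = r at hr hH ⊢
  have hH0 : (0 : ℝ) < (harmonic r : ℝ) := by linarith
  set P := blockOf β src dst S τ
  have hzero : ∀ w : Site, w ∉ box r → logCut r (supNorm w) = 0 := fun w hw => by
    rw [mem_box_iff_supNorm] at hw
    simp [logCut, min_eq_right (not_le.1 hw).le]
  have h01 : ∀ k, 0 ≤ logCut r k ∧ logCut r k ≤ 1 := fun k => by
    have h1 : (harmonic (min k r) : ℝ) ≤ harmonic r := by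
      simp only [harmonic]; push_cast
      exact sum_le_sum_of_subset_of_nonneg (range_subset_range.2 (min_le_right _ _))
        fun i _ _ => by positivity
    have h2 : (0 : ℝ) ≤ harmonic (min k r) := by
      simp only [harmonic]; push_cast
      exact sum_nonneg fun i _ => by positivity
    exact ⟨div_nonneg (by linarith) hH0.le, by rw [logCut, div_le_one hH0]; linarith⟩
  have hcen : logCut r (supNorm (0 : Site)) = 1 := by
    simp [logCut, supNorm, harmonic_zero, div_self hH0.ne']
  have hsub : ∀ v : ↥S, ℓ v.1 ∈ box (K + r) := fun v => by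
    have := hS v.1 v.2
    rw [mem_box_iff_supNorm] at this ⊢
    omega
  obtain ⟨G₂, hG⟩ : ∃ G, G = ∑ w ∈ box r, logCut r (supNorm w) ^ 2 := ⟨_, rfl⟩
  have hG1 : 1 ≤ G₂ := by
    rw [hG]
    refine le_trans (le_of_eq ?_) (single_le_sum (fun w _ => sq_nonneg _)
      (show (0 : Site) ∈ box r from mem_box_iff_supNorm.2 (by simp [supNorm])))
    rw [hcen, one_pow]
  have hG2 : G₂ ≤ ((2 * r + 1) ^ 2 : ℕ) := by
    rw [hG]
    refine le_trans (sum_le_card_nsmul _ _ 1 fun w _ => pow_le_one₀ (h01 _).1 (h01 _).2) ?_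
    rw [card_box, nsmul_one]
  have hP := blockOf_ok hL hβ hn S hS τ
  have hgap := cutoffGoal ↥S n P hP ↥(box (K + r))
    (fun z v => logCut r (supNorm (z.1 - ℓ v.1))) (fun v => ⟨ℓ v.1, hsub v⟩) G₂
    (16 / (harmonic r : ℝ))
    (fun a c h => Subtype.ext (hL.ℓinj (congrArg Subtype.val h)))
    (fun v => by simp [hcen])
    (fun v => hG ▸ sum_translate K r (fun w => logCut r (supNorm w) ^ 2)
      (fun w hw => by simp [hzero w hw]) _ (hS v.1 v.2))
    (fun x y hxy => ?_) ?_ hG1
  · intro lam hd hdiag f
    refine le_trans (mul_le_mul_of_nonneg_right ?_ (sum_nonneg fun x _ => sq_nonneg _))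
      (hgap lam hd hdiag f)
    push_cast at hG2 ⊢
    gcongr
  · obtain ⟨e, he⟩ : ∃ e, (src e = x.1 ∧ dst e = y.1) ∨ (src e = y.1 ∧ dst e = x.1) := by
      by_contra hne
      apply hxy
      simp only [P, blockOf, Nat.cast_eq_zero, card_eq_zero, filter_eq_empty_iff]
      exact fun e _ h => hne ⟨e, h⟩
    have hd1 : sdist (ℓ x.1) (ℓ y.1) = 1 := by
      rcases he with ⟨a, c⟩ | ⟨a, c⟩
      · have := hL.sdist_bond (hS x.1 x.2) (Or.inl a)
        rwa [a, c] at this
      · have := hL.sdist_bond (hS y.1 y.2) (Or.inl a)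
        rw [sdist_comm]
        rwa [a, c] at this
    have hz : ∀ w, w ∉ box r → cutInc r (supNorm w) = 0 := fun w hw => by
      rw [mem_box_iff_supNorm] at hw
      rw [cutInc, if_neg (by omega)]
    calc ∑ z : ↥(box (K + r)),
          (logCut r (supNorm (z.1 - ℓ x.1)) - logCut r (supNorm (z.1 - ℓ y.1))) ^ 2
        ≤ ∑ z : ↥(box (K + r)), (cutInc r (supNorm (z.1 - ℓ x.1))
            + cutInc r (supNorm (z.1 - ℓ y.1))) := by
          refine sum_le_sum fun z _ => ?_
          set a := supNorm (z.1 - ℓ x.1) with ha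
          set c := supNorm (z.1 - ℓ y.1) with hc
          have h3 : a ≤ c + 1 ∧ c ≤ a + 1 := by
            simp only [ha, hc, supNorm, sdist, Prod.fst_sub, Prod.snd_sub] at hd1 ⊢
            omega
          have n1 := cutInc_nonneg r a
          have n2 := cutInc_nonneg r c
          rcases (by omega : a = c ∨ c = a + 1 ∨ a = c + 1) with h | h | h
          · rw [h, sub_self]; simp only [ne_eq, OfNat.ofNat_ne_zero, not_false_eq_true, zero_pow]
            linarith
          · rw [h, logCut_diff]; linarith [cutInc_nonneg r (a + 1)]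
          · rw [h, sub_sq_comm, logCut_diff]; linarith [cutInc_nonneg r (c + 1)]
      _ ≤ 16 / (harmonic r : ℝ) := by
          rw [sum_add_distrib, sum_translate K r (fun w => cutInc r (supNorm w)) hz _ (hS x.1 x.2),
            sum_translate K r (fun w => cutInc r (supNorm w)) hz _ (hS y.1 y.2)]
          linarith [sum_cutInc_le hr,
            show (16 : ℝ) / (harmonic r : ℝ) = 8 / harmonic r + 8 / harmonic r by ring]
  · change 4 * (β / n) * (16 / (harmonic r : ℝ)) ≤ 1
    rw [show 4 * (β / n) * (16 / (harmonic r : ℝ)) = 64 * (β / n) / (harmonic r : ℝ) by ring,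
      div_le_one hH0]
    linarith

end Vale.Agent.P163.Gap
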