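import Vale.Agent.P163.Gap.Window

/-!
# The interfaces inside the one-block estimate
-/

noncomputable section

namespace Vale.Agent.P163.Gap

open MeasureTheory Finset

/-- The radius of the cutoffs. -/
def cutRadius (B : ℝ) : ℕ := ⌈Real.exp (200 * B)⌉₊

/-- The gap of a block inside a window. -/
def gapConst (B : ℝ) : ℝ := 1 / (2 * (2 * cutRadius B + 1) ^ 2 : ℕ)

/-- Blocks inside a window have the gap `gapConst B` when the scaled coupling is at most `B`. -/
def BlockGapGoal : Prop :=
  ∀ (V E : Type) [Fintype V] [Fintype E] [DecidableEq V] (src dst : E → V) (ℓ : V → Site)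
    (dir : E → Bool) (K n : ℕ), Lat src dst ℓ dir K → 0 < n →
    ∀ (β B : ℝ), 0 < β → 1 ≤ B → β / n ≤ B → ∀ (S : Finset V), (∀ v ∈ S, ℓ v ∈ box K) →
      ∀ τ : Conf V n, (blockOf β src dst S τ).Gap (gapConst B)

variable {V E : Type} [Fintype V] [Fintype E] [DecidableEq V]

/-- The signed couplings of a real field. -/
def signedCoup (src dst : E → V) (β : ℝ) (s : V → ℝ) (e : E) : ℝ := β * s (src e) * s (dst e)

/-- The gauge invariant two-point function in `T`. -/
def pairFn (src dst : E → V) (β : ℝ) (T : Finset V) (w v : V) (s : V → ℝ) : ℝ :=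
  s w * s v * corr src dst (restrict src dst (signedCoup src dst β s) T) w v

/-- A real field on `S`, extended by zero. -/
def extend (S : Finset V) (s : ↥S → ℝ) (v : V) : ℝ := if h : v ∈ S then s ⟨v, h⟩ else 0

/-- Remove the field of component `i`. -/
def zeroField {ι : Type} {n : ℕ} (P : Blk ι n) (i : Fin n) : Blk ι n where
  b := P.b
  A := P.A
  h x k := if k = i then 0 else P.h x k

/-- The analytic properties of the pair function. -/
def PairFnGoal : Prop :=
  ∀ (V E : Type) [Fintype V] [Fintype E] [DecidableEq V] (src dst : E → V),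
    (∀ e, src e ≠ dst e) → ∀ (β : ℝ), 0 ≤ β → ∀ (T : Finset V) (w v : V), w ∈ T → v ∈ T →
    Continuous (pairFn src dst β T w v) ∧
    (∀ s, pairFn src dst β T w v s
        = |s w| * |s v| * corr src dst (restrict src dst (fun e => β * |s (src e)| * |s (dst e)|) T) w v) ∧
    (∀ s, 0 ≤ pairFn src dst β T w v s ∧ pairFn src dst β T w v s ≤ |s w| * |s v|) ∧
    ∀ x : V, ∃ D : (V → ℝ) → ℝ, Continuous D ∧
      (∀ s, HasDerivAt (fun t => pairFn src dst β T w v (Function.update s x t)) (D s) (s x)) ∧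
      (x ∉ T → ∀ s, D s = 0) ∧
      ((univ.filter fun e => src e = x ∨ dst e = x).card ≤ 4 →
        ∀ (s : V → ℝ) (d : ℝ), (∀ y ∈ T, |s y| ≤ d) → 0 ≤ d → |D s| ≤ 2 * d + 8 * β * d ^ 3)

/-- Without a field in component `i` the pair function is below the two-point function. -/
def ZeroFieldGoal : Prop :=
  ∀ (V E : Type) [Fintype V] [Fintype E] [DecidableEq V] (src dst : E → V) (n : ℕ),
    (∀ e, src e ≠ dst e) → 2 ≤ n → ∀ (β : ℝ), 0 ≤ β → ∀ (T S : Finset V) (τ : Conf V n) (i : Fin n)
      (w v : V) (hw : w ∈ S) (hv : v ∈ S), T ⊆ S → w ∈ T → v ∈ T →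
      avg (zeroField (blockOf β src dst S τ) i).U
          (fun σ => pairFn src dst β T w v (extend S fun y => co (σ y) i))
        ≤ avg (zeroField (blockOf β src dst S τ) i).U
          (fun σ => co (σ ⟨w, hw⟩) i * co (σ ⟨v, hv⟩) i)

end Vale.Agent.P163.Gap
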