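import Vale.Agent.P163.Gap.Saddle
import Vale.Agent.P163.Gap.IBP
import Vale.Agent.P163.Gap.StepIface
import Mathlib.Analysis.Calculus.MeanValue

/-!
# One block: covariances through integration by parts, and switching on a small field
-/

noncomputable section

namespace Vale.Agent.P163.Gap

open MeasureTheory Finset Matrix

variable {ι : Type} [Fintype ι] {n : ℕ}

/-- Averages of functions controlled on a good set. -/
theorem avg_le_of_good [NeZero n] {U f : Conf ι n → ℝ} (hU : Continuous U) (hf : Continuous f)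
    {G : Set (Conf ι n)} (hG : MeasurableSet G) {p M M' : ℝ}
    (hp : avg U (Gᶜ.indicator fun _ => 1) ≤ p) (hM : 0 ≤ M) (hM' : 0 ≤ M')
    (hgood : ∀ σ ∈ G, f σ ≤ M) (hall : ∀ σ, f σ ≤ M') : avg U f ≤ M + M' * p := by
  have hi : Integrable (fun σ => Real.exp (U σ) * Gᶜ.indicator (fun _ => (1 : ℝ)) σ) (base ι n) := by
    have e : (fun σ => Real.exp (U σ) * Gᶜ.indicator (fun _ => (1 : ℝ)) σ)
        = Gᶜ.indicator fun σ => Real.exp (U σ) := funext fun σ => by
      by_cases h : σ ∈ Gᶜ <;> simp [h]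
    rw [e]
    exact (integrable_base (by fun_prop)).indicator hG.compl
  have hpt : ∀ σ, Real.exp (U σ) * f σ
      ≤ M * Real.exp (U σ) + M' * (Real.exp (U σ) * Gᶜ.indicator (fun _ => (1 : ℝ)) σ) := by
    intro σ
    have he := Real.exp_nonneg (U σ)
    by_cases h : σ ∈ G
    · simp only [Set.indicator_of_notMem (fun hh : σ ∈ Gᶜ => hh h), mul_zero, add_zero]
      rw [mul_comm M]
      exact mul_le_mul_of_nonneg_left (hgood σ h) he
    · simp only [Set.indicator_of_mem (show σ ∈ Gᶜ from h), mul_one]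
      nlinarith [mul_le_mul_of_nonneg_left (hall σ) he, mul_nonneg hM he]
  have hI : ∫ σ, Real.exp (U σ) * f σ ∂base ι n ≤ M * ∫ σ, Real.exp (U σ) ∂base ι n
      + M' * ∫ σ, Real.exp (U σ) * Gᶜ.indicator (fun _ => (1 : ℝ)) σ ∂base ι n := by
    refine (integral_mono (integrable_base (by fun_prop))
      (((integrable_base (by fun_prop)).const_mul M).add (hi.const_mul M')) hpt).trans (le_of_eq ?_)
    simp only [Pi.add_apply]
    rw [integral_add ((integrable_base (by fun_prop)).const_mul M) (hi.const_mul M'),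
      integral_const_mul, integral_const_mul]
  have hZ := weight_pos hU
  have h1 : avg U f ≤ M + M' * avg U (Gᶜ.indicator fun _ => 1) := by
    simp only [avg]
    rw [div_le_iff₀ hZ, add_mul, mul_assoc M', div_mul_cancel₀ _ hZ.ne']
    exact hI
  nlinarith

/-- The absolute version. -/
theorem abs_avg_le_of_good [NeZero n] {U f : Conf ι n → ℝ} (hU : Continuous U) (hf : Continuous f)
    {G : Set (Conf ι n)} (hG : MeasurableSet G) {p M M' : ℝ}
    (hp : avg U (Gᶜ.indicator fun _ => 1) ≤ p) (hM : 0 ≤ M) (hM' : 0 ≤ M')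
    (hgood : ∀ σ ∈ G, |f σ| ≤ M) (hall : ∀ σ, |f σ| ≤ M') : |avg U f| ≤ M + M' * p := by
  have hneg : avg U (fun σ => -f σ) = -avg U f := by
    simpa using avg_const_mul (U := U) (f := f) (-1)
  rw [abs_le]
  refine ⟨?_, avg_le_of_good hU hf hG hp hM hM' (fun σ h => (le_abs_self _).trans (hgood σ h))
    fun σ => (le_abs_self _).trans (hall σ)⟩
  have := avg_le_of_good hU (f := fun σ => -f σ) (by fun_prop) hG hp hM hM'
    (fun σ h => (neg_le_abs _).trans (hgood σ h)) fun σ => (neg_le_abs _).trans (hall σ)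
  rw [hneg] at this
  linarith

theorem avg_add [NeZero n] {U f g : Conf ι n → ℝ} (hU : Continuous U) (hf : Continuous f)
    (hg : Continuous g) : avg U (fun σ => f σ + g σ) = avg U f + avg U g := by
  simp only [avg, mul_add]
  rw [integral_add (integrable_base (by fun_prop)) (integrable_base (by fun_prop)), add_div]

variable [DecidableEq ι] {P : Blk ι n}

namespace Saddle

variable (S : Saddle P) (i : Fin n)

omit [DecidableEq ι] in
theorem abs_fieldDot_le (hP : P.Ok) (σ : Conf ι n) (x : ι) : |P.fieldDot σ x| ≤ 4 := by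
  refine abs_le_of_sq_le_sq ?_ (by norm_num)
  refine (sum_mul_sq_le_sq_mul_sq univ _ _).trans ?_
  rw [co_sq_sum, one_mul]
  linarith [hP.field x]

omit [DecidableEq ι] in
theorem abs_q_le (hP : P.Ok) (σ : Conf ι n) (x : ι) : |P.q σ x| ≤ 8 := by
  have h1 : |∑ y, P.A x y * dot (σ x) (σ y)| ≤ 4 := by
    refine (abs_sum_le_sum_abs _ _).trans (le_trans (sum_le_sum fun y _ => ?_) (hP.row x))
    rw [abs_mul, abs_of_nonneg (hP.nonneg x y)]
    exact mul_le_of_le_one_right (hP.nonneg x y) (abs_dot_le _ _)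
  rw [Blk.q]
  linarith [abs_add_le (∑ y, P.A x y * dot (σ x) (σ y)) (P.fieldDot σ x), abs_fieldDot_le hP σ x]

theorem abs_qbar_le (hP : P.Ok) (x : ι) : |S.qbar x| ≤ 8 := by
  have h1 : |∑ y, P.A x y * S.G x y| ≤ 4 := by
    refine (abs_sum_le_sum_abs _ _).trans (le_trans (sum_le_sum fun y _ => ?_) (hP.row x))
    rw [abs_mul, abs_of_nonneg (hP.nonneg x y)]
    exact mul_le_of_le_one_right (hP.nonneg x y) (S.abs_G_le _ _)
  have h2 : |∑ k, S.m x k * P.h x k| ≤ 4 := by
    refine abs_le_of_sq_le_sq ?_ (by norm_num)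
    refine (sum_mul_sq_le_sq_mul_sq univ _ _).trans ?_
    have hm : ∑ k, S.m x k ^ 2 ≤ 1 := by linarith [S.diag_eq x, S.C_posDef.diag_pos (i := x)]
    nlinarith [hP.field x, sum_nonneg fun k (_ : k ∈ univ) => sq_nonneg (P.h x k),
      sum_nonneg fun k (_ : k ∈ univ) => sq_nonneg (S.m x k)]
  rw [qbar]
  linarith [abs_add_le (∑ y, P.A x y * S.G x y) (∑ k, S.m x k * P.h x k)]

theorem measurableSet_good (δ : ℝ) : MeasurableSet (S.good i δ) := by
  have : S.good i δ = ⋂ x, {σ | |co (σ x) i - S.m x i| ≤ δ} ∩ {σ | |P.q σ x - S.qbar x| ≤ δ} := by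
    ext σ
    simp [good]
  rw [this]
  exact MeasurableSet.iInter fun x => ((isClosed_le (by fun_prop) continuous_const).inter
    (isClosed_le ((P.continuous_q x).sub continuous_const).abs continuous_const)).measurableSet

/-- Covariances through integration by parts. -/
theorem avg_centred (hI : IBPGoal) (hn : 2 ≤ n) (hP : P.Ok) {Ψ : (ι → ℝ) → ℝ}
    {D : ι → (ι → ℝ) → ℝ} (hΨ : Continuous Ψ) (hD : ∀ x, Continuous (D x))
    (hder : ∀ x s, HasDerivAt (fun t => Ψ (Function.update s x t)) (D x s) (s x)) (z : ι) :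
    avg P.U (fun σ => Ψ (fun y => co (σ y) i) * (co (σ z) i - S.m z i))
      = ∑ x, S.C z x * (avg P.U (fun σ => D x (fun y => co (σ y) i) * (1 - co (σ x) i ^ 2)) / n
        + avg P.U (fun σ => Ψ (fun y => co (σ y) i) * co (σ x) i
            * (1 / n - P.b * (P.q σ x - S.qbar x)))) := by
  have : NeZero n := ⟨by omega⟩
  have hU := P.continuous_U
  have hv := continuous_comp_vec (ι := ι) i
  have hΨv : Continuous fun σ : Conf ι n => Ψ (fun y => co (σ y) i) := hΨ.comp hv
  have hq := P.continuous_q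
  set e := fun σ : Conf ι n => Ψ (fun y => co (σ y) i)
  set v : ι → ℝ := fun x => avg P.U (fun σ => e σ * co (σ x) i) - S.m x i * avg P.U e
  set r : ι → ℝ := fun x => avg P.U (fun σ => D x (fun y => co (σ y) i) * (1 - co (σ x) i ^ 2)) / n
        + avg P.U (fun σ => e σ * co (σ x) i * (1 / n - P.b * (P.q σ x - S.qbar x)))
  have hlhs : avg P.U (fun σ => e σ * (co (σ z) i - S.m z i)) = v z := by
    have h : (fun σ => e σ * (co (σ z) i - S.m z i))
        = fun σ => e σ * co (σ z) i + (-S.m z i) * e σ := funext fun σ => by ring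
    rw [h, avg_add hU (by fun_prop) (by fun_prop), avg_const_mul]
    simp only [v]
    ring
  have hHm : ∀ x, S.lam x * S.m x i - P.b * ∑ y, P.A x y * S.m y i = P.b * P.h x i := by
    intro x
    rw [← P.mulVec_H S.lam (fun y => S.m y i) x]
    have : (fun y => S.m y i) = S.C *ᵥ fun y => P.b * P.h y i := funext fun y => by
      simp [S.m_eq, mulVec, dotProduct]
    rw [this, mulVec_mulVec, S.H_mul_C, one_mulVec]
  have hHv : P.H S.lam *ᵥ v = r := by
    funext x
    have hsplit : (fun σ => e σ * ((1 - 1 / n + P.b * P.q σ x) * co (σ x) i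
          - P.b * (∑ y, P.A x y * co (σ y) i) - P.b * P.h x i))
        = fun σ => (S.lam x * (e σ * co (σ x) i)
            + (-P.b) * ∑ y, P.A x y * (e σ * co (σ y) i))
          + ((-(P.b * P.h x i)) * e σ
            + (-1) * (e σ * co (σ x) i * (1 / n - P.b * (P.q σ x - S.qbar x)))) := funext fun σ => by
      have : ∑ y, P.A x y * (e σ * co (σ y) i) = e σ * ∑ y, P.A x y * co (σ y) i := by
        rw [mul_sum]
        exact sum_congr rfl fun y _ => by ring
      rw [this, S.lam_eq x]
      ring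
    have hibp := hI ι n P hn hP.symm hP.diag i x Ψ (D x) hΨ (hD x) (hder x)
    change avg P.U (fun σ => e σ * _) = _ at hibp
    rw [hsplit, avg_add hU (by fun_prop) (by fun_prop), avg_add hU (by fun_prop) (by fun_prop),
      avg_add hU (by fun_prop) (by fun_prop), avg_const_mul, avg_const_mul,
      avg_sum hU _ (fun y _ => by fun_prop), avg_const_mul, avg_const_mul] at hibp
    simp only [avg_const_mul] at hibp
    have hsum : ∑ y, P.A x y * v y = ∑ y, P.A x y * avg P.U (fun σ => e σ * co (σ y) i)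
        - (∑ y, P.A x y * S.m y i) * avg P.U e := by
      simp only [v, mul_sub, sum_sub_distrib, sum_mul]
      congr 1
      exact sum_congr rfl fun y _ => by ring
    rw [P.mulVec_H, hsum]
    simp only [v, r]
    linear_combination hibp - avg P.U e * hHm x
  have hv' : S.C *ᵥ r = v := by
    rw [← hHv, mulVec_mulVec, S.C_eq,
      nonsing_inv_mul _ S.posDef.det_pos.ne'.isUnit, one_mulVec]
  rw [hlhs, ← hv']
  rfl

/-- The size of a centred covariance. -/
theorem abs_avg_centred_le (hI : IBPGoal) (hn : 2 ≤ n) (hP : P.Ok) {δ p : ℝ} (hδ : 0 ≤ δ)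
    (hgood : avg P.U ((S.good i δ)ᶜ.indicator fun _ => 1) ≤ p) {Ψ : (ι → ℝ) → ℝ}
    {D : ι → (ι → ℝ) → ℝ} (hΨ : Continuous Ψ) (hD : ∀ x, Continuous (D x))
    (hder : ∀ x s, HasDerivAt (fun t => Ψ (Function.update s x t)) (D x s) (s x)) (z : ι)
    {F d M M' : ℝ} (hF : 0 ≤ F) (hd : 0 ≤ d) (hM : 0 ≤ M) (hM' : 0 ≤ M')
    (hsd : ∀ σ ∈ S.good i δ, ∀ x, |co (σ x) i| ≤ d)
    (hΨg : ∀ σ ∈ S.good i δ, |Ψ (fun y => co (σ y) i)| ≤ F)
    (hΨa : ∀ σ : Conf ι n, |Ψ (fun y => co (σ y) i)| ≤ 1)
    (hDg : ∀ σ ∈ S.good i δ, ∀ x, |S.C z x| * |D x (fun y => co (σ y) i)| ≤ M)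
    (hDa : ∀ (σ : Conf ι n) x, |S.C z x| * |D x (fun y => co (σ y) i)| ≤ M') :
    |avg P.U (fun σ => Ψ (fun y => co (σ y) i) * (co (σ z) i - S.m z i))|
      ≤ Fintype.card ι * ((M + M' * p) / n
        + (F * d * (1 / n + P.b * δ) + (1 + 16 * P.b) * p)) := by
  have : NeZero n := ⟨by omega⟩
  have hU := P.continuous_U
  have hv := continuous_comp_vec (ι := ι) i
  have hq := P.continuous_q
  have hG := S.measurableSet_good i δ
  have hΨv : Continuous fun σ : Conf ι n => Ψ (fun y => co (σ y) i) := hΨ.comp hv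
  have hb := hP.b_pos
  rw [S.avg_centred i hI hn hP hΨ hD hder z]
  refine (abs_sum_le_sum_abs _ _).trans ?_
  refine le_trans (sum_le_sum (g := fun _ : ι => (M + M' * p) / n
    + (F * d * (1 / n + P.b * δ) + (1 + 16 * P.b) * p)) fun x _ => ?_)
    (by rw [sum_const, card_univ, nsmul_eq_mul])
  rw [mul_add]
  refine (abs_add_le _ _).trans (add_le_add ?_ ?_)
  · have hDv : Continuous fun σ : Conf ι n => D x (fun y => co (σ y) i) := (hD x).comp hv
    rw [← mul_div_assoc, abs_div, Nat.abs_cast, ← avg_const_mul]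
    refine div_le_div_of_nonneg_right ?_ (Nat.cast_nonneg n)
    have hone : ∀ σ : Conf ι n, |1 - co (σ x) i ^ 2| ≤ 1 := fun σ => by
      have : co (σ x) i ^ 2 ≤ 1 := co_sq_sum (σ x) ▸
        single_le_sum (f := fun k => co (σ x) k ^ 2) (fun k _ => sq_nonneg _) (mem_univ i)
      rw [abs_le]
      constructor <;> linarith [sq_nonneg (co (σ x) i)]
    refine abs_avg_le_of_good hU (by fun_prop) hG hgood hM hM' (fun σ hσ => ?_) fun σ => ?_
    · rw [abs_mul, abs_mul, ← mul_assoc]
      exact (mul_le_of_le_one_right (mul_nonneg (abs_nonneg _) (abs_nonneg _)) (hone σ)).trans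
        (hDg σ hσ x)
    · rw [abs_mul, abs_mul, ← mul_assoc]
      exact (mul_le_of_le_one_right (mul_nonneg (abs_nonneg _) (abs_nonneg _)) (hone σ)).trans
        (hDa σ x)
  · rw [abs_mul]
    refine le_trans (mul_le_of_le_one_left (abs_nonneg _) (S.abs_C_le z x)) ?_
    have hn1 : (1 : ℝ) / n ≤ 1 := by
      rw [div_le_one (by positivity)]
      exact_mod_cast (by omega : 1 ≤ n)
    refine abs_avg_le_of_good hU (by fun_prop) hG hgood (by positivity) (by positivity)
      (fun σ hσ => ?_) fun σ => ?_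
    · rw [abs_mul, abs_mul]
      refine mul_le_mul (mul_le_mul (hΨg σ hσ) (hsd σ hσ x) (abs_nonneg _) hF) ?_ (abs_nonneg _)
        (mul_nonneg hF hd)
      refine (abs_sub _ _).trans (add_le_add (abs_of_nonneg (by positivity)).le ?_)
      rw [abs_mul, abs_of_pos hb]
      exact mul_le_mul_of_nonneg_left (hσ x).2 hb.le
    · rw [abs_mul, abs_mul]
      refine le_trans (mul_le_mul (mul_le_one₀ (hΨa σ) (abs_nonneg _) (abs_co_le_one _ _)) le_rfl
        (abs_nonneg _) zero_le_one) ?_
      rw [one_mul]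
      refine (abs_sub _ _).trans (add_le_add ((abs_of_nonneg (by positivity)).le.trans hn1) ?_)
      rw [abs_mul, abs_of_pos hb, mul_comm (16 : ℝ)]
      exact mul_le_mul_of_nonneg_left (by
        linarith [abs_sub (P.q σ x) (S.qbar x), abs_q_le hP σ x, S.abs_qbar_le hP x]) hb.le

end Saddle

omit [DecidableEq ι] in
/-- The derivative of an average in a parameter of the weight. -/
theorem hasDerivAt_avg [NeZero n] {U X f : Conf ι n → ℝ} (hU : Continuous U) (hX : Continuous X)
    (hf : Continuous f) (t : ℝ) :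
    HasDerivAt (fun s => avg (fun σ => U σ + s * X σ) f)
      (avg (fun σ => U σ + t * X σ) (fun σ => f σ * X σ)
        - avg (fun σ => U σ + t * X σ) f * avg (fun σ => U σ + t * X σ) X) t := by
  have key : ∀ g : Conf ι n → ℝ, Continuous g →
      HasDerivAt (fun s => ∫ σ, Real.exp (U σ + s * X σ) * g σ ∂base ι n)
        (∫ σ, Real.exp (U σ + t * X σ) * (g σ * X σ) ∂base ι n) t := by
    intro g hg
    have hc : Continuous fun p : ℝ × Conf ι n => Real.exp (U p.2 + p.1 * X p.2) * (g p.2 * X p.2) :=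
      by fun_prop
    obtain ⟨B, hB⟩ := ((isCompact_closedBall t 1).prod
      isCompact_univ).exists_bound_of_continuousOn hc.continuousOn
    refine (hasDerivAt_integral_of_dominated_loc_of_deriv_le (μ := base ι n)
      (F' := fun s σ => Real.exp (U σ + s * X σ) * (g σ * X σ)) (bound := fun _ => B)
      (Metric.closedBall_mem_nhds _ one_pos)
      (Filter.Eventually.of_forall fun s => Continuous.aestronglyMeasurable (by fun_prop))
      (integrable_base (by fun_prop)) (Continuous.aestronglyMeasurable (by fun_prop))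
      (Filter.Eventually.of_forall fun σ s hs => hB (s, σ) ⟨hs, Set.mem_univ _⟩)
      (integrable_const B) (Filter.Eventually.of_forall fun σ s _ => ?_)).2
    exact ((((hasDerivAt_id s).mul_const (X σ)).const_add (U σ)).exp.mul_const (g σ)).congr_deriv
      (by simp; ring)
  have hZ := weight_pos (U := fun σ => U σ + t * X σ) (by fun_prop)
  have h := (key f hf).div (by simpa using key (fun _ => 1) continuous_const) hZ.ne'
  simp only [avg]
  refine h.congr_deriv ?_
  field_simp

/-- Set the field of component `i`. -/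
def setField (P : Blk ι n) (i : Fin n) (a : ι → ℝ) (t : ℝ) : Blk ι n where
  b := P.b
  A := P.A
  h x k := if k = i then t * a x else P.h x k

omit [Fintype ι] [DecidableEq ι] in
theorem setField_zero (P : Blk ι n) (i : Fin n) (a : ι → ℝ) :
    setField P i a 0 = zeroField P i := by
  simp [setField, zeroField]

omit [Fintype ι] [DecidableEq ι] in
theorem setField_one (P : Blk ι n) (i : Fin n) :
    setField P i (fun x => P.h x i) 1 = P := by
  obtain ⟨b, A, h⟩ := P
  simp only [setField, one_mul, Blk.mk.injEq, true_and]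
  funext x k
  split_ifs with hk
  · rw [hk]
  · rfl

omit [DecidableEq ι] in
theorem setField_ok (hP : P.Ok) (i : Fin n) {t : ℝ} (ht : 0 ≤ t) (ht1 : t ≤ 1) :
    (setField P i (fun x => P.h x i) t).Ok where
  b_pos := hP.b_pos
  symm := hP.symm
  nonneg := hP.nonneg
  diag := hP.diag
  row := hP.row
  field x := by
    refine le_trans (sum_le_sum fun k _ => ?_) (hP.field x)
    simp only [setField]
    split_ifs with hk
    · subst hk
      rw [mul_pow]
      exact mul_le_of_le_one_left (sq_nonneg _) (pow_le_one₀ ht ht1)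
    · exact le_rfl

omit [DecidableEq ι] in
theorem setField_U (P : Blk ι n) (i : Fin n) (a : ι → ℝ) (t : ℝ) (σ : Conf ι n) :
    (setField P i a t).U σ
      = (zeroField P i).U σ + t * (n * P.b * ∑ x, a x * co (σ x) i) := by
  have e : ∀ x, (setField P i a t).fieldDot σ x
      = (zeroField P i).fieldDot σ x + t * (a x * co (σ x) i) := by
    intro x
    simp only [Blk.fieldDot, setField, zeroField]
    rw [← add_sum_erase _ _ (mem_univ i),
      ← add_sum_erase _ (fun k => co (σ x) k * if k = i then 0 else P.h x k) (mem_univ i)]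
    simp only [if_true, mul_zero, zero_add]
    rw [sum_congr rfl fun k hk => show co (σ x) k * (if k = i then t * a x else P.h x k)
      = co (σ x) k * if k = i then 0 else P.h x k by simp [ne_of_mem_erase hk]]
    ring
  simp only [Blk.U, e, sum_add_distrib, ← mul_sum]
  simp only [setField, zeroField]
  ring

/-- Switching on a small field in component `i` moves a local observable by little. -/
theorem avg_switch_le (hI : IBPGoal) (hn : 2 ≤ n) (hP : P.Ok) (i : Fin n) {Ψ : (ι → ℝ) → ℝ}
    {D : ι → (ι → ℝ) → ℝ} (hΨ : Continuous Ψ) (hD : ∀ x, Continuous (D x))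
    (hder : ∀ x s, HasDerivAt (fun t => Ψ (Function.update s x t)) (D x s) (s x))
    {amax δ p d F M M' ε : ℝ} (ha : ∀ x, |P.h x i| ≤ amax) (hamax : 0 ≤ amax) (hδ : 0 ≤ δ)
    (hp : 0 ≤ p) (hd : Fintype.card ι * P.b * amax + δ ≤ d) (hF : 0 ≤ F) (hM : 0 ≤ M)
    (hM' : 0 ≤ M') (hε : 0 ≤ ε)
    (near : ι → Prop) (hnear : ∀ x s, ¬ near x → D x s = 0)
    (hΨd : ∀ s, (∀ x, |s x| ≤ d) → |Ψ s| ≤ F)
    (hΨa : ∀ σ : Conf ι n, |Ψ (fun y => co (σ y) i)| ≤ 1)
    (hDd : ∀ x s, (∀ y, |s y| ≤ d) → |D x s| ≤ M)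
    (hDa : ∀ x (σ : Conf ι n), |D x (fun y => co (σ y) i)| ≤ M')
    (hpath : ∀ t : ℝ, 0 ≤ t → t ≤ 1 → ∃ S : Saddle (setField P i (fun x => P.h x i) t),
      avg (setField P i (fun x => P.h x i) t).U ((S.good i δ)ᶜ.indicator fun _ => 1) ≤ p ∧
      ∀ z x, P.h z i ≠ 0 → near x → |S.C z x| ≤ ε) :
    |avg P.U (fun σ => Ψ (fun y => co (σ y) i))
        - avg (zeroField P i).U (fun σ => Ψ (fun y => co (σ y) i))|
      ≤ n * P.b * (Fintype.card ι * amax) *
        (Fintype.card ι * ((ε * M + ε * M' * p) / n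
            + (F * d * (1 / n + P.b * δ) + (1 + 16 * P.b) * p))
          + (F + p) * (Fintype.card ι * (d * (1 / n + P.b * δ) + (1 + 16 * P.b) * p))) := by
  have : NeZero n := ⟨by omega⟩
  set a : ι → ℝ := fun x => P.h x i with ha'
  set U₀ := (zeroField P i).U with hU₀
  set X : Conf ι n → ℝ := fun σ => n * P.b * ∑ x, a x * co (σ x) i
  set f : Conf ι n → ℝ := fun σ => Ψ (fun y => co (σ y) i)
  have hv := continuous_comp_vec (ι := ι) i
  have hf : Continuous f := hΨ.comp hv
  have hX : Continuous X := by fun_prop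
  have hU0 : Continuous U₀ := (zeroField P i).continuous_U
  have hUt : ∀ t, (setField P i a t).U = fun σ => U₀ σ + t * X σ := fun t =>
    funext fun σ => setField_U P i a t σ
  have hb := hP.b_pos
  set N : ℝ := (Fintype.card ι : ℝ)
  have hN : 0 ≤ N := Nat.cast_nonneg _
  have hd0 : 0 ≤ d := le_trans (by positivity) hd
  set K := N * ((ε * M + ε * M' * p) / n + (F * d * (1 / n + P.b * δ) + (1 + 16 * P.b) * p))
      + (F + p) * (N * (d * (1 / n + P.b * δ) + (1 + 16 * P.b) * p))
  have bound : ∀ t : ℝ, 0 ≤ t → t ≤ 1 →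
      |avg (fun σ => U₀ σ + t * X σ) (fun σ => f σ * X σ)
        - avg (fun σ => U₀ σ + t * X σ) f * avg (fun σ => U₀ σ + t * X σ) X|
        ≤ n * P.b * (N * amax) * K := by
    intro t ht ht1
    rw [← hUt t]
    set Q := setField P i a t with hQ
    obtain ⟨S, hgood, hC⟩ : ∃ S : Saddle Q,
        avg Q.U ((S.good i δ)ᶜ.indicator fun _ => 1) ≤ p ∧
        ∀ z x, P.h z i ≠ 0 → near x → |S.C z x| ≤ ε := hpath t ht ht1
    have hPt : Q.Ok := setField_ok hP i ht ht1
    have hUc := Q.continuous_U
    have hbt : Q.b = P.b := rfl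
    have hm : ∀ x, |S.m x i| ≤ N * P.b * amax := by
      intro x
      rw [S.m_eq]
      refine (abs_sum_le_sum_abs _ _).trans ?_
      refine (sum_le_sum (g := fun _ : ι => P.b * amax) fun y _ => ?_).trans
        (by rw [sum_const, card_univ, nsmul_eq_mul, mul_assoc])
      rw [abs_mul]
      refine (mul_le_of_le_one_left (abs_nonneg _) (S.abs_C_le x y)).trans ?_
      simp only [hQ, setField, if_true]
      rw [abs_mul, abs_of_pos hb, abs_mul, abs_of_nonneg ht]
      exact mul_le_mul_of_nonneg_left ((mul_le_of_le_one_left (abs_nonneg _) ht1).trans (ha y))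
        hb.le
    have hsd : ∀ σ ∈ S.good i δ, ∀ x, |co (σ x) i| ≤ d := by
      intro σ hσ x
      have h1 := (hσ x).1
      have h2 := abs_sub_abs_le_abs_sub (co (σ x) i) (S.m x i)
      linarith [hm x]
    have hcov : ∀ z, a z ≠ 0 → |avg Q.U (fun σ => f σ * co (σ z) i)
        - avg Q.U f * avg Q.U (fun σ => co (σ z) i)| ≤ K := by
      intro z hz
      have h1 := S.abs_avg_centred_le i hI hn hPt hδ hgood hΨ hD hder z hF hd0
        (mul_nonneg hε hM) (mul_nonneg hε hM') hsd (fun σ hσ => hΨd _ (hsd σ hσ)) hΨa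
        (fun σ hσ x => by
          by_cases hx : near x
          · exact mul_le_mul (hC z x hz hx) (hDd x _ (hsd σ hσ)) (abs_nonneg _) hε
          · rw [hnear x _ hx, abs_zero, mul_zero]; positivity)
        (fun σ x => by
          by_cases hx : near x
          · exact mul_le_mul (hC z x hz hx) (hDa x σ) (abs_nonneg _) hε
          · rw [hnear x _ hx, abs_zero, mul_zero]; positivity)
      have h2 := S.abs_avg_centred_le i hI hn hPt hδ hgood (Ψ := fun _ => 1) (D := fun _ _ => 0)
        continuous_const (fun _ => continuous_const) (fun x s => hasDerivAt_const _ _) z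
        (F := 1) (d := d) (M := 0) (M' := 0) zero_le_one hd0 le_rfl le_rfl hsd
        (fun σ _ => by simp) (fun σ => by simp) (fun σ _ x => by simp) (fun σ x => by simp)
      simp only [one_mul, zero_mul, add_zero, zero_div, zero_add, hbt] at h2
      rw [hbt] at h1
      have h3 : |avg Q.U f| ≤ F + p := by
        refine le_trans (abs_avg_le_of_good hUc hf (S.measurableSet_good i δ) hgood hF zero_le_one
          (fun σ hσ => hΨd _ (hsd σ hσ)) hΨa) (by simp)
      have e1 : avg Q.U (fun σ => f σ * (co (σ z) i - S.m z i))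
          = avg Q.U (fun σ => f σ * co (σ z) i) - S.m z i * avg Q.U f := by
        rw [show (fun σ => f σ * (co (σ z) i - S.m z i))
          = fun σ => f σ * co (σ z) i + (-S.m z i) * f σ from funext fun σ => by ring,
          avg_add hUc (by fun_prop) (by fun_prop), avg_const_mul]
        ring
      have e2 : avg Q.U (fun σ => co (σ z) i - S.m z i)
          = avg Q.U (fun σ => co (σ z) i) - S.m z i := by
        rw [show (fun σ : Conf ι n => co (σ z) i - S.m z i)
          = fun σ => co (σ z) i + (-S.m z i) from funext fun σ => by ring,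
          avg_add hUc (by fun_prop) (by fun_prop), avg_const hUc]
        ring
      rw [show avg Q.U (fun σ => f σ * co (σ z) i) - avg Q.U f * avg Q.U (fun σ => co (σ z) i)
          = avg Q.U (fun σ => f σ * (co (σ z) i - S.m z i))
            - avg Q.U f * avg Q.U (fun σ => co (σ z) i - S.m z i) by rw [e1, e2]; ring]
      refine (abs_sub _ _).trans (add_le_add h1 ?_)
      rw [abs_mul]
      exact mul_le_mul h3 h2 (abs_nonneg _) (by linarith)
    have hlin : ∀ g : Conf ι n → ℝ, Continuous g → avg Q.U (fun σ => g σ * X σ)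
        = n * P.b * ∑ z, a z * avg Q.U (fun σ => g σ * co (σ z) i) := by
      intro g hg
      rw [show (fun σ => g σ * X σ) = fun σ => n * P.b * ∑ z, a z * (g σ * co (σ z) i) from
        funext fun σ => by simp only [X, mul_sum]; exact sum_congr rfl fun z _ => by ring,
        avg_const_mul, avg_sum hUc _ (fun z _ => by fun_prop)]
      simp only [avg_const_mul]
    have hX1 : avg Q.U X = n * P.b * ∑ z, a z * avg Q.U (fun σ => co (σ z) i) := by
      simpa using hlin (fun _ => 1) continuous_const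
    have hsum : n * P.b * ∑ z, a z * avg Q.U (fun σ => f σ * co (σ z) i)
        - avg Q.U f * (n * P.b * ∑ z, a z * avg Q.U (fun σ => co (σ z) i))
        = n * P.b * ∑ z, a z * (avg Q.U (fun σ => f σ * co (σ z) i)
            - avg Q.U f * avg Q.U (fun σ => co (σ z) i)) := by
      simp only [mul_sum, ← sum_sub_distrib]
      exact sum_congr rfl fun z _ => by ring
    rw [hlin f hf, hX1, hsum, abs_mul, abs_of_nonneg (by positivity : (0 : ℝ) ≤ n * P.b),
      mul_assoc (n * P.b : ℝ)]
    refine mul_le_mul_of_nonneg_left ?_ (by positivity)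
    refine (abs_sum_le_sum_abs _ _).trans ((sum_le_sum (g := fun _ : ι => amax * K) fun z _ => ?_).trans
      (by rw [sum_const, card_univ, nsmul_eq_mul, mul_assoc]))
    rcases eq_or_ne (a z) 0 with hz | hz
    · rw [hz, zero_mul, abs_zero]
      positivity
    · rw [abs_mul]
      exact mul_le_mul (ha z) (hcov z hz) (abs_nonneg _) hamax
  have hmvt := norm_image_sub_le_of_norm_deriv_le_segment_01'
    (f := fun s => avg (fun σ => U₀ σ + s * X σ) f)
    (fun t _ => (hasDerivAt_avg hU0 hX hf t).hasDerivWithinAt)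
    (fun t ht => by simpa [Real.norm_eq_abs] using bound t ht.1 ht.2.le)
  have e1 : avg (fun σ => U₀ σ + 1 * X σ) f = avg P.U f := by
    rw [← hUt 1, ha', setField_one]
  rw [Real.norm_eq_abs, e1] at hmvt
  simpa [U₀, f] using hmvt

end Vale.Agent.P163.Gap
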