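import Vale.Agent.P163.Gap.Griffiths

/-!
# Mass gap for `β ≤ c n log n`: the Ising module

The GHS bound `⟨s_v s_w⟩ - ⟨s_v⟩⟨s_w⟩ ≤ ⟨s_v s_w⟩₀` comes from two replicas: their overlap set is
distributed by a log-supermodular weight, and the four functions theorem compares two fields.
-/

noncomputable section

namespace Vale.Agent.P163.Gap

open Finset Griffiths

namespace IsingAux

set_option linter.unusedSectionVars false

variable {V E : Type} [Fintype V] [Fintype E] [DecidableEq V] (src dst : E → V)

/-- The energy. -/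
def ener (J : E → ℝ) (h : V → ℝ) (ε : Cfg V) : ℝ :=
  ∑ e, J e * sgn (ε (src e)) * sgn (ε (dst e)) + ∑ v, h v * sgn (ε v)

variable {src dst}

lemma imean_eq (J : E → ℝ) (h : V → ℝ) (f : Cfg V → ℝ) :
    imean src dst J h f = mean (ener src dst J h) f := rfl

lemma bond_eq (e : E) (ε : Cfg V) :
    sgn (ε (src e)) * sgn (ε (dst e)) = chi (symmDiff {src e} {dst e}) ε := by
  rw [← chi_mul]; simp [chi]

lemma dom_ener {J J' : E → ℝ} {h h' : V → ℝ} (hJ : ∀ e, |J' e| ≤ J e)
    (hh : ∀ v, |h' v| ≤ h v) : Dom (ener src dst J h) (ener src dst J' h') := by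
  refine Dom.add (dom_sum univ fun e _ => ?_) (dom_sum univ fun v _ => ?_)
  · simp only [mul_assoc, bond_eq]; exact dom_chi (hJ e) _
  · have h := dom_chi (hh v) ({v} : Finset V)
    simpa [chi] using h

lemma pos_ener {J : E → ℝ} {h : V → ℝ} (hJ : ∀ e, 0 ≤ J e) (hh : ∀ v, 0 ≤ h v) :
    Pos (ener src dst J h) := by
  have H := (Pos.sum univ fun e _ =>
      Pos.smul (hJ e) (Pos.chi (symmDiff {src e} {dst e}))).add
    (Pos.sum univ fun v _ => Pos.smul (hh v) (Pos.var v))
  convert H using 1
  funext ε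
  simp [ener, bond_eq, mul_assoc]

lemma pos_pair (u v : V) : Pos fun ε : Cfg V => sgn (ε u) * sgn (ε v) :=
  (Pos.var u).mul (Pos.var v)

omit [Fintype V] [DecidableEq V] in
lemma tw_tw (η ε : Cfg V) : tw η (tw η ε) = ε := by
  funext v; simp only [tw]; cases η v <;> cases ε v <;> rfl

lemma mean_tw (η : Cfg V) (H f : Cfg V → ℝ) :
    mean (fun ε => H (tw η ε)) (fun ε => f (tw η ε)) = mean H f := by
  have hb : Function.Bijective (tw η) := Function.Involutive.bijective (tw_tw η)
  exact congrArg₂ (· / ·) (Fintype.sum_bijective _ hb _ _ fun ε => rfl)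
    (Fintype.sum_bijective _ hb _ _ fun ε => rfl)

lemma mean_neg (H f : Cfg V → ℝ) : mean H (fun ε => -f ε) = -mean H f := by
  simp [mean, mul_neg, sum_neg_distrib, neg_div]

lemma mean_shift (H f : Cfg V → ℝ) (c : ℝ) : mean (fun ε => H ε + c) f = mean H f := by
  simp only [mean, Real.exp_add, mul_comm _ (Real.exp c), mul_assoc, ← mul_sum]
  exact mul_div_mul_left _ _ (Real.exp_ne_zero c)

lemma mean_var_zero (J : E → ℝ) (v : V) :
    mean (ener src dst J 0) (fun ε => sgn (ε v)) = 0 := by
  have h := mean_tw (fun _ => false) (ener src dst J 0) (fun ε : Cfg V => sgn (ε v))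
  have hH : (fun ε => ener src dst J 0 (tw (fun _ => false) ε)) = ener src dst J 0 := by
    funext ε
    simp only [ener, tw, sgn_beq, Pi.zero_apply, zero_mul, sum_const_zero, add_zero]
    exact sum_congr rfl fun e _ => by rw [show sgn false = -1 from rfl]; ring
  have hf : (fun ε : Cfg V => sgn (tw (fun _ => false) ε v)) = fun ε => -sgn (ε v) := by
    funext ε
    simp only [tw, sgn_beq]
    rw [show sgn false = -1 from rfl, neg_one_mul]
  rw [hH, hf, mean_neg] at h
  linarith

lemma restrict_nonneg {J : E → ℝ} (hJ : ∀ e, 0 ≤ J e) (S : Finset V) (e : E) :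
    0 ≤ restrict src dst J S e := by
  unfold restrict; split_ifs; exacts [hJ e, le_rfl]

lemma plusField_nonneg {J : E → ℝ} (hJ : ∀ e, 0 ≤ J e) (S : Finset V) (v : V) :
    0 ≤ plusField src dst J S v := sum_nonneg fun e _ => hJ e

lemma abs_plusMag_le (J : E → ℝ) (S : Finset V) (v : V) : |plusMag src dst J S v| ≤ 1 :=
  abs_mean_le _ fun _ => (abs_sgn _).le

/-! ### The GHS bound -/

/-- Twice the couplings inside `A` and twice the field on `A`. -/
def K (src dst : E → V) (J : E → ℝ) (h : V → ℝ) (A : Finset V) : Cfg V → ℝ :=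
  ener src dst (fun e => 2 * restrict src dst J A e) fun v => if v ∈ A then 2 * h v else 0

lemma K_zero (J : E → ℝ) (A : Finset V) :
    K src dst J 0 A = ener src dst (fun e => 2 * restrict src dst J A e) 0 := by
  funext ε; simp [K, ener]

lemma K_split (J : E → ℝ) (h : V → ℝ) (A : Finset V) (ε ε' : Cfg V) :
    K src dst J h A (mix A ε ε') = K src dst J h A ε := by
  refine congrArg₂ (· + ·) (sum_congr rfl fun e _ => ?_) (sum_congr rfl fun v _ => ?_)
  · by_cases hi : inside src dst A e
    · simp [mix, hi.1, hi.2]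
    · simp [restrict, hi]
  · by_cases hv : v ∈ A <;> simp [mix, hv]

lemma mix_compl (A : Finset V) (ε ε' : Cfg V) : mix A ε ε' = mix Aᶜ ε' ε := by
  funext v; by_cases h : v ∈ A <;> simp [mix, h]

lemma K_split' (J : E → ℝ) (h : V → ℝ) (A : Finset V) (ε ε' : Cfg V) :
    K src dst J h Aᶜ (mix A ε ε') = K src dst J h Aᶜ ε' := by
  rw [mix_compl, K_split]

/-- Sets of vertices as configurations. -/
def setCfg : Finset V ≃ Cfg V where
  toFun A v := decide (v ∈ A)
  invFun η := univ.filter fun v => η v = true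
  left_inv A := by ext; simp
  right_inv η := by funext v; simp

lemma sgn_setCfg (A : Finset V) (v : V) : sgn (setCfg A v) = if v ∈ A then 1 else -1 := by
  by_cases h : v ∈ A <;> simp [setCfg, sgn, h]

lemma two_replicas (J : E → ℝ) (h : V → ℝ) (A : Finset V) (ε : Cfg V) :
    ener src dst J h ε + ener src dst J h (tw (setCfg A) ε) =
      K src dst J h A ε + K src dst J 0 Aᶜ ε := by
  simp only [K, ener, tw, sgn_beq, sgn_setCfg]
  rw [add_add_add_comm, add_add_add_comm (∑ e, 2 * restrict src dst J A e * _ * _)]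
  simp only [← sum_add_distrib]
  refine congrArg₂ (· + ·) (sum_congr rfl fun e _ => ?_) (sum_congr rfl fun v _ => ?_)
  · by_cases hs : src e ∈ A <;> by_cases hd : dst e ∈ A <;>
      simp [restrict, inside, hs, hd]
    all_goals ring
  · by_cases hv : v ∈ A <;> simp [hv]
    ring

/-- The weight of an overlap set. -/
def wt (src dst : E → V) (J : E → ℝ) (h : V → ℝ) (A : Finset V) : ℝ :=
  part (K src dst J h A) * part (K src dst J 0 Aᶜ)

/-- The zero field correlation outside the overlap set. -/
def gfun (src dst : E → V) (J : E → ℝ) (v w : V) (A : Finset V) : ℝ :=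
  if v ∈ A ∨ w ∈ A then 0 else corr src dst (fun e => 2 * restrict src dst J Aᶜ e) v w

lemma sum_replicas (J : E → ℝ) (h : V → ℝ) (F : Cfg V → Cfg V → ℝ) :
    ∑ ε, ∑ ε', Real.exp (ener src dst J h ε) * Real.exp (ener src dst J h ε') * F ε ε' =
      ∑ A : Finset V, ∑ ε, Real.exp (K src dst J h A ε) *
        Real.exp (K src dst J 0 Aᶜ ε) * F ε (tw (setCfg A) ε) := by
  rw [← sum_sum_tw, ← Equiv.sum_comp setCfg]
  simp only [← Real.exp_add, two_replicas]

lemma den_eq (J : E → ℝ) (h : V → ℝ) :
    (Fintype.card (Cfg V) : ℝ) * (part (ener src dst J h) * part (ener src dst J h)) =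
      ∑ A, wt src dst J h A := by
  have e := sum_replicas (src := src) (dst := dst) J h fun _ _ => 1
  simp only [mul_one] at e
  simp only [part, sum_mul_sum, e, mul_sum (s := (univ : Finset (Finset V)))]
  refine sum_congr rfl fun A _ => ?_
  exact Griffiths.sum_split A (fun a b => by rw [K_split]) (fun a b => by rw [K_split'])

lemma num_eq (J : E → ℝ) (h : V → ℝ) (v w : V) :
    (Fintype.card (Cfg V) : ℝ) *
        (part (ener src dst J h) *
            (∑ ε, Real.exp (ener src dst J h ε) * (sgn (ε v) * sgn (ε w))) -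
          (∑ ε, Real.exp (ener src dst J h ε) * sgn (ε v)) *
            ∑ ε, Real.exp (ener src dst J h ε) * sgn (ε w)) =
      2 * ∑ A, wt src dst J h A * gfun src dst J v w A := by
  have e := sum_replicas (src := src) (dst := dst) J h
    fun a b => sgn (a v) * sgn (a w) - sgn (a v) * sgn (b w)
  have e0 : part (ener src dst J h) *
        (∑ ε, Real.exp (ener src dst J h ε) * (sgn (ε v) * sgn (ε w))) -
      (∑ ε, Real.exp (ener src dst J h ε) * sgn (ε v)) *
        (∑ ε, Real.exp (ener src dst J h ε) * sgn (ε w)) =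
      ∑ ε, ∑ ε', Real.exp (ener src dst J h ε) * Real.exp (ener src dst J h ε') *
        (sgn (ε v) * sgn (ε w) - sgn (ε v) * sgn (ε' w)) := by
    rw [mul_comm (part _), part, sum_mul_sum, sum_mul_sum, ← sum_sub_distrib]
    refine sum_congr rfl fun ε _ => ?_
    rw [← sum_sub_distrib]
    exact sum_congr rfl fun ε' _ => by ring
  rw [e0, e, mul_sum, mul_sum]
  refine sum_congr rfl fun A _ => ?_
  simp only [tw, sgn_beq, sgn_setCfg]
  by_cases hw : w ∈ A
  · simp [gfun, hw]
  simp only [if_neg hw, gfun]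
  have hr : ∀ ε, Real.exp (K src dst J h A ε) * Real.exp (K src dst J 0 Aᶜ ε) *
      (sgn (ε v) * sgn (ε w) - sgn (ε v) * (-1 * sgn (ε w))) =
      2 * (Real.exp (K src dst J h A ε) * Real.exp (K src dst J 0 Aᶜ ε) *
        (sgn (ε v) * sgn (ε w))) := fun ε => by ring
  simp only [hr, ← mul_sum]
  rw [mul_left_comm]
  congr 1
  by_cases hv : v ∈ A
  · rw [if_pos (Or.inl hv), mul_zero]
    rw [show (∑ ε, Real.exp (K src dst J h A ε) * Real.exp (K src dst J 0 Aᶜ ε) *
        (sgn (ε v) * sgn (ε w))) = ∑ ε, Real.exp (K src dst J h A ε) * sgn (ε v) *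
          (Real.exp (K src dst J 0 Aᶜ ε) * sgn (ε w)) from sum_congr rfl fun ε _ => by ring]
    rw [Griffiths.sum_split A (fun a b => by rw [K_split]; simp [mix, hv])
      (fun a b => by rw [K_split']; simp [mix, hw])]
    have hz := mean_var_zero (src := src) (dst := dst)
      (fun e => 2 * restrict src dst J Aᶜ e) w
    rw [← K_zero, mean, div_eq_zero_iff] at hz
    rcases hz with hz | hz
    · rw [hz, mul_zero]
    · exact absurd hz (part_pos _).ne'
  · rw [if_neg (by tauto)]
    rw [show (∑ ε, Real.exp (K src dst J h A ε) * Real.exp (K src dst J 0 Aᶜ ε) *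
        (sgn (ε v) * sgn (ε w))) = ∑ ε, Real.exp (K src dst J h A ε) *
          (Real.exp (K src dst J 0 Aᶜ ε) * (sgn (ε v) * sgn (ε w))) from
      sum_congr rfl fun ε _ => by ring]
    rw [Griffiths.sum_split A (fun a b => by rw [K_split])
      (fun a b => by rw [K_split']; simp [mix, hv, hw])]
    rw [wt, corr, imean_eq, ← K_zero, mean, mul_assoc]
    congr 1
    exact (mul_div_cancel₀ _ (part_pos (K src dst J 0 Aᶜ)).ne').symm

lemma ener_add (J J' : E → ℝ) (h h' : V → ℝ) :
    ener src dst J h + ener src dst J' h' = ener src dst (J + J') (h + h') := by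
  funext ε
  simp only [Pi.add_apply, ener, add_mul, sum_add_distrib]
  ring

lemma part_K_supermod {J : E → ℝ} {h : V → ℝ} (hJ : ∀ e, 0 ≤ J e) (hh : ∀ v, 0 ≤ h v)
    (a b : Finset V) :
    part (K src dst J h a) * part (K src dst J 0 b) ≤
      part (K src dst J 0 (a ∩ b)) * part (K src dst J h (a ∪ b)) := by
  set r : Finset V → E → ℝ := fun A e => 2 * restrict src dst J A e with hr
  set f : Finset V → V → ℝ := fun A v => if v ∈ A then 2 * h v else 0 with hf
  have m : ∀ {A B : Finset V}, A ⊆ B → ∀ e, 0 ≤ (r B - r A) e := by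
    intro A B hAB e
    simp only [hr, Pi.sub_apply, restrict]
    by_cases h1 : inside src dst A e
    · have h2 : inside src dst B e := ⟨hAB h1.1, hAB h1.2⟩
      simp [h1, h2]
    · by_cases h2 : inside src dst B e <;> simp [h1, h2, hJ e]
  have key := part_supermod (H := ener src dst (r (a ∩ b)) 0)
    (P := ener src dst (r a - r (a ∩ b)) (f a))
    (Q := ener src dst (r b - r (a ∩ b)) 0)
    (R := ener src dst (r (a ∪ b) - r a - r b + r (a ∩ b)) (f (a ∪ b) - f a))
    (pos_ener (fun e => mul_nonneg (by norm_num) (restrict_nonneg hJ _ e)) fun v => le_rfl)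
    (pos_ener (m inter_subset_left) fun v => by
      simp only [hf]; split_ifs; exacts [by linarith [hh v], le_rfl])
    (pos_ener (m inter_subset_right) fun v => le_rfl)
    (pos_ener (fun e => by
      simp only [hr, Pi.add_apply, Pi.sub_apply, restrict, inside, mem_union, mem_inter]
      by_cases h1 : src e ∈ a <;> by_cases h2 : src e ∈ b <;> by_cases h3 : dst e ∈ a <;>
        by_cases h4 : dst e ∈ b <;> simp [h1, h2, h3, h4] <;> linarith [hJ e])
      fun v => by
        simp only [hf, Pi.sub_apply, mem_union]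
        by_cases h1 : v ∈ a <;> by_cases h2 : v ∈ b <;> simp [h1, h2, hh v])
  simp only [ener_add, add_sub_cancel, zero_add, add_zero] at key
  rw [show r a + (r b - r (a ∩ b)) +
      (r (a ∪ b) - r a - r b + r (a ∩ b)) = r (a ∪ b) by abel] at key
  rw [K_zero, K_zero]
  exact key

lemma wt_supermod {J : E → ℝ} {h : V → ℝ} (hJ : ∀ e, 0 ≤ J e) (hh : ∀ v, 0 ≤ h v)
    (a b : Finset V) :
    wt src dst J h a * wt src dst J 0 b ≤ wt src dst J 0 (a ∩ b) * wt src dst J h (a ∪ b) := by
  have h1 := part_K_supermod (src := src) (dst := dst) hJ hh a b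
  have h2 := part_K_supermod (src := src) (dst := dst) hJ (fun _ => le_refl (0:ℝ)) aᶜ bᶜ
  rw [← compl_union, ← compl_inter] at h2
  calc wt src dst J h a * wt src dst J 0 b
      = part (K src dst J h a) * part (K src dst J 0 b) *
          (part (K src dst J 0 aᶜ) * part (K src dst J 0 bᶜ)) := by simp only [wt]; ring
    _ ≤ part (K src dst J 0 (a ∩ b)) * part (K src dst J h (a ∪ b)) *
          (part (K src dst J 0 (a ∪ b)ᶜ) * part (K src dst J 0 (a ∩ b)ᶜ)) :=
        mul_le_mul h1 h2 (mul_pos (part_pos _) (part_pos _)).le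
          (mul_pos (part_pos _) (part_pos _)).le
    _ = _ := by simp only [wt]; ring

lemma gfun_nonneg {J : E → ℝ} (hJ : ∀ e, 0 ≤ J e) (v w : V) (A : Finset V) :
    0 ≤ gfun src dst J v w A := by
  unfold gfun
  split_ifs
  · exact le_rfl
  · exact mean_nonneg (pos_ener (fun e => mul_nonneg (by norm_num) (restrict_nonneg hJ _ e))
      fun _ => le_rfl) (pos_pair v w)

lemma gfun_anti {J : E → ℝ} (hJ : ∀ e, 0 ≤ J e) (v w : V) {A B : Finset V} (hAB : A ⊆ B) :
    gfun src dst J v w B ≤ gfun src dst J v w A := by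
  by_cases hB : v ∈ B ∨ w ∈ B
  · rw [gfun, if_pos hB]; exact gfun_nonneg hJ v w A
  rw [gfun, if_neg hB, gfun, if_neg fun h => hB (h.imp (@hAB _) (@hAB _))]
  refine mean_le_mean (dom_ener (fun e => ?_) fun _ => by simp) (pos_pair v w)
  rw [abs_of_nonneg (mul_nonneg (by norm_num) (restrict_nonneg hJ _ e))]
  simp only [restrict, inside, mem_compl]
  split_ifs with h1 h2
  · exact le_rfl
  · exact absurd ⟨fun h => h1.1 (hAB h), fun h => h1.2 (hAB h)⟩ h2
  · linarith [hJ e]
  · exact le_rfl

lemma wt_pos (J : E → ℝ) (h : V → ℝ) (A : Finset V) : 0 < wt src dst J h A :=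
  mul_pos (part_pos _) (part_pos _)

lemma trunc_eq (J : E → ℝ) (h : V → ℝ) (v w : V) :
    mean (ener src dst J h) (fun ε => sgn (ε v) * sgn (ε w)) -
        mean (ener src dst J h) (fun ε => sgn (ε v)) *
          mean (ener src dst J h) (fun ε => sgn (ε w)) =
      2 * (∑ A, wt src dst J h A * gfun src dst J v w A) / ∑ A, wt src dst J h A := by
  rw [← num_eq, ← den_eq]
  have hN : (Fintype.card (Cfg V) : ℝ) ≠ 0 := by simp
  have hZ := (part_pos (ener src dst J h)).ne'
  rw [mul_div_mul_left _ _ hN]
  simp only [mean, part] at hZ ⊢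
  field_simp

/-- The GHS bound. -/
lemma trunc_le {J : E → ℝ} {h : V → ℝ} (hJ : ∀ e, 0 ≤ J e) (hh : ∀ v, 0 ≤ h v) (v w : V) :
    mean (ener src dst J h) (fun ε => sgn (ε v) * sgn (ε w)) -
        mean (ener src dst J h) (fun ε => sgn (ε v)) *
          mean (ener src dst J h) (fun ε => sgn (ε w)) ≤ corr src dst J v w := by
  have h0 := trunc_eq (src := src) (dst := dst) J 0 v w
  rw [mean_var_zero, zero_mul, sub_zero] at h0
  rw [corr, imean_eq, h0, trunc_eq,
    div_le_div_iff₀ (sum_pos (fun A _ => wt_pos _ _ A) univ_nonempty)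
      (sum_pos (fun A _ => wt_pos _ _ A) univ_nonempty)]
  have key := four_functions_theorem_univ
    (fun A => wt src dst J h A * gfun src dst J v w A) (fun A => wt src dst J 0 A)
    (fun A => wt src dst J 0 A * gfun src dst J v w A) (fun A => wt src dst J h A)
    (fun A => mul_nonneg (wt_pos _ _ A).le (gfun_nonneg hJ v w A)) (fun A => (wt_pos _ _ A).le)
    (fun A => mul_nonneg (wt_pos _ _ A).le (gfun_nonneg hJ v w A)) (fun A => (wt_pos _ _ A).le)
    (fun a b => by
      calc wt src dst J h a * gfun src dst J v w a * wt src dst J 0 b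
          = wt src dst J h a * wt src dst J 0 b * gfun src dst J v w a := by ring
        _ ≤ wt src dst J 0 (a ∩ b) * wt src dst J h (a ∪ b) * gfun src dst J v w (a ∩ b) :=
            mul_le_mul (wt_supermod hJ hh a b) (gfun_anti hJ v w inter_subset_left)
              (gfun_nonneg hJ v w a) (mul_pos (wt_pos _ _ _) (wt_pos _ _ _)).le
        _ = _ := by simp only [inf_eq_inter, sup_eq_union]; ring)
  linarith

/-- The magnetisation is at most linear in the field. -/
lemma mag_le {J : E → ℝ} {h : V → ℝ} (hJ : ∀ e, 0 ≤ J e) (hh : ∀ v, 0 ≤ h v) (v : V) :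
    mean (ener src dst J h) (fun ε => sgn (ε v)) ≤ ∑ w, h w * corr src dst J v w := by
  set H : Cfg V → ℝ := ener src dst J 0 with hH
  set P : Cfg V → ℝ := fun ε => ∑ w, h w * sgn (ε w) with hP
  set s : Cfg V → ℝ := fun ε => sgn (ε v) with hs
  set g : ℝ → ℝ := fun t => mean (fun ε => H ε + t * P ε) s with hg
  have hd := fun t => hasDerivAt_mean H P s t
  have hb : ∀ t, 0 ≤ t → deriv g t ≤ ∑ w, h w * corr src dst J v w := by
    intro t ht
    rw [(hd t).deriv]
    have e : (fun ε => H ε + t * P ε) = ener src dst J (fun w => t * h w) := by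
      funext ε; simp [hH, hP, ener, mul_sum, mul_assoc]
    have e1 : (fun ε => s ε * P ε) = fun ε => ∑ w, h w * (sgn (ε v) * sgn (ε w)) := by
      funext ε; simp [hP, hs, mul_sum, mul_left_comm]
    rw [e, e1, hP, mean_sum, mean_sum, mul_sum, ← sum_sub_distrib]
    refine sum_le_sum fun w _ => ?_
    rw [mean_const_mul, mean_const_mul, mul_left_comm, ← mul_sub]
    exact mul_le_mul_of_nonneg_left (trunc_le hJ (fun u => mul_nonneg ht (hh u)) v w) (hh w)
  have := (convex_Icc (0:ℝ) 1).image_sub_le_mul_sub_of_deriv_le (f := g)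
    (fun t _ => (hd t).continuousAt.continuousWithinAt)
    (fun t _ => (hd t).differentiableAt.differentiableWithinAt)
    (fun t ht => hb t (interior_subset ht).1) 0 (by simp) 1 (by simp) zero_le_one
  have g0 : g 0 = 0 := by
    simp only [hg, hH, zero_mul, add_zero]
    exact mean_var_zero J v
  have g1 : g 1 = mean (ener src dst J h) s := by
    simp only [hg, one_mul]
    congr 1
    funext ε; simp [hH, hP, ener]
  rw [g0, g1] at this
  linarith

/-! ### Conditioning on the spins outside a set -/

/-- The field felt in `T` from the spins outside. -/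
def bdry (src dst : E → V) (J : E → ℝ) (T : Finset V) (ε : Cfg V) (v : V) : ℝ :=
  ∑ e ∈ univ.filter (fun e => crossing src dst T e ∧ inEnd src dst T e = v),
    J e * sgn (ε (outEnd src dst T e))

lemma abs_bdry_le {J : E → ℝ} (hJ : ∀ e, 0 ≤ J e) (T : Finset V) (ε : Cfg V) (v : V) :
    |bdry src dst J T ε v| ≤ plusField src dst J T v := by
  refine (abs_sum_le_sum_abs _ _).trans (sum_le_sum fun e _ => ?_)
  rw [abs_mul, abs_sgn, mul_one, abs_of_nonneg (hJ e)]

lemma sum_crossing (T : Finset V) (F : E → ℝ) (G : V → ℝ) :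
    ∑ v, (∑ e ∈ univ.filter (fun e => crossing src dst T e ∧ inEnd src dst T e = v), F e) * G v =
      ∑ e ∈ univ.filter (fun e => crossing src dst T e), F e * G (inEnd src dst T e) := by
  rw [← sum_fiberwise (univ.filter fun e => crossing src dst T e) (inEnd src dst T)]
  refine sum_congr rfl fun v _ => ?_
  rw [sum_mul, filter_filter]
  exact sum_congr rfl fun e he => by rw [(mem_filter.1 he).2.2]

lemma ener_mix (J : E → ℝ) (T : Finset V) (ε ε' : Cfg V) :
    ener src dst J 0 (mix T ε' ε) =
      ener src dst (restrict src dst J T) (bdry src dst J T ε) ε' +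
        ener src dst (restrict src dst J Tᶜ) 0 ε := by
  simp only [ener, Pi.zero_apply, zero_mul, sum_const_zero, add_zero, bdry]
  rw [sum_crossing T _ fun v => sgn (ε' v), sum_filter, ← sum_add_distrib, ← sum_add_distrib]
  refine sum_congr rfl fun e _ => ?_
  by_cases hs : src e ∈ T <;> by_cases hd : dst e ∈ T <;>
    simp [restrict, inside, crossing, inEnd, outEnd, mix, hs, hd]
  ring

lemma cmean_single (J : E → ℝ) (T : Finset V) (c : Cfg V → ℝ) (v : V) (hv : v ∈ T)
    (hc : ∀ ε ε', c (mix T ε' ε) = c ε) (ε : Cfg V) :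
    cmean (ener src dst J 0) T (fun ε => c ε * sgn (ε v)) ε =
      c ε * mean (ener src dst (restrict src dst J T) (bdry src dst J T ε))
        fun ε' => sgn (ε' v) := by
  simp only [cmean, ener_mix, mean_shift, hc, mean_const_mul]
  simp [mix, hv]

lemma abs_mag_le_plus {J : E → ℝ} (hJ : ∀ e, 0 ≤ J e) (T : Finset V) (ε : Cfg V) (v : V) :
    |mean (ener src dst (restrict src dst J T) (bdry src dst J T ε)) fun ε' => sgn (ε' v)| ≤
      plusMag src dst J T v :=
  abs_mean_le_mean (dom_ener (fun e => (abs_of_nonneg (restrict_nonneg hJ T e)).le)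
    (abs_bdry_le hJ T ε)) (Pos.var v)

lemma plusMag_le' {J : E → ℝ} (hJ : ∀ e, 0 ≤ J e) (S : Finset V) (v : V) :
    plusMag src dst J S v ≤ ∑ e ∈ univ.filter (fun e => crossing src dst S e),
      J e * corr src dst (restrict src dst J S) v (inEnd src dst S e) := by
  rw [← sum_crossing S J fun w => corr src dst (restrict src dst J S) v w]
  exact mag_le (restrict_nonneg hJ S) (plusField_nonneg hJ S) v

lemma corr_step' {J : E → ℝ} (hJ : ∀ e, 0 ≤ J e) (T S : Finset V) (v y : V) (hTS : T ⊆ S)
    (hcr : ∀ e, crossing src dst T e → inside src dst S e ∨ J e = 0) (hv : v ∈ T) (hy : y ∉ S) :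
    corr src dst J v y ≤ plusMag src dst J T v *
      ∑ e ∈ univ.filter (fun e => crossing src dst S e),
        J e * corr src dst (restrict src dst J Sᶜ) (outEnd src dst S e) y := by
  set H := ener src dst J 0 with hH
  set gT : Cfg V → ℝ := fun ε => mean (ener src dst (restrict src dst J T) (bdry src dst J T ε))
    fun ε' => sgn (ε' v) with hgT
  set gS : Cfg V → ℝ := fun ε => mean (ener src dst (restrict src dst J Sᶜ) (bdry src dst J Sᶜ ε))
    fun ε' => sgn (ε' y) with hgS
  have hyT : y ∉ T := fun h => hy (hTS h)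
  have hlocal : ∀ ε ε', gT (mix Sᶜ ε' ε) = gT ε := by
    intro ε ε'
    simp only [hgT]
    congr 2
    funext u
    refine sum_congr rfl fun e he => ?_
    obtain ⟨hce, -⟩ := (mem_filter.1 he).2
    rcases hcr e hce with hi | h0
    · have : outEnd src dst T e ∈ S := by
        unfold outEnd; split_ifs; exacts [hi.2, hi.1]
      simp [mix, this]
    · simp [h0]
  have e1 : corr src dst J v y = mean H fun ε => gT ε * sgn (ε y) := by
    rw [corr, imean_eq, ← mean_cmean H T]
    congr 1
    funext ε
    have : (fun ε : Cfg V => sgn (ε v) * sgn (ε y)) = fun ε => sgn (ε y) * sgn (ε v) := by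
      funext ε; ring
    rw [this, hH, cmean_single J T (fun ε => sgn (ε y)) v hv fun ε ε' => by simp [mix, hyT]]
    ring
  have e2 : (mean H fun ε => gT ε * sgn (ε y)) = mean H fun ε => gT ε * gS ε := by
    rw [← mean_cmean H Sᶜ]
    congr 1
    funext ε
    exact cmean_single J Sᶜ gT y (mem_compl.2 hy) hlocal ε
  have hb : ∀ ε, |gT ε * gS ε| ≤ plusMag src dst J T v * plusMag src dst J Sᶜ y := fun ε => by
    rw [abs_mul]
    exact mul_le_mul (abs_mag_le_plus hJ T ε v) (abs_mag_le_plus hJ Sᶜ ε y) (abs_nonneg _)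
      ((abs_nonneg _).trans (abs_mag_le_plus hJ T ε v))
  have h1 : corr src dst J v y ≤ plusMag src dst J T v * plusMag src dst J Sᶜ y := by
    rw [e1, e2]
    exact (le_abs_self _).trans (abs_mean_le H hb)
  refine h1.trans (mul_le_mul_of_nonneg_left ?_ ?_)
  · refine (plusMag_le' hJ Sᶜ y).trans_eq (sum_congr ?_ fun e _ => ?_)
    · ext e
      rw [mem_filter, mem_filter]
      simp only [crossing, mem_univ, true_and, mem_compl, not_iff_not]
    · have : inEnd src dst Sᶜ e = outEnd src dst S e := by
        by_cases hs : src e ∈ S <;> simp [inEnd, outEnd, hs]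
      rw [this]
      refine congrArg (J e * ·) (congrArg (mean _) ?_)
      funext ε; exact mul_comm _ _
  · exact (abs_nonneg _).trans (abs_mag_le_plus hJ T (fun _ => true) v)

lemma corr_gauge' (J : E → ℝ) (η : Cfg V) (u v : V) :
    corr src dst (fun e => sgn (η (src e)) * sgn (η (dst e)) * J e) u v =
      sgn (η u) * sgn (η v) * corr src dst J u v := by
  rw [corr, corr, imean_eq, imean_eq, ← mean_const_mul,
    ← mean_tw η (ener src dst J 0) fun ε => sgn (η u) * sgn (η v) * (sgn (ε u) * sgn (ε v))]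
  congr 1 <;> funext ε
  · simp only [ener, tw, sgn_beq, Pi.zero_apply, zero_mul, sum_const_zero, add_zero]
    exact sum_congr rfl fun e _ => by ring
  · have h1 := sgn_sq (η u)
    have h2 := sgn_sq (η v)
    simp only [tw, sgn_beq]
    linear_combination (-(sgn (ε u) * sgn (ε v))) * (sgn (η v) * sgn (η v)) * h1
      + (-(sgn (ε u) * sgn (ε v))) * h2

end IsingAux

open IsingAux

/-- The Ising module. -/
theorem isingGoal : IsingGoal := fun V E _ _ _ src dst _ =>
  { corr_nonneg := fun J hJ u v => mean_nonneg (pos_ener hJ fun _ => le_rfl) (pos_pair u v)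
    abs_corr_le := fun J u v => abs_mean_le _ fun ε => by rw [abs_mul, abs_sgn, abs_sgn, mul_one]
    corr_mono := fun J J' h u v => mean_le_mean
      (dom_ener (fun e => by rw [abs_of_nonneg (h e).1]; exact (h e).2) fun _ => by simp)
      (pos_pair u v)
    plusMag_bounds := fun J hJ S v =>
      ⟨mean_nonneg (pos_ener (restrict_nonneg hJ S) (plusField_nonneg hJ S)) (Pos.var v),
        (le_abs_self _).trans (abs_plusMag_le J S v)⟩
    plusMag_mono := fun J J' h S v => mean_le_mean
      (dom_ener (fun e => by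
        rw [abs_of_nonneg (restrict_nonneg (fun e => (h e).1) S e)]
        unfold restrict; split_ifs; exacts [(h e).2, le_rfl]) fun u => by
        rw [abs_of_nonneg (plusField_nonneg (fun e => (h e).1) S u)]
        exact sum_le_sum fun e _ => (h e).2) (Pos.var v)
    plusMag_le := fun J hJ S v => plusMag_le' hJ S v
    corr_step := fun J hJ T S v y => corr_step' hJ T S v y
    corr_gauge := corr_gauge' }

end Vale.Agent.P163.Gap
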