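import Vale.Agent.P163.Gap.Window
import Vale.Agent.P163.Gap.Ising

/-!
# Mass gap for `β ≤ c n log n`: averaging over the signs of one component
-/

noncomputable section

namespace Vale.Agent.P163.Gap

open MeasureTheory Finset

set_option linter.unusedSectionVars false

variable {V E : Type} [Fintype V] [Fintype E] [DecidableEq V] {n : ℕ} {src dst : E → V}

theorem abs_co_le (s : Spin n) (i : Fin n) : |co s i| ≤ 1 := by
  rw [← sq_le_one_iff_abs_le_one, ← co_sq_sum s]
  exact single_le_sum (fun k _ => sq_nonneg (co s k)) (mem_univ i)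

theorem coup_nonneg {β : ℝ} (hβ : 0 ≤ β) (i : Fin n) (σ : Conf V n) (e : E) :
    0 ≤ coup β src dst i σ e := by
  unfold coup; positivity

theorem coup_le {β : ℝ} (hβ : 0 ≤ β) (i : Fin n) (σ : Conf V n) (e : E) :
    coup β src dst i σ e ≤ β := by
  unfold coup
  calc β * |co (σ (src e)) i| * |co (σ (dst e)) i| ≤ β * 1 * 1 := by
        gcongr <;> exact abs_co_le _ _
    _ = β := by ring

omit [Fintype V] in
theorem continuous_coup (β : ℝ) (i : Fin n) (e : E) :
    Continuous fun σ : Conf V n => coup β src dst i σ e := by
  unfold coup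
  fun_prop

theorem continuous_imean {X : Type} [TopologicalSpace X] {J : X → E → ℝ} {h : X → V → ℝ}
    (hJ : ∀ e, Continuous fun x => J x e) (hh : ∀ v, Continuous fun x => h x v)
    (f : (V → Bool) → ℝ) : Continuous fun x => imean src dst (J x) (h x) f := by
  unfold imean iw
  refine Continuous.div (by fun_prop) (by fun_prop) fun x => ?_
  exact (sum_pos (fun _ _ => Real.exp_pos _) univ_nonempty).ne'

/-- The reflection in component `i`, or the identity. -/
def refl1 (i : Fin n) (b : Bool) : EuclideanSpace ℝ (Fin n) ≃ₗᵢ[ℝ] EuclideanSpace ℝ (Fin n) :=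
  LinearIsometryEquiv.piLpCongrRight 2 fun k =>
    if k = i ∧ b = false then LinearIsometryEquiv.neg ℝ else LinearIsometryEquiv.refl ℝ ℝ

/-- The signs `η` applied to component `i`. -/
def flip (i : Fin n) (η : V → Bool) (σ : Conf V n) : Conf V n :=
  fun v => sphereMap (refl1 i (η v)) (σ v)

theorem co_flip (i : Fin n) (η : V → Bool) (σ : Conf V n) (v : V) (k : Fin n) :
    co (flip i η σ v) k = (if k = i then sgn (η v) else 1) * co (σ v) k := by
  simp only [co, flip, sphereMap, refl1, LinearIsometryEquiv.piLpCongrRight_apply]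
  by_cases hk : k = i <;> cases η v <;> simp [hk, sgn, LinearIsometryEquiv.coe_neg]

theorem measurePreserving_flip [NeZero n] (i : Fin n) (η : V → Bool) :
    MeasurePreserving (flip (V := V) i η) (base V n) (base V n) :=
  measurePreserving_pi (fun _ => uniform n) (fun _ => uniform n)
    fun v => measurePreserving_sphereMap (refl1 i (η v))

theorem continuous_flip (i : Fin n) (η : V → Bool) : Continuous (flip (V := V) i η) :=
  continuous_pi fun v => (continuous_sphereMap _).comp (continuous_apply v)

theorem integral_flip [NeZero n] (i : Fin n) (η : V → Bool) {f : Conf V n → ℝ}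
    (hf : Continuous f) : ∫ σ, f (flip i η σ) ∂base V n = ∫ σ, f σ ∂base V n := by
  have hm := measurePreserving_flip (V := V) i η
  conv_rhs => rw [← hm.map_eq]
  rw [integral_map hm.measurable.aemeasurable hf.aestronglyMeasurable]

/-- Integrals with equal sums over the signs are equal. -/
theorem integral_eq_of_flip [NeZero n] (i : Fin n) {f g : Conf V n → ℝ} (hf : Continuous f)
    (hg : Continuous g) (h : ∀ σ, ∑ η, f (flip i η σ) = ∑ η, g (flip i η σ)) :
    ∫ σ, f σ ∂base V n = ∫ σ, g σ ∂base V n := by
  have key : ∀ {k : Conf V n → ℝ}, Continuous k →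
      ∫ σ, ∑ η, k (flip i η σ) ∂base V n =
        (Fintype.card (V → Bool) : ℝ) * ∫ σ, k σ ∂base V n := by
    intro k hk
    rw [integral_finsetSum _ fun η _ => integrable_base (f := fun σ => k (flip i η σ))
      (hk.comp (continuous_flip i η))]
    simp [integral_flip i _ hk]
  have := (key hf).symm.trans (Eq.trans (by simp only [h]) (key hg))
  exact mul_left_cancel₀ (by exact_mod_cast Fintype.card_ne_zero) this

theorem coup_flip (β : ℝ) (i : Fin n) (η : V → Bool) (σ : Conf V n) :
    coup β src dst i (flip i η σ) = coup β src dst i σ := by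
  funext e
  simp [coup, co_flip, abs_mul, Griffiths.abs_sgn]

/-- The correlation of two components is that of their absolute values in the Ising model. -/
theorem avg_co_eq [NeZero n] (hI : IsingFacts src dst) (β : ℝ) (i : Fin n) (a b : V) :
    avg (energy β src dst) (fun σ : Conf V n => co (σ a) i * co (σ b) i) =
      avg (energy β src dst) fun σ : Conf V n =>
        |co (σ a) i| * |co (σ b) i| * corr src dst (coup β src dst i σ) a b := by
  unfold avg
  congr 1
  have hc : Continuous fun σ : Conf V n => corr src dst (coup β src dst i σ) a b :=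
    continuous_imean (continuous_coup β i) (fun v => continuous_const) _
  refine integral_eq_of_flip i (by fun_prop) (by fun_prop) fun σ => ?_
  set J : E → ℝ := fun e => β * (co (σ (src e)) i * co (σ (dst e)) i) with hJ
  set C : ℝ := β * ∑ e, (dot (σ (src e)) (σ (dst e)) - co (σ (src e)) i * co (σ (dst e)) i) with hC
  have hU : ∀ η, Real.exp (energy β src dst (flip i η σ)) = Real.exp C * iw src dst J 0 η := by
    intro η
    rw [iw, ← Real.exp_add]
    congr 1
    simp only [energy, hC, hJ, mul_sum, Pi.zero_apply, zero_mul, sum_const_zero, add_zero,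
      ← sum_add_distrib]
    refine sum_congr rfl fun e _ => ?_
    rw [dot_eq, dot_eq, ← add_sum_erase _ _ (mem_univ i), ← add_sum_erase _ _ (mem_univ i),
      sum_congr rfl fun k hk => show co (flip i η σ (src e)) k * co (flip i η σ (dst e)) k =
        co (σ (src e)) k * co (σ (dst e)) k by simp [co_flip, (mem_erase.1 hk).1]]
    simp only [co_flip, if_true]
    ring
  set η₀ : V → Bool := fun v => decide (0 ≤ co (σ v) i) with hη₀
  have hs : ∀ v, sgn (η₀ v) * co (σ v) i = |co (σ v) i| ∧ sgn (η₀ v) * |co (σ v) i| = co (σ v) i := by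
    intro v
    by_cases h : 0 ≤ co (σ v) i
    · simp [hη₀, h, sgn, abs_of_nonneg h]
    · simp [hη₀, h, sgn, abs_of_neg (not_le.1 h)]
  have hJ' : J = fun e => sgn (η₀ (src e)) * sgn (η₀ (dst e)) * coup β src dst i σ e := by
    funext e
    rw [hJ]
    calc β * (co (σ (src e)) i * co (σ (dst e)) i)
        = β * ((sgn (η₀ (src e)) * |co (σ (src e)) i|) * (sgn (η₀ (dst e)) * |co (σ (dst e)) i|)) := by
          rw [(hs _).2, (hs _).2]
      _ = _ := by unfold coup; ring
  have hcorr : co (σ a) i * co (σ b) i * corr src dst J a b =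
      |co (σ a) i| * |co (σ b) i| * corr src dst (coup β src dst i σ) a b := by
    rw [hJ', hI.corr_gauge, ← (hs a).1, ← (hs b).1]
    ring
  have hleft : ∑ η, Real.exp (energy β src dst (flip i η σ)) *
      (co (flip i η σ a) i * co (flip i η σ b) i) =
      Real.exp C * (co (σ a) i * co (σ b) i) *
        ∑ η, iw src dst J 0 η * (sgn (η a) * sgn (η b)) := by
    rw [mul_sum]
    refine sum_congr rfl fun η _ => ?_
    rw [hU, co_flip, co_flip, if_pos rfl, if_pos rfl]
    ring
  rw [hleft]
  simp only [coup_flip, co_flip, if_pos, abs_mul, Griffiths.abs_sgn, one_mul]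
  rw [← sum_mul, ← hcorr, corr, imean]
  simp only [hU, ← mul_sum]
  have hz : 0 < ∑ η, iw src dst J 0 η := sum_pos (fun _ _ => Real.exp_pos _) univ_nonempty
  field_simp

/-- The correlation of two components is at most the average Ising correlation. -/
theorem abs_avg_co_le [NeZero n] (hI : IsingFacts src dst) {β : ℝ} (hβ : 0 ≤ β) (i : Fin n)
    (a b : V) :
    |avg (energy β src dst) (fun σ : Conf V n => co (σ a) i * co (σ b) i)| ≤
      avg (energy β src dst) fun σ : Conf V n => corr src dst (coup β src dst i σ) a b := by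
  rw [avg_co_eq hI]
  have hc : Continuous fun σ : Conf V n => corr src dst (coup β src dst i σ) a b :=
    continuous_imean (continuous_coup β i) (fun v => continuous_const) _
  have h0 : ∀ σ : Conf V n, 0 ≤ corr src dst (coup β src dst i σ) a b :=
    fun σ => hI.corr_nonneg _ (coup_nonneg hβ i σ) a b
  rw [abs_of_nonneg]
  · exact avg_mono (by fun_prop) (by fun_prop) hc fun σ => mul_le_of_le_one_left (h0 σ)
      (mul_le_one₀ (abs_co_le _ _) (abs_nonneg _) (abs_co_le _ _))
  · rw [← avg_const (U := energy (n := n) β src dst) (by fun_prop) 0]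
    exact avg_mono (by fun_prop) continuous_const (by fun_prop) fun σ =>
      mul_nonneg (mul_nonneg (abs_nonneg _) (abs_nonneg _)) (h0 σ)

end Vale.Agent.P163.Gap
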