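import Vale.Agent.P163.Gap.BlockConv
import Vale.Agent.P163.Gap.Flip

/-!
# Mass gap for `β ≤ c n log n`: the chain of blocks

The Ising correlation between far points is bounded by a chain of bonds, each followed by a block
magnetisation. The one-block estimate removes the blocks one at a time, from the first one on.
-/

noncomputable section

namespace Vale.Agent.P163.Gap

open MeasureTheory Finset Filter

set_option linter.unusedSectionVars false

variable {V E : Type} [Fintype V] [Fintype E] [DecidableEq V] {n : ℕ}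
  {src dst : E → V} {ℓ : V → Site} {dir : E → Bool} {K : ℕ}

/-- The number of bonds that one exclusion box can emit. -/
def emitted (L : ℕ) : ℕ := 4 * (2 * jump L + 1) ^ 2

/-- The one-block estimate at scale `L`. -/
def BlockBound (n : ℕ) (β : ℝ) (L : ℕ) : Prop :=
  ∀ (V E : Type) [Fintype V] [Fintype E] [DecidableEq V] (src dst : E → V) (ℓ : V → Site)
    (dir : E → Bool) (K : ℕ), Lat src dst ℓ dir K →
    ∀ (i : Fin n) (e : E) (w : V), (src e = w ∨ dst e = w) →
      (∀ z, sdist z (ℓ w) ≤ 8 * L + 2 → z ∈ box K) →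
      ∀ τ : Conf V n, (emitted L : ℝ) *
        condAvg β src dst (ball ℓ (ℓ w) (8 * L)) τ (factor β src dst ℓ i L e w) ≤ 1 / 2

/-- The chain bound after `k` jumps, with the remaining set `W`. -/
def chain (β : ℝ) (src dst : E → V) (ℓ : V → Site) (i : Fin n) (L : ℕ) :
    ℕ → Finset V → V → Conf V n → ℝ
  | 0, _, _, _ => 1
  | k + 1, W, v, σ => plusMag src dst (coup β src dst i σ) (ball ℓ (ℓ v) L) v *
      ∑ e ∈ univ.filter (fun e => crossing src dst (ball ℓ (ℓ v) (jump L)) e ∧ inside src dst W e),
        coup β src dst i σ e *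
          chain β src dst ℓ i L k (W \ ball ℓ (ℓ v) (jump L))
            (outEnd src dst (ball ℓ (ℓ v) (jump L)) e) σ

theorem continuous_plusMag (β : ℝ) (i : Fin n) (S : Finset V) (v : V) :
    Continuous fun σ : Conf V n => plusMag src dst (coup β src dst i σ) S v := by
  have hc := continuous_coup (src := src) (dst := dst) β i
  refine continuous_imean (fun e => ?_) (fun u => continuous_finsetSum _ fun e _ => hc e) _
  unfold restrict
  split_ifs
  exacts [hc e, continuous_const]

theorem continuous_chain (β : ℝ) (i : Fin n) (L : ℕ) :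
    ∀ (k : ℕ) (W : Finset V) (v : V), Continuous (chain β src dst ℓ i L k W v)
  | 0, _, _ => continuous_const
  | k + 1, _, _ => (continuous_plusMag β i _ _).mul (continuous_finsetSum _ fun e _ =>
      (continuous_coup β i e).mul (continuous_chain β i L k _ _))

theorem chain_nonneg (hI : IsingFacts src dst) {β : ℝ} (hβ : 0 ≤ β) (i : Fin n) (L : ℕ)
    (σ : Conf V n) : ∀ (k : ℕ) (W : Finset V) (v : V), 0 ≤ chain β src dst ℓ i L k W v σ
  | 0, _, _ => zero_le_one
  | k + 1, _, _ => mul_nonneg (hI.plusMag_bounds _ (coup_nonneg hβ i σ) _ _).1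
      (sum_nonneg fun e _ => mul_nonneg (coup_nonneg hβ i σ e) (chain_nonneg hI hβ i L σ k _ _))

/-- The block magnetisation only sees the spins within `L + 1`. -/
theorem plusMag_local (hL : Lat src dst ℓ dir K) (β : ℝ) (i : Fin n) (L : ℕ) (v : V)
    (hv : ∀ z, sdist z (ℓ v) ≤ L → z ∈ box K) {σ σ' : Conf V n}
    (h : ∀ u, sdist (ℓ u) (ℓ v) ≤ L + 1 → σ u = σ' u) :
    plusMag src dst (coup β src dst i σ) (ball ℓ (ℓ v) L) v =
      plusMag src dst (coup β src dst i σ') (ball ℓ (ℓ v) L) v := by
  have key : ∀ e, src e ∈ ball ℓ (ℓ v) L ∨ dst e ∈ ball ℓ (ℓ v) L →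
      coup β src dst i σ e = coup β src dst i σ' e := by
    intro e he
    simp only [mem_ball] at he
    have h1 : sdist (ℓ (src e)) (ℓ (dst e)) = 1 := by
      rcases he with he | he
      · exact hL.sdist_bond (hv _ he) (Or.inl rfl)
      · exact hL.sdist_bond (hv _ he) (Or.inr rfl)
    have hs : sdist (ℓ (src e)) (ℓ v) ≤ L + 1 := by
      rcases he with he | he
      · omega
      · have := sdist_triangle (ℓ (src e)) (ℓ (dst e)) (ℓ v); omega
    have hd : sdist (ℓ (dst e)) (ℓ v) ≤ L + 1 := by
      rcases he with he | he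
      · have := sdist_triangle (ℓ (dst e)) (ℓ (src e)) (ℓ v)
        rw [sdist_comm (ℓ (dst e)) (ℓ (src e))] at this
        omega
      · omega
    simp only [coup, h _ hs, h _ hd]
  have e1 : restrict src dst (coup β src dst i σ) (ball ℓ (ℓ v) L) =
      restrict src dst (coup β src dst i σ') (ball ℓ (ℓ v) L) := by
    funext e
    unfold restrict
    split_ifs with hi
    exacts [key e (Or.inl hi.1), rfl]
  have e2 : plusField src dst (coup β src dst i σ) (ball ℓ (ℓ v) L) =
      plusField src dst (coup β src dst i σ') (ball ℓ (ℓ v) L) := by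
    funext u
    refine sum_congr rfl fun e he => key e ?_
    have hc := (inEnd_mem (mem_filter.1 he).2.1).1
    rcases ends_cases (src := src) (dst := dst) (ball ℓ (ℓ v) L) e with ⟨a, -⟩ | ⟨a, -⟩
    · exact Or.inl (a ▸ hc)
    · exact Or.inr (a ▸ hc)
  unfold plusMag
  rw [e1, e2]

/-- The geometry of a bond leaving an exclusion box. -/
theorem emit_bond (hL : Lat src dst ℓ dir K) {v : V} {r : ℕ}
    (hv : ∀ z, sdist z (ℓ v) ≤ r → z ∈ box K) {e : E} (he : crossing src dst (ball ℓ (ℓ v) r) e) :
    r ≤ sdist (ℓ (inEnd src dst (ball ℓ (ℓ v) r) e)) (ℓ v) ∧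
      r < sdist (ℓ (outEnd src dst (ball ℓ (ℓ v) r) e)) (ℓ v) ∧
      sdist (ℓ (outEnd src dst (ball ℓ (ℓ v) r) e)) (ℓ v) ≤ r + 1 := by
  obtain ⟨hi, ho⟩ := inEnd_mem he
  rw [mem_ball] at hi ho
  have h1 : sdist (ℓ (inEnd src dst (ball ℓ (ℓ v) r) e)) (ℓ (outEnd src dst (ball ℓ (ℓ v) r) e))
      = 1 := by
    rcases ends_cases (src := src) (dst := dst) (ball ℓ (ℓ v) r) e with ⟨a, b⟩ | ⟨a, b⟩ <;>
      rw [a, b] <;> rw [a] at hi
    · exact hL.sdist_bond (hv _ hi) (Or.inl rfl)
    · rw [sdist_comm]; exact hL.sdist_bond (hv _ hi) (Or.inr rfl)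
  have t1 := sdist_triangle (ℓ (outEnd src dst (ball ℓ (ℓ v) r) e))
    (ℓ (inEnd src dst (ball ℓ (ℓ v) r) e)) (ℓ v)
  rw [sdist_comm (ℓ (outEnd src dst (ball ℓ (ℓ v) r) e))
    (ℓ (inEnd src dst (ball ℓ (ℓ v) r) e))] at t1
  omega

theorem outEnd_mem_sdiff {S W : Finset V} {e : E} (hc : crossing src dst S e)
    (hW : inside src dst W e) : outEnd src dst S e ∈ W \ S := by
  refine mem_sdiff.2 ⟨?_, (inEnd_mem hc).2⟩
  unfold outEnd
  split_ifs
  exacts [hW.2, hW.1]

/-- The sites that a chain of `k` jumps from `c` visits lie in the window. -/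
def Safe (K L : ℕ) (c : Site) (k : ℕ) : Prop :=
  ∀ z, sdist z c ≤ k * (jump L + 1) + jump L → z ∈ box K

theorem Safe.next {L k : ℕ} {c c' : Site} (h : Safe K L c (k + 1))
    (hc : sdist c' c ≤ jump L + 1) : Safe K L c' k := fun z hz => h z (by
  have := sdist_triangle z c' c
  rw [add_mul, one_mul]
  omega)

theorem Safe.here {L k : ℕ} {c : Site} (h : Safe K L c k) {r : ℕ} (hr : r ≤ jump L) :
    ∀ z, sdist z c ≤ r → z ∈ box K := fun z hz => h z (by omega)

/-- A chain only sees the spins near its remaining set. -/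
theorem chain_local (hL : Lat src dst ℓ dir K) (β : ℝ) (i : Fin n) (L : ℕ) :
    ∀ (k : ℕ) (W : Finset V) (v : V), v ∈ W → Safe K L (ℓ v) k → ∀ σ σ' : Conf V n,
      (∀ u, (∃ z ∈ W, sdist (ℓ u) (ℓ z) ≤ L + 1) → σ u = σ' u) →
      chain β src dst ℓ i L k W v σ = chain β src dst ℓ i L k W v σ'
  | 0, _, _, _, _, _, _, _ => rfl
  | k + 1, W, v, hv, hsafe, σ, σ', h => by
    have hself : ∀ u ∈ W, σ u = σ' u := fun u hu => h u ⟨u, hu, by simp [sdist_self]⟩
    simp only [chain]
    rw [plusMag_local hL β i L v (hsafe.here (by unfold jump; omega))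
      (σ := σ) (σ' := σ') fun u hu => h u ⟨v, hv, hu⟩]
    congr 1
    refine sum_congr rfl fun e he => ?_
    obtain ⟨hc, hW⟩ := (mem_filter.1 he).2
    have hg := emit_bond hL (hsafe.here le_rfl) hc
    rw [chain_local hL β i L k _ _ (outEnd_mem_sdiff hc hW) (hsafe.next hg.2.2) σ σ'
      fun u ⟨z, hz, hu⟩ => h u ⟨z, (mem_sdiff.1 hz).1, hu⟩]
    simp only [coup, hself _ hW.1, hself _ hW.2]

/-- The chain bound. -/
theorem corr_le_chain (hI : IsingFacts src dst) (hL : Lat src dst ℓ dir K) {β : ℝ} (hβ : 0 ≤ β)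
    (i : Fin n) (L : ℕ) (σ : Conf V n) :
    ∀ (k : ℕ) (W : Finset V) (v y : V), v ∈ W → y ∈ W →
      k * (jump L + 1) < sdist (ℓ v) (ℓ y) → Safe K L (ℓ v) k →
      corr src dst (restrict src dst (coup β src dst i σ) W) v y ≤ chain β src dst ℓ i L k W v σ
  | 0, _, _, _, _, _, _, _ => (le_abs_self _).trans (hI.abs_corr_le _ _ _)
  | k + 1, W, v, y, hv, hy, hd, hsafe => by
    set J := coup β src dst i σ with hJd
    set S := ball ℓ (ℓ v) (jump L) with hSd
    set T := ball ℓ (ℓ v) L with hTd
    have hJ0 : ∀ e, 0 ≤ J e := coup_nonneg hβ i σ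
    have hJW : ∀ e, 0 ≤ restrict src dst J W e := fun e => by
      unfold restrict; split_ifs; exacts [hJ0 e, le_rfl]
    have hJWle : ∀ e, restrict src dst J W e ≤ J e := fun e => by
      unfold restrict; split_ifs; exacts [le_rfl, hJ0 e]
    have hTS : T ⊆ S := fun u hu => by
      simp only [T, S, mem_ball] at hu ⊢
      unfold jump
      omega
    have hyS : y ∉ S := by
      simp only [S, mem_ball, not_le]
      rw [sdist_comm]
      calc jump L < (k + 1) * (jump L + 1) := by rw [add_mul, one_mul]; omega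
        _ < _ := hd
    have hcr : ∀ e, crossing src dst T e →
        inside src dst S e ∨ restrict src dst J W e = 0 := by
      intro e he
      have hg := emit_bond hL (hsafe.here (show L ≤ jump L by unfold jump; omega)) he
      have hi := mem_ball.1 (inEnd_mem he).1
      refine Or.inl ⟨?_, ?_⟩ <;>
        rcases ends_cases (src := src) (dst := dst) (ball ℓ (ℓ v) L) e with ⟨a, b⟩ | ⟨a, b⟩ <;>
        rw [a] at hi <;> rw [b] at hg <;> simp only [S, mem_ball] <;>
        have := hg.2.2 <;> unfold jump <;> omega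
    refine (hI.corr_step _ hJW T S v y hTS hcr (mem_ball.2 (by simp [sdist_self])) hyS).trans ?_
    refine mul_le_mul (hI.plusMag_mono _ _ (fun e => ⟨hJW e, hJWle e⟩) _ _) ?_
      (sum_nonneg fun e _ => mul_nonneg (hJW e) (hI.corr_nonneg _ (fun e => by
        unfold restrict; split_ifs <;> first | exact hJ0 _ | exact le_rfl) _ _))
      (hI.plusMag_bounds _ hJ0 _ _).1
    rw [← filter_filter (fun e => crossing src dst S e) (inside src dst W),
      sum_filter (inside src dst W)]
    refine sum_le_sum fun e he => ?_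
    have hc := (mem_filter.1 he).2
    by_cases hW : inside src dst W e
    · have hg := emit_bond hL (hsafe.here le_rfl) hc
      rw [if_pos hW, show restrict src dst J W e = J e from if_pos hW]
      refine mul_le_mul_of_nonneg_left ?_ (hJ0 e)
      have he' : restrict src dst (restrict src dst J W) Sᶜ = restrict src dst J (W \ S) := by
        funext e'
        simp only [restrict, inside, mem_compl]
        by_cases h1 : src e' ∈ S <;> by_cases h2 : dst e' ∈ S <;> simp [h1, h2]
      rw [he']
      refine corr_le_chain hI hL hβ i L σ k (W \ S) _ y (outEnd_mem_sdiff hc hW)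
        (mem_sdiff.2 ⟨hy, hyS⟩) ?_ (hsafe.next hg.2.2)
      have ht := sdist_triangle (ℓ v) (ℓ (outEnd src dst S e)) (ℓ y)
      have := hg.2.2
      rw [sdist_comm (ℓ (outEnd src dst S e)) (ℓ v)] at this
      rw [add_mul, one_mul] at hd
      omega
    · rw [if_neg hW, show restrict src dst J W e = 0 from if_neg hW, zero_mul]

/-- Averaging first over the spins of a set. -/
theorem avg_condAvg [NeZero n] (β : ℝ) (B : Finset V) {F G : Conf V n → ℝ} (hF : Continuous F)
    (hG : Continuous G) (hloc : ∀ η σ, G (merge B η σ) = G σ) :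
    avg (energy β src dst) (fun σ => F σ * G σ) =
      avg (energy β src dst) fun σ => condAvg β src dst B σ F * G σ := by
  have hg : Continuous fun σ => condAvg β src dst B σ F := continuous_condAvg β B hF
  unfold avg
  congr 1
  rw [← integral_merge B (G := fun σ => Real.exp (energy β src dst σ) * (F σ * G σ)) (by fun_prop),
    ← integral_merge B
      (G := fun σ => Real.exp (energy β src dst σ) * (condAvg β src dst B σ F * G σ)) (by fun_prop)]
  refine integral_congr_ae (Eventually.of_forall fun σ => ?_)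
  have e : ∀ η, condAvg β src dst B (merge B η σ) F = condAvg β src dst B σ F := fun η => by
    simp only [condAvg_eq_merge β B _ hF]
    have ee : ∀ ω, merge B ω (merge B η σ) = merge B ω σ := fun ω =>
      funext fun v => by by_cases h : v ∈ B <;> simp [merge, h]
    simp only [ee]
  simp only [e, hloc, ← mul_assoc]
  rw [integral_mul_const, integral_mul_const, integral_mul_const,
    condAvg_eq_merge β B σ hF]
  congr 1
  refine (mul_div_cancel₀ _ (integral_exp_pos (integrable_base ?_)).ne').symm
  exact Real.continuous_exp.comp ((continuous_energy β src dst).comp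
    ((continuous_merge B).comp (continuous_id.prodMk continuous_const)))

/-- One exclusion box emits boundedly many bonds. -/
theorem emit_card (hL : Lat src dst ℓ dir K) {L : ℕ} {v : V} (W : Finset V)
    (hv : ∀ z, sdist z (ℓ v) ≤ jump L → z ∈ box K) :
    (univ.filter (fun e => crossing src dst (ball ℓ (ℓ v) (jump L)) e ∧ inside src dst W e)).card
      ≤ emitted L := by
  classical
  refine le_trans (card_le_card (t := (ball ℓ (ℓ v) (jump L)).biUnion fun u =>
    univ.filter fun e => src e = u ∨ dst e = u) fun e he => ?_) ?_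
  · have hc := (mem_filter.1 he).2.1
    refine mem_biUnion.2 ⟨_, (inEnd_mem hc).1, mem_filter.2 ⟨mem_univ _, ?_⟩⟩
    rcases ends_cases (src := src) (dst := dst) (ball ℓ (ℓ v) (jump L)) e with ⟨a, -⟩ | ⟨a, -⟩
    exacts [Or.inl a.symm, Or.inr a.symm]
  · refine card_biUnion_le.trans ((sum_le_sum fun u hu => hL.incident_card
      (hv _ (mem_ball.1 hu))).trans ?_)
    rw [sum_const, smul_eq_mul, emitted, mul_comm]
    exact Nat.mul_le_mul_left 4 (hL.card_ball _ _)

/-- The mean of a bond followed by a chain. -/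
theorem avg_chain_le [NeZero n] (hI : IsingFacts src dst) (hL : Lat src dst ℓ dir K) {β : ℝ}
    (hβ : 0 ≤ β) (i : Fin n) {L : ℕ} (hB : BlockBound n β L) :
    ∀ (k : ℕ) (W : Finset V) (e : E) (w : V), (src e = w ∨ dst e = w) → Safe K L (ℓ w) k →
      avg (energy β src dst) (fun σ => coup β src dst i σ e * chain β src dst ℓ i L k W w σ)
        ≤ β * (1 / 2) ^ k
  | 0, _, e, _, _, _ => by
    rw [pow_zero, mul_one]
    have hc := continuous_coup (src := src) (dst := dst) β i e
    refine le_trans (avg_mono (g := fun _ => β) (by fun_prop) ?_ continuous_const fun σ => ?_)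
      (avg_const (by fun_prop) β).le
    · simpa [chain] using hc
    · simpa [chain] using coup_le hβ i σ e
  | k + 1, W, e, w, hew, hsafe => by
    set S := ball ℓ (ℓ w) (jump L) with hSd
    set B := ball ℓ (ℓ w) (8 * L) with hBd
    set O := univ.filter (fun e' => crossing src dst S e' ∧ inside src dst W e') with hOd
    set G : Conf V n → ℝ := fun σ => ∑ e' ∈ O, coup β src dst i σ e' *
      chain β src dst ℓ i L k (W \ S) (outEnd src dst S e') σ with hGd
    have hGc : Continuous G := continuous_finsetSum _ fun e' _ =>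
      (continuous_coup β i e').mul (continuous_chain β i L k _ _)
    have hG0 : ∀ σ, 0 ≤ G σ := fun σ => sum_nonneg fun e' _ =>
      mul_nonneg (coup_nonneg hβ i σ e') (chain_nonneg hI hβ i L σ k _ _)
    set F : Conf V n → ℝ := factor β src dst ℓ i L e w with hFd
    have hFc : Continuous F := (continuous_coup β i e).mul (continuous_plusMag β i _ _)
    have hloc : ∀ η σ, G (merge B η σ) = G σ := by
      intro η σ
      have hfar : ∀ u, 8 * L < sdist (ℓ u) (ℓ w) → merge B η σ u = σ u := fun u hu => by
        simp [merge, B, mem_ball, not_le.2 hu]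
      refine sum_congr rfl fun e' he' => ?_
      obtain ⟨hc, hW⟩ := (mem_filter.1 he').2
      have hg := emit_bond hL (hsafe.here le_rfl) hc
      rw [chain_local hL β i L k _ _ (outEnd_mem_sdiff hc hW) (hsafe.next hg.2.2) (merge B η σ) σ]
      · congr 1
        have h1 := hfar _ (show 8 * L < sdist (ℓ (inEnd src dst S e')) (ℓ w) by
          refine lt_of_lt_of_le ?_ hg.1; unfold jump; omega)
        have h2 := hfar _ (show 8 * L < sdist (ℓ (outEnd src dst S e')) (ℓ w) by
          refine lt_of_le_of_lt ?_ hg.2.1; unfold jump; omega)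
        rcases ends_cases (src := src) (dst := dst) S e' with ⟨a, b⟩ | ⟨a, b⟩ <;>
          rw [a] at h1 <;> rw [b] at h2 <;> simp only [coup, h1, h2]
      · rintro u ⟨z, hz, hu⟩
        refine hfar u ?_
        have hz' := (mem_sdiff.1 hz).2
        simp only [S, mem_ball, not_le] at hz'
        have := sdist_triangle (ℓ z) (ℓ u) (ℓ w)
        rw [sdist_comm (ℓ z) (ℓ u)] at this
        unfold jump at hz'
        omega
    have hN : (0 : ℝ) < emitted L := by unfold emitted; positivity
    have hbox : ∀ z, sdist z (ℓ w) ≤ 8 * L + 2 → z ∈ box K :=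
      hsafe.here (by unfold jump; omega)
    have hUc : Continuous (energy (n := n) β src dst) := by fun_prop
    have hGle : avg (energy β src dst) G ≤ emitted L * (β * (1 / 2) ^ k) := by
      rw [avg_sum hUc O (F := fun e' σ => coup β src dst i σ e' *
        chain β src dst ℓ i L k (W \ S) (outEnd src dst S e') σ)
        fun e' _ => (continuous_coup β i e').mul (continuous_chain β i L k _ _)]
      refine (sum_le_card_nsmul _ _ (β * (1 / 2) ^ k) fun e' he' => ?_).trans ?_
      · obtain ⟨hc, -⟩ := (mem_filter.1 he').2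
        refine avg_chain_le hI hL hβ i hB k _ e' _ ?_
          (hsafe.next (emit_bond hL (hsafe.here le_rfl) hc).2.2)
        rcases ends_cases (src := src) (dst := dst) S e' with ⟨-, b⟩ | ⟨-, b⟩
        exacts [Or.inr b.symm, Or.inl b.symm]
      · rw [nsmul_eq_mul]
        refine mul_le_mul_of_nonneg_right (Nat.cast_le.2 ?_) (by positivity)
        exact emit_card hL W (hsafe.here le_rfl)
    have heq : (fun σ => coup β src dst i σ e * chain β src dst ℓ i L (k + 1) W w σ) =
        fun σ => F σ * G σ := by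
      funext σ; simp only [chain, F, factor, G, O, S, mul_assoc]
    rw [heq, avg_condAvg β B hFc hGc hloc]
    refine le_trans (avg_mono (g := fun σ => 1 / (2 * (emitted L : ℝ)) * G σ) hUc
      ((continuous_condAvg β B hFc).mul hGc) (continuous_const.mul hGc) fun σ => ?_) ?_
    · refine mul_le_mul_of_nonneg_right ?_ (hG0 σ)
      have h := hB V E src dst ℓ dir K hL i e w hew hbox σ
      rw [le_div_iff₀ (by positivity)]
      calc condAvg β src dst B σ F * (2 * (emitted L : ℝ))
          = 2 * ((emitted L : ℝ) * condAvg β src dst B σ F) := by ring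
        _ ≤ 1 := by linarith
    · rw [avg_const_mul]
      refine (mul_le_mul_of_nonneg_left hGle (by positivity)).trans_eq ?_
      rw [pow_succ]
      field_simp

/-- Decay in a window. -/
theorem window_decay [NeZero n] (hIG : IsingGoal) (hL : Lat src dst ℓ dir K) {β : ℝ} (hβ : 0 ≤ β)
    {L : ℕ} (hB : BlockBound n β L) (i : Fin n) (a b : V) (k : ℕ)
    (hk : k * (jump L + 1) < sdist (ℓ a) (ℓ b)) (hsafe : Safe K L (ℓ a) k) :
    |avg (energy β src dst) (fun σ : Conf V n => co (σ a) i * co (σ b) i)|
      ≤ 2 * (1 + emitted L * β) * (1 / 2) ^ k := by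
  have hI : IsingFacts src dst := hIG V E src dst hL.loopless
  have hUc : Continuous (energy (n := n) β src dst) := by fun_prop
  have hu : ∀ J : E → ℝ, restrict src dst J univ = J := fun J => by
    funext e; simp [restrict, inside]
  refine (abs_avg_co_le hI hβ i a b).trans (le_trans (avg_mono hUc
    (show Continuous fun σ : Conf V n => corr src dst (coup β src dst i σ) a b from
      continuous_imean (continuous_coup β i) (fun v => continuous_const) _)
    (continuous_chain (src := src) (dst := dst) (ℓ := ℓ) β i L k univ a) fun σ => ?_) ?_)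
  · have := corr_le_chain hI hL hβ i L σ k univ a b (mem_univ _) (mem_univ _) hk hsafe
    rwa [hu] at this
  · cases k with
    | zero =>
      change avg (energy β src dst) (fun _ => (1 : ℝ)) ≤ _
      rw [avg_const hUc, pow_zero, mul_one]
      nlinarith [mul_nonneg (Nat.cast_nonneg (α := ℝ) (emitted L)) hβ]
    | succ m =>
      set S := ball ℓ (ℓ a) (jump L)
      set O := univ.filter (fun e' => crossing src dst S e' ∧ inside src dst univ e')
      refine le_trans (avg_mono (g := fun σ => ∑ e' ∈ O, coup β src dst i σ e' *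
          chain β src dst ℓ i L m (univ \ S) (outEnd src dst S e') σ) hUc
        (continuous_chain β i L _ univ a)
        (continuous_finsetSum _ fun e' _ =>
          (continuous_coup β i e').mul (continuous_chain β i L m _ _)) fun σ => ?_) ?_
      · exact mul_le_of_le_one_left (sum_nonneg fun e' _ => mul_nonneg (coup_nonneg hβ i σ e')
          (chain_nonneg hI hβ i L σ m _ _)) (hI.plusMag_bounds _ (coup_nonneg hβ i σ) _ _).2
      rw [avg_sum hUc O (F := fun e' σ => coup β src dst i σ e' *
          chain β src dst ℓ i L m (univ \ S) (outEnd src dst S e') σ)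
        fun e' _ => (continuous_coup β i e').mul (continuous_chain β i L m _ _)]
      refine (sum_le_card_nsmul _ _ (β * (1 / 2) ^ m) fun e' he' => ?_).trans ?_
      · obtain ⟨hc, -⟩ := (mem_filter.1 he').2
        refine avg_chain_le hI hL hβ i hB m _ e' _ ?_
          (hsafe.next (emit_bond hL (hsafe.here le_rfl) hc).2.2)
        rcases ends_cases (src := src) (dst := dst) S e' with ⟨-, b⟩ | ⟨-, b⟩
        exacts [Or.inr b.symm, Or.inl b.symm]
      · rw [nsmul_eq_mul]
        refine (mul_le_mul_of_nonneg_right (Nat.cast_le.2 (emit_card hL univ (hsafe.here le_rfl)))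
          (by positivity)).trans ?_
        rw [pow_succ]
        have : (0 : ℝ) ≤ (1 / 2) ^ m := by positivity
        nlinarith

theorem blockBound_small [NeZero n] {β : ℝ} (hIG : IsingGoal) (hβ : 0 ≤ β)
    (h : (emitted 0 : ℝ) * β ≤ 1 / 2) : BlockBound n β 0 := by
  intro V E _ _ _ src dst ℓ dir K hL i e w _ _ τ
  refine le_trans (mul_le_mul_of_nonneg_left ?_ (Nat.cast_nonneg _)) h
  have hI : IsingFacts src dst := hIG V E src dst hL.loopless
  have hg := continuous_glue (n := n) (ball ℓ (ℓ w) (8 * 0)) τ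
  have hFc : Continuous (factor β src dst ℓ i 0 e w) :=
    (continuous_coup β i e).mul (continuous_plusMag β i _ _)
  rw [condAvg]
  refine le_trans (avg_mono (g := fun _ => β) (by fun_prop) (hFc.comp hg) continuous_const
    fun σ => ?_) (avg_const (by fun_prop) β).le
  calc _ ≤ β * 1 := mul_le_mul (coup_le hβ i _ e) (hI.plusMag_bounds _ (coup_nonneg hβ i _) _ _).2
        (hI.plusMag_bounds _ (coup_nonneg hβ i _) _ _).1 hβ
    _ = β := mul_one β

theorem exists_blockBound (hIG : IsingGoal) (hS : StepGoal) :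
    ∃ c : ℝ, 0 < c ∧ ∀ n : ℕ, 2 ≤ n → ∀ β : ℝ, 0 < β → β ≤ c * n * Real.log n →
      ∃ L : ℕ, BlockBound n β L := by
  obtain ⟨c₁, hc₁, n₀, hn₀, hstep⟩ := hS
  have hn₀' : (2 : ℝ) ≤ n₀ := by exact_mod_cast hn₀
  have hlog : 0 < Real.log n₀ := Real.log_pos (by linarith)
  have hN : (0 : ℝ) < emitted 0 := by unfold emitted; positivity
  refine ⟨min c₁ (1 / (2 * emitted 0 * (n₀ * Real.log n₀))), lt_min hc₁ (by positivity),
    fun n hn β hβ hle => ?_⟩
  have hn' : (2 : ℝ) ≤ n := by exact_mod_cast hn
  have hln : 0 ≤ Real.log n := Real.log_nonneg (by linarith)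
  rcases le_or_gt n₀ n with h | h
  · obtain ⟨L, -, hL⟩ := hstep n h β hβ (hle.trans (mul_le_mul_of_nonneg_right
      (mul_le_mul_of_nonneg_right (min_le_left _ _) (by linarith)) hln))
    exact ⟨L, fun V E _ _ _ => hL V E⟩
  · have : NeZero n := ⟨by omega⟩
    refine ⟨0, blockBound_small hIG hβ.le ?_⟩
    have hnn : (n : ℝ) ≤ n₀ := by exact_mod_cast h.le
    have h2 : (n : ℝ) * Real.log n ≤ n₀ * Real.log n₀ :=
      mul_le_mul hnn (Real.log_le_log (by linarith) hnn) hln (by linarith)
    have h3 : β ≤ 1 / (2 * emitted 0 * (n₀ * Real.log n₀)) * (n₀ * Real.log n₀) := by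
      refine hle.trans ?_
      rw [mul_assoc]
      exact mul_le_mul (min_le_right _ _) h2 (mul_nonneg (by linarith) hln) (by positivity)
    calc (emitted 0 : ℝ) * β
        ≤ emitted 0 * (1 / (2 * emitted 0 * (n₀ * Real.log n₀)) * (n₀ * Real.log n₀)) :=
          mul_le_mul_of_nonneg_left h3 hN.le
      _ = 1 / 2 := by field_simp

theorem rad_le_sdist (x y : Site) : rad (y - x) ≤ 2 * sdist x y := by
  have h1 : |((y - x).1 : ℝ)| ≤ sdist x y := by
    have : |(y - x).1| ≤ (sdist x y : ℤ) := by
      simp only [Prod.fst_sub, sdist, abs_le]; omega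
    calc |((y - x).1 : ℝ)| = (|(y - x).1| : ℤ) := by simp
      _ ≤ _ := by exact_mod_cast this
  have h2 : |((y - x).2 : ℝ)| ≤ sdist x y := by
    have : |(y - x).2| ≤ (sdist x y : ℤ) := by
      simp only [Prod.snd_sub, sdist, abs_le]; omega
    calc |((y - x).2 : ℝ)| = (|(y - x).2| : ℤ) := by simp
      _ ≤ _ := by exact_mod_cast this
  have h3 := rad_sq (y - x)
  nlinarith [sq_abs ((y - x).1 : ℝ), sq_abs ((y - x).2 : ℝ), rad_nonneg (y - x),
    abs_nonneg ((y - x).1 : ℝ), abs_nonneg ((y - x).2 : ℝ)]

/-- Decay of the scalar product in a window. -/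
theorem window_dot [NeZero n] (hIG : IsingGoal) (hL : Lat src dst ℓ dir K) {β : ℝ} (hβ : 0 ≤ β)
    {L : ℕ} (hB : BlockBound n β L) (a b : V) (k : ℕ)
    (hk : k * (jump L + 1) < sdist (ℓ a) (ℓ b)) (hsafe : Safe K L (ℓ a) k) :
    |avg (energy β src dst) (fun σ : Conf V n => dot (σ a) (σ b))|
      ≤ n * (2 * (1 + emitted L * β) * (1 / 2) ^ k) := by
  simp only [dot_eq]
  rw [avg_sum (by fun_prop) univ (F := fun i σ => co (σ a) i * co (σ b) i) fun i _ => by fun_prop]
  refine (abs_sum_le_sum_abs _ _).trans ?_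
  refine (sum_le_sum fun i _ => window_decay hIG hL hβ hB i a b k hk hsafe).trans ?_
  simp

theorem torus_loopless {a b : ℕ} (ha : 1 ≤ a) (hb : 1 ≤ b) (e : Torus a b × Bool) :
    torusSrc a b e ≠ torusDst a b e := by
  obtain ⟨⟨v, w⟩, d⟩ := e
  have h1 : ∀ {m : ℕ}, 1 ≤ m → ¬(1 : ZMod (m + 1)) = 0 := fun {m} hm => by
    have : Fact (1 < m + 1) := ⟨by omega⟩
    exact one_ne_zero
  cases d <;> simp [torusSrc, torusDst, torusStep]
  · exact h1 hb
  · exact h1 ha

/-- The final statement, from the Ising and one-block modules. -/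
theorem massGoal_of (hIG : IsingGoal) (hS : StepGoal) : MassGoal := by
  obtain ⟨c, hc, hblock⟩ := exists_blockBound hIG hS
  refine ⟨c, hc, fun n hn β hβ hle => ?_⟩
  obtain ⟨L, hB⟩ := hblock n hn β hβ hle
  have : NeZero n := ⟨by omega⟩
  set p : ℕ := jump L + 1 with hp
  set m : ℝ := Real.log 2 / (2 * p) with hm
  set C : ℝ := 1 + n * (8 * (1 + emitted L * β)) with hC
  have hl2 : 0 < Real.log 2 := Real.log_pos one_lt_two
  have hp0 : (0 : ℝ) < p := by simp only [p]; positivity
  have hm0 : 0 < m := by positivity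
  have hC1 : 1 ≤ C := le_add_of_nonneg_right (by positivity)
  refine ⟨C, m, by linarith, hm0, fun μ hμ x y => ?_⟩
  obtain ⟨hprob, v, hv, hlim⟩ := hμ
  rcases eq_or_ne x y with rfl | hxy
  · have h0 : rad (x - x) = 0 := by simp [rad, emb, Complex.ext_iff]
    rw [h0, mul_zero, Real.exp_zero, mul_one]
    refine le_trans ?_ hC1
    have := norm_integral_le_of_norm_le_const (μ := μ) (C := 1)
      (f := fun σ : Site → Spin n => dot (σ x) (σ x))
      (Eventually.of_forall fun σ => by rw [Real.norm_eq_abs]; exact abs_dot_le _ _)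
    simpa [Real.norm_eq_abs] using this
  set D := sdist x y with hD
  have hD1 : 1 ≤ D := by
    rcases Nat.eq_zero_or_pos D with h | h
    · exfalso
      simp only [hD, sdist] at h
      exact hxy (Prod.ext (by omega) (by omega))
    · exact h
  set k : ℕ := (D - 1) / p with hk
  have hp1 : 1 ≤ p := by omega
  have hkD : k * p < D := lt_of_le_of_lt (Nat.div_mul_le_self _ _) (by omega)
  have hDk : D ≤ (k + 1) * p := by
    have := Nat.lt_mul_div_succ (D - 1) (show 0 < p by omega)
    rw [mul_comm] at this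
    rw [hk]
    omega
  set K : ℕ := max x.1.natAbs x.2.natAbs + D + jump L with hK
  have hsafe : Safe K L x k := fun z hz => by
    rw [mem_box, abs_le, abs_le]
    have : k * (jump L + 1) < D := hkD
    simp only [sdist] at hz
    omega
  have hyK : y ∈ box K := by
    rw [mem_box, abs_le, abs_le]
    simp only [hK, hD, sdist]
    omega
  have hxK : x ∈ box K := hsafe x (by simp [sdist_self])
  have hfin : (n : ℝ) * (2 * (1 + emitted L * β) * (1 / 2) ^ k) ≤ C * Real.exp (-m * rad (y - x)) := by
    have h2 : (1 / 2 : ℝ) ^ k = Real.exp (-(Real.log 2) * k) := by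
      rw [mul_comm, Real.exp_nat_mul, Real.exp_neg, Real.exp_log two_pos, one_div]
    have hDr : (D : ℝ) ≤ ((k : ℝ) + 1) * p := by exact_mod_cast hDk
    have h3 : m * rad (y - x) ≤ Real.log 2 * ((k : ℝ) + 1) := by
      have := rad_le_sdist x y
      calc m * rad (y - x) ≤ m * (2 * (((k : ℝ) + 1) * p)) :=
            mul_le_mul_of_nonneg_left (by rw [← hD] at this; linarith) hm0.le
        _ = Real.log 2 * ((k : ℝ) + 1) := by rw [hm]; field_simp
    have h4 : (1 / 2 : ℝ) ^ k ≤ 2 * Real.exp (-m * rad (y - x)) := by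
      rw [h2]
      calc Real.exp (-Real.log 2 * k) = Real.exp (Real.log 2) * Real.exp (-Real.log 2 * (k + 1)) := by
            rw [← Real.exp_add]; ring_nf
        _ ≤ 2 * Real.exp (-m * rad (y - x)) := by
            rw [Real.exp_log two_pos]
            exact mul_le_mul_of_nonneg_left (Real.exp_le_exp.2 (by linarith)) two_pos.le
    have hA : (0 : ℝ) ≤ 1 + emitted L * β := by positivity
    have hE : 0 ≤ Real.exp (-m * rad (y - x)) := (Real.exp_pos _).le
    rw [hC]
    have := mul_le_mul_of_nonneg_left h4 (mul_nonneg (Nat.cast_nonneg (α := ℝ) n) hA)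
    nlinarith [mul_nonneg (mul_nonneg (Nat.cast_nonneg (α := ℝ) n) hA) hE]
  set g : (↥({x, y} : Finset Site) → Spin n) → ℝ :=
    fun τ => dot (τ ⟨x, by simp⟩) (τ ⟨y, by simp⟩) with hg
  have hgc : Continuous g := by fun_prop
  have ht := hlim {x, y} g hgc
  have hev : ∀ᶠ j in atTop, |volMean β (v j) {x, y} g| ≤ C * Real.exp (-m * rad (y - x)) := by
    filter_upwards [hv (2 * K + 3)] with j hj
    refine le_trans ?_ hfin
    generalize v j = w at hj ⊢
    rcases w with Λ | ⟨a, b⟩
    · have hsub : box K ⊆ Λ := fun z hz => hj (by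
        rw [mem_box] at hz ⊢
        push_cast
        constructor <;> linarith)
      have hF : ({x, y} : Finset Site) ⊆ Λ :=
        Finset.insert_subset (hsub hxK) (Finset.singleton_subset_iff.2 (hsub hyK))
      have hLat : Lat (freeSrc Λ) (freeDst Λ) (fun u : ↥Λ => (u : Site)) (fun e => e.1.2) K :=
        ⟨isWindow_free Λ K, Subtype.val_injective, fun e h => by
          have := congrArg (fun u : ↥Λ => (u : Site)) h
          obtain ⟨⟨⟨u, hu⟩, d⟩, he⟩ := e
          cases d <;> simp [freeSrc, freeDst, step, Prod.ext_iff] at this⟩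
      rw [volMean, freeMean, dif_pos hF]
      exact window_dot hIG hLat hβ.le hB (⟨x, hF (by simp)⟩ : ↥Λ) ⟨y, hF (by simp)⟩ k hkD hsafe
    · obtain ⟨ha, hb⟩ : 2 * K + 3 ≤ a ∧ 2 * K + 3 ≤ b := hj
      have hLat : Lat (torusSrc a b) (torusDst a b) centred (fun e : Torus a b × Bool => e.2) K :=
        ⟨isWindow_torus (by omega) (by omega),
          fun p q h => Prod.ext (ZMod.injective_valMinAbs (congrArg Prod.fst h))
            (ZMod.injective_valMinAbs (congrArg Prod.snd h)),
          torus_loopless (by omega) (by omega)⟩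
      have hx' : centred (toTorus a b x) = x := centred_toTorus (by omega) (by omega) hxK
      have hy' : centred (toTorus a b y) = y := centred_toTorus (by omega) (by omega) hyK
      rw [volMean, torusMean]
      exact window_dot hIG hLat hβ.le hB (toTorus a b x) (toTorus a b y) k
        (by rw [hx', hy']; exact hkD) (by rw [hx']; exact hsafe)
  have hle' := le_of_tendsto ht.abs hev
  simpa [hg] using hle'

end Vale.Agent.P163.Gap
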