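import Vale.Agent.P163.States
import Mathlib.LinearAlgebra.Matrix.PosDef

/-!
# Mass gap for `β ≤ c n log n`: definitions and module interfaces

See `PROOF.md` in this folder.
-/

noncomputable section

namespace Vale.Agent.P163.Gap

open MeasureTheory Matrix Finset

/-! ### Ising models with arbitrary couplings on a finite multigraph -/

section Ising

variable {V E : Type} [Fintype V] [Fintype E] [DecidableEq V]

/-- The sign carried by a Boolean. -/
def sgn (b : Bool) : ℝ := if b then 1 else -1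

/-- The Ising weight with couplings `J` and fields `h`. -/
def iw (src dst : E → V) (J : E → ℝ) (h : V → ℝ) (ε : V → Bool) : ℝ :=
  Real.exp (∑ e, J e * sgn (ε (src e)) * sgn (ε (dst e)) + ∑ v, h v * sgn (ε v))

/-- The Ising expectation. -/
def imean (src dst : E → V) (J : E → ℝ) (h : V → ℝ) (f : (V → Bool) → ℝ) : ℝ :=
  (∑ ε, iw src dst J h ε * f ε) / ∑ ε, iw src dst J h ε

/-- The two-point function in zero field. -/
def corr (src dst : E → V) (J : E → ℝ) (u v : V) : ℝ :=
  imean src dst J 0 fun ε => sgn (ε u) * sgn (ε v)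

/-- The bond has both ends in `S`. -/
def inside (src dst : E → V) (S : Finset V) (e : E) : Prop := src e ∈ S ∧ dst e ∈ S

instance (src dst : E → V) (S : Finset V) : DecidablePred (inside src dst S) := fun e => by
  unfold inside; infer_instance

/-- The bond leaves `S`. -/
def crossing (src dst : E → V) (S : Finset V) (e : E) : Prop := ¬ (src e ∈ S ↔ dst e ∈ S)

instance (src dst : E → V) (S : Finset V) : DecidablePred (crossing src dst S) := fun e => by
  unfold crossing; infer_instance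

/-- The end outside `S` of a bond leaving `S`. -/
def outEnd (src dst : E → V) (S : Finset V) (e : E) : V :=
  if src e ∈ S then dst e else src e

/-- The end inside `S` of a bond leaving `S`. -/
def inEnd (src dst : E → V) (S : Finset V) (e : E) : V :=
  if src e ∈ S then src e else dst e

/-- The couplings inside `S`. -/
def restrict (src dst : E → V) (J : E → ℝ) (S : Finset V) (e : E) : ℝ :=
  if inside src dst S e then J e else 0

/-- The fields felt in `S` from plus spins outside. -/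
def plusField (src dst : E → V) (J : E → ℝ) (S : Finset V) (v : V) : ℝ :=
  ∑ e ∈ univ.filter (fun e => crossing src dst S e ∧ inEnd src dst S e = v), J e

/-- The magnetisation at `v` in `S` with plus boundary. -/
def plusMag (src dst : E → V) (J : E → ℝ) (S : Finset V) (v : V) : ℝ :=
  imean src dst (restrict src dst J S) (plusField src dst J S) fun ε => sgn (ε v)

/-- What the Ising module provides. -/
structure IsingFacts (src dst : E → V) : Prop where
  corr_nonneg : ∀ J : E → ℝ, (∀ e, 0 ≤ J e) → ∀ u v, 0 ≤ corr src dst J u v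
  abs_corr_le : ∀ (J : E → ℝ) u v, |corr src dst J u v| ≤ 1
  corr_mono : ∀ J J' : E → ℝ, (∀ e, 0 ≤ J e ∧ J e ≤ J' e) → ∀ u v,
    corr src dst J u v ≤ corr src dst J' u v
  plusMag_bounds : ∀ J : E → ℝ, (∀ e, 0 ≤ J e) → ∀ S v,
    0 ≤ plusMag src dst J S v ∧ plusMag src dst J S v ≤ 1
  plusMag_mono : ∀ J J' : E → ℝ, (∀ e, 0 ≤ J e ∧ J e ≤ J' e) → ∀ S v,
    plusMag src dst J S v ≤ plusMag src dst J' S v
  plusMag_le : ∀ J : E → ℝ, (∀ e, 0 ≤ J e) → ∀ S v,
    plusMag src dst J S v ≤ ∑ e ∈ univ.filter (fun e => crossing src dst S e),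
      J e * corr src dst (restrict src dst J S) v (inEnd src dst S e)
  corr_step : ∀ J : E → ℝ, (∀ e, 0 ≤ J e) → ∀ (T S : Finset V) (v y : V),
    T ⊆ S → (∀ e, crossing src dst T e → inside src dst S e ∨ J e = 0) → v ∈ T → y ∉ S →
    corr src dst J v y ≤ plusMag src dst J T v *
      ∑ e ∈ univ.filter (fun e => crossing src dst S e),
        J e * corr src dst (restrict src dst J Sᶜ) (outEnd src dst S e) y
  corr_gauge : ∀ (J : E → ℝ) (η : V → Bool) u v,
    corr src dst (fun e => sgn (η (src e)) * sgn (η (dst e)) * J e) u v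
      = sgn (η u) * sgn (η v) * corr src dst J u v

/-- The Ising module. -/
def IsingGoal : Prop :=
  ∀ (V E : Type) [Fintype V] [Fintype E] [DecidableEq V] (src dst : E → V),
    (∀ e, src e ≠ dst e) → IsingFacts src dst

end Ising

/-! ### A block with fixed boundary spins -/

/-- Block data: the scaled coupling, the adjacency matrix and the boundary fields. -/
structure Blk (ι : Type) (n : ℕ) where
  b : ℝ
  A : Matrix ι ι ℝ
  h : ι → Fin n → ℝ

variable {ι : Type} [Fintype ι] [DecidableEq ι] {n : ℕ}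

/-- The standing assumptions on block data. -/
structure Blk.Ok (P : Blk ι n) : Prop where
  b_pos : 0 < P.b
  symm : ∀ x y, P.A x y = P.A y x
  nonneg : ∀ x y, 0 ≤ P.A x y
  diag : ∀ x, P.A x x = 0
  row : ∀ x, ∑ y, P.A x y ≤ 4
  field : ∀ x, ∑ i, P.h x i ^ 2 ≤ 16

/-- The scalar product of a spin with the boundary field. -/
def Blk.fieldDot (P : Blk ι n) (σ : Conf ι n) (x : ι) : ℝ := ∑ i, co (σ x) i * P.h x i

/-- The energy of a block. -/
def Blk.U (P : Blk ι n) (σ : Conf ι n) : ℝ :=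
  n * P.b * ((∑ x, ∑ y, P.A x y * dot (σ x) (σ y)) / 2 + ∑ x, P.fieldDot σ x)

/-- The local energy at a site. -/
def Blk.q (P : Blk ι n) (σ : Conf ι n) (x : ι) : ℝ :=
  ∑ y, P.A x y * dot (σ x) (σ y) + P.fieldDot σ x

/-- The operator with potential `lam`. -/
def Blk.H (P : Blk ι n) (lam : ι → ℝ) : Matrix ι ι ℝ := Matrix.diagonal lam - P.b • P.A

/-- A spectral gap valid for every potential whose Green function has diagonal at most one. -/
def Blk.Gap (P : Blk ι n) (γ : ℝ) : Prop :=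
  ∀ lam : ι → ℝ, (P.H lam).PosDef → (∀ x, (P.H lam)⁻¹ x x ≤ 1) →
    ∀ f : ι → ℝ, γ * ∑ x, f x ^ 2 ≤ f ⬝ᵥ (P.H lam *ᵥ f)

/-- The saddle point of a block. -/
structure Saddle (P : Blk ι n) where
  lam : ι → ℝ
  C : Matrix ι ι ℝ
  m : ι → Fin n → ℝ
  posDef : (P.H lam).PosDef
  C_eq : C = (P.H lam)⁻¹
  m_eq : ∀ x i, m x i = ∑ y, C x y * (P.b * P.h y i)
  diag_eq : ∀ x, C x x + ∑ i, m x i ^ 2 = 1

/-- The second moment matrix of the saddle. -/
def Saddle.G {P : Blk ι n} (S : Saddle P) (x y : ι) : ℝ := S.C x y + ∑ i, S.m x i * S.m y i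

/-- The mean local energy of the saddle. -/
def Saddle.qbar {P : Blk ι n} (S : Saddle P) (x : ι) : ℝ :=
  ∑ y, P.A x y * S.G x y + ∑ i, S.m x i * P.h x i

/-- The event that component `i` and all local energies are within `δ` of the saddle. -/
def Saddle.good {P : Blk ι n} (S : Saddle P) (i : Fin n) (δ : ℝ) : Set (Conf ι n) :=
  {σ | ∀ x, |co (σ x) i - S.m x i| ≤ δ ∧ |P.q σ x - S.qbar x| ≤ δ}

/-- The saddle module: existence, the potential, sizes and decay. -/
def SaddleGoal : Prop :=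
  ∀ (ι : Type) [Fintype ι] [DecidableEq ι] (n : ℕ) (P : Blk ι n), P.Ok →
    Nonempty (Saddle P) ∧ ∀ S : Saddle P,
      (∀ x, S.lam x = 1 + P.b * S.qbar x) ∧ (∀ x, S.lam x ≤ 1 + 8 * P.b) ∧
      (∀ x y, |S.C x y| ≤ 1) ∧ (∀ x y, |S.G x y| ≤ 1) ∧
      ∀ (γ : ℝ) (d : ι → ℝ) (y : ι), 0 < γ → γ ≤ 1 → P.Gap γ →
        d y = 0 → (∀ u v, P.A u v ≠ 0 → |d u - d v| ≤ 1) →
        ∀ x, |S.C x y| ≤ Real.sqrt (2 / γ) * Real.exp (-(γ / (8 * max P.b 1)) * d x)

/-- The cutoff criterion for a gap. -/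
def CutoffGoal : Prop :=
  ∀ (ι : Type) [Fintype ι] [DecidableEq ι] (n : ℕ) (P : Blk ι n), P.Ok →
    ∀ (J : Type) [Fintype J] (g : J → ι → ℝ) (centre : ι → J) (G₂ ε : ℝ),
      Function.Injective centre → (∀ x, g (centre x) x = 1) → (∀ x, ∑ j, g j x ^ 2 = G₂) →
      (∀ x y, P.A x y ≠ 0 → ∑ j, (g j x - g j y) ^ 2 ≤ ε) → 4 * P.b * ε ≤ 1 → 1 ≤ G₂ →
      P.Gap (1 / (2 * G₂))

/-- The width of the concentration window. -/
def width (K B : ℝ) (N n : ℕ) : ℝ := Real.sqrt (K * (B * N + Real.log n + 1) / n)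

/-- The Gaussian domination module: the block measure concentrates at the saddle. -/
def GoodGoal : Prop :=
  ∃ K : ℝ, 1 ≤ K ∧ ∀ (ι : Type) [Fintype ι] [DecidableEq ι] (n : ℕ) (P : Blk ι n), 2 ≤ n → P.Ok →
    ∀ (S : Saddle P) (i : Fin n) (B : ℝ), 1 ≤ B → P.b ≤ B →
      width K B (Fintype.card ι) n ≤ 1 →
      avg P.U ((S.good i (width K B (Fintype.card ι) n))ᶜ.indicator fun _ => 1)
        ≤ K * (Fintype.card ι + 1) / (n : ℝ) ^ 20

/-- Integration by parts along component `i` at the site `x`. -/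
def IBPGoal : Prop :=
  ∀ (ι : Type) [Fintype ι] [DecidableEq ι] (n : ℕ) (P : Blk ι n), 2 ≤ n →
    (∀ x y, P.A x y = P.A y x) → (∀ x, P.A x x = 0) →
    ∀ (i : Fin n) (x : ι) (Ψ D : (ι → ℝ) → ℝ), Continuous Ψ → Continuous D →
      (∀ s, HasDerivAt (fun t => Ψ (Function.update s x t)) (D s) (s x)) →
      avg P.U (fun σ => Ψ (fun y => co (σ y) i) *
          ((1 - 1 / n + P.b * P.q σ x) * co (σ x) i
            - P.b * (∑ y, P.A x y * co (σ y) i) - P.b * P.h x i))
        = avg P.U (fun σ => D (fun y => co (σ y) i) * (1 - co (σ x) i ^ 2)) / n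

end Vale.Agent.P163.Gap
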