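import Vale.Agent.P163.Gap.Field
import Vale.Agent.P163.Sphere

/-!
# The density of the field and polar coordinates of the standard field
-/

noncomputable section

namespace Vale.Agent.P163.Gap

open MeasureTheory Matrix Finset
open scoped ENNReal

set_option linter.unusedSectionVars false

variable {ι : Type} [Fintype ι] [DecidableEq ι] {n : ℕ}

/-- The density of the field. -/
def fWeight (n : ℕ) (H : Matrix ι ι ℝ) (m : ι → Fin n → ℝ) (φ : Fin n → ι → ℝ) : ℝ :=
  ∏ i, gWeight (n : ℝ) H (fun x => φ i x - m x i) / gMass (n : ℝ) H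

/-- A product of densities is the density of the product. -/
theorem pi_density {κ α : Type} [Fintype κ] [MeasureSpace α] [SigmaFinite (volume : Measure α)]
    (f : κ → α → ℝ) (_hm : ∀ k, Measurable (f k)) (hi : ∀ k, Integrable (f k) volume)
    (h0 : ∀ k a, 0 ≤ f k a)
    [∀ k, SigmaFinite ((volume : Measure α).withDensity fun a => ENNReal.ofReal (f k a))] :
    Measure.pi (fun k => (volume : Measure α).withDensity fun a => ENNReal.ofReal (f k a))
      = (volume : Measure (κ → α)).withDensity fun x => ENNReal.ofReal (∏ k, f k (x k)) := by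
  refine Measure.pi_eq fun s hs => ?_
  have hint : Integrable (fun x : κ → α => ∏ k, f k (x k)) volume := Integrable.fintype_prod hi
  have hS : MeasurableSet (Set.univ.pi s) := MeasurableSet.univ_pi hs
  rw [withDensity_apply _ hS, ← ofReal_integral_eq_lintegral_ofReal hint.integrableOn
    (Filter.Eventually.of_forall fun x => prod_nonneg fun k _ => h0 k _)]
  have e : (Set.univ.pi s).indicator (fun x => ∏ k, f k (x k))
      = fun x => ∏ k, (s k).indicator (f k) (x k) := by
    funext x
    by_cases hx : x ∈ Set.univ.pi s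
    · rw [Set.indicator_of_mem hx]
      exact prod_congr rfl fun k _ => (Set.indicator_of_mem (hx k trivial) _).symm
    · rw [Set.indicator_of_notMem hx]
      obtain ⟨k, hk⟩ : ∃ k, x k ∉ s k := by simpa [Set.mem_pi] using hx
      exact (prod_eq_zero (mem_univ k) (Set.indicator_of_notMem hk _)).symm
  rw [← integral_indicator hS, e, integral_fintype_prod_volume_eq_prod,
    ENNReal.ofReal_prod_of_nonneg fun k _ => integral_nonneg
      (Set.indicator_nonneg fun a _ => h0 k a)]
  refine prod_congr rfl fun k _ => ?_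
  rw [integral_indicator (hs k), withDensity_apply _ (hs k),
    ofReal_integral_eq_lintegral_ofReal (hi k).integrableOn
      (Filter.Eventually.of_forall fun a => h0 k a)]

theorem cLaw_eq {H : Matrix ι ι ℝ} (hn : 1 ≤ n) (hH : H.PosDef) :
    cLaw n H = volume.withDensity fun g => ENNReal.ofReal (fWeight n H 0 g) := by
  have hn' : (0 : ℝ) < n := by exact_mod_cast hn
  have := isProbability_gLaw hn' hH
  have : ∀ _i : Fin n, SigmaFinite ((volume : Measure (ι → ℝ)).withDensity fun v =>
      ENNReal.ofReal (gWeight (n : ℝ) H v / gMass (n : ℝ) H)) := fun _ => by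
    change SigmaFinite (gLaw (n : ℝ) H); infer_instance
  rw [cLaw]
  refine (pi_density (fun _ v => gWeight (n : ℝ) H v / gMass (n : ℝ) H) (fun _ => by fun_prop)
    (fun _ => (integrable_gWeight hn' hH).div_const _)
    fun _ v => div_nonneg (gWeight_nonneg v) (gMass_pos hn' hH).le).trans ?_
  congr 1
  funext g
  simp [fWeight]

theorem fLaw_eq {H : Matrix ι ι ℝ} (hn : 1 ≤ n) (hH : H.PosDef) (m : ι → Fin n → ℝ) :
    fLaw n H m = volume.withDensity fun φ => ENNReal.ofReal (fWeight n H m φ) := by
  set M : Fin n → ι → ℝ := fun i x => m x i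
  refine Measure.ext fun s hs => ?_
  rw [fLaw, Measure.map_apply measurable_shift hs, cLaw_eq hn hH,
    withDensity_apply _ (measurable_shift hs), withDensity_apply _ hs,
    ← lintegral_indicator (measurable_shift hs), ← lintegral_indicator hs]
  conv_rhs => rw [← lintegral_add_right_eq_self _ M]
  refine lintegral_congr fun g => ?_
  simp only [Set.indicator, Set.mem_preimage]
  have e : g + M = shift m g := rfl
  rw [e]
  congr 1
  simp [fWeight, shift]

/-- The arbitrary direction assigned to the origin. -/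
def axis [NeZero n] : Spin n :=
  ⟨EuclideanSpace.single (0 : Fin n) 1, by simp⟩

/-- The direction of a vector. -/
def dirE [NeZero n] (v : EuclideanSpace ℝ (Fin n)) : Spin n :=
  ⟨if v = 0 then (axis (n := n) : EuclideanSpace ℝ (Fin n)) else ‖v‖⁻¹ • v, by
    split_ifs with h
    · exact (axis (n := n)).2
    · simp [norm_smul, norm_ne_zero_iff.2 h]⟩

theorem norm_mul_co_dirE [NeZero n] (v : EuclideanSpace ℝ (Fin n)) (i : Fin n) :
    ‖v‖ * co (dirE v) i = v i := by
  by_cases h : v = 0
  · simp [h]
  · simp [dirE, co, h]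

@[fun_prop]
theorem measurable_dirE [NeZero n] : Measurable (dirE (n := n)) := by
  refine Measurable.subtype_mk ?_
  exact Measurable.ite (measurableSet_singleton _) measurable_const (by fun_prop)

/-- The vector of components at a site. -/
def vecAt (φ : Fin n → ι → ℝ) (x : ι) : EuclideanSpace ℝ (Fin n) := WithLp.toLp 2 fun i => φ i x

/-- The directions of a field. -/
def dirs [NeZero n] (φ : Fin n → ι → ℝ) : Conf ι n := fun x => dirE (vecAt φ x)

/-- The lengths of a field. -/
def rads (φ : Fin n → ι → ℝ) : ι → ℝ := fun x => ‖vecAt φ x‖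

@[fun_prop]
theorem measurable_rads : Measurable (rads : (Fin n → ι → ℝ) → ι → ℝ) := by
  unfold rads vecAt; fun_prop

@[fun_prop]
theorem measurable_dirs [NeZero n] : Measurable (dirs : (Fin n → ι → ℝ) → Conf ι n) := by
  unfold dirs vecAt; fun_prop

theorem eq_rads_mul [NeZero n] (φ : Fin n → ι → ℝ) (i : Fin n) (x : ι) :
    φ i x = rads φ x * co (dirs φ x) i := by
  rw [rads, dirs, norm_mul_co_dirE]; rfl

/-- The standard vector. -/
def stdVec (n : ℕ) : Measure (EuclideanSpace ℝ (Fin n)) :=
  volume.withDensity fun v =>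
    ENNReal.ofReal (Real.exp (-((n : ℝ) / 2) * ‖v‖ ^ 2) /
      ∫ w : EuclideanSpace ℝ (Fin n), Real.exp (-((n : ℝ) / 2) * ‖w‖ ^ 2))

theorem integrable_stdDens [NeZero n] :
    Integrable fun v : EuclideanSpace ℝ (Fin n) => Real.exp (-((n : ℝ) / 2) * ‖v‖ ^ 2) := by
  have hb : (0 : ℝ) < (n : ℝ) / 2 := by
    have : (0 : ℝ) < n := Nat.cast_pos.2 (Nat.pos_of_neZero n)
    positivity
  refine ((PiLp.volume_preserving_ofLp (Fin n)).integrable_comp_emb
    (MeasurableEquiv.toLp 2 (Fin n → ℝ)).symm.measurableEmbedding).2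
    (Integrable.fintype_prod fun _ => integrable_exp_neg_mul_sq hb) |>.congr
      (Filter.Eventually.of_forall fun v => ?_)
  simp [Function.comp_def, ← Real.exp_sum, EuclideanSpace.real_norm_sq_eq, mul_sum]

instance isProbability_stdVec [NeZero n] : IsProbabilityMeasure (stdVec n) := by
  refine ⟨?_⟩
  have h := integral_exp_pos (μ := volume) (integrable_stdDens (n := n))
  rw [stdVec, withDensity_apply _ MeasurableSet.univ, Measure.restrict_univ,
    ← ofReal_integral_eq_lintegral_ofReal (integrable_stdDens.div_const _)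
      (Filter.Eventually.of_forall fun v => div_nonneg (Real.exp_nonneg _) h.le),
    integral_div, div_self h.ne', ENNReal.ofReal_one]

/-- The law of the length of the standard vector. -/
def radLaw (n : ℕ) : Measure ℝ := (stdVec n).map fun v => ‖v‖

instance isProbability_radLaw [NeZero n] : IsProbabilityMeasure (radLaw n) :=
  Measure.isProbabilityMeasure_map (by fun_prop)

theorem lintegral_polar [NeZero n] {A : Set (Spin n)} (hA : MeasurableSet A) {G : ℝ → ℝ≥0∞}
    (hG : Measurable G) :
    ∫⁻ v : EuclideanSpace ℝ (Fin n), A.indicator 1 (dirE v) * G ‖v‖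
      = (volume : Measure (EuclideanSpace ℝ (Fin n))).toSphere A *
        ∫⁻ r : Set.Ioi (0 : ℝ), G r
          ∂Measure.volumeIoiPow (Module.finrank ℝ (EuclideanSpace ℝ (Fin n)) - 1) := by
  have : Nontrivial (EuclideanSpace ℝ (Fin n)) :=
    Module.nontrivial_of_finrank_pos (R := ℝ) (by simpa using Nat.pos_of_neZero n)
  conv_lhs => rw [← restrict_compl_singleton (μ := (volume : Measure (EuclideanSpace ℝ (Fin n)))) 0]
  rw [← lintegral_subtype_comap (measurableSet_singleton _).compl]
  have e : ∀ v : ({(0 : EuclideanSpace ℝ (Fin n))}ᶜ : Set (EuclideanSpace ℝ (Fin n))),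
      A.indicator 1 (dirE v.1) * G ‖v.1‖
        = (fun p : Spin n × Set.Ioi (0 : ℝ) => A.indicator 1 p.1 * G p.2)
            (homeomorphUnitSphereProd (EuclideanSpace ℝ (Fin n)) v) := fun v => by
    have hv : v.1 ≠ 0 := v.2
    have h1 : dirE v.1 = (homeomorphUnitSphereProd (EuclideanSpace ℝ (Fin n)) v).1 :=
      Subtype.ext (by simp [dirE, hv])
    simp only [h1, homeomorphUnitSphereProd_apply_snd_coe]
  simp only [e]
  rw [((volume : Measure (EuclideanSpace ℝ (Fin n))).measurePreserving_homeomorphUnitSphereProd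
    ).lintegral_comp_emb (Homeomorph.measurableEmbedding _)
    (fun p : Spin n × Set.Ioi (0 : ℝ) => A.indicator 1 p.1 * G p.2),
    lintegral_prod_mul (f := A.indicator (1 : Spin n → ℝ≥0∞))
      (g := fun r : Set.Ioi (0 : ℝ) => G r) ((measurable_one.indicator hA).aemeasurable)
      (by fun_prop),
    lintegral_indicator_one hA]

theorem map_polar [NeZero n] :
    (stdVec n).map (fun v => (dirE v, ‖v‖)) = (uniform n).prod (radLaw n) := by
  refine (Measure.prod_eq fun A B hA hB => ?_).symm
  have hm : Measurable fun v : EuclideanSpace ℝ (Fin n) => (dirE v, ‖v‖) := by fun_prop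
  set c := ∫ w : EuclideanSpace ℝ (Fin n), Real.exp (-((n : ℝ) / 2) * ‖w‖ ^ 2)
  set G : ℝ → ℝ≥0∞ :=
    B.indicator fun r => ENNReal.ofReal (Real.exp (-((n : ℝ) / 2) * r ^ 2) / c)
  have hG : Measurable G := Measurable.indicator (by fun_prop) hB
  have key : ∀ A' : Set (Spin n), MeasurableSet A' →
      stdVec n ((fun v => (dirE v, ‖v‖)) ⁻¹' A' ×ˢ B)
        = (volume : Measure (EuclideanSpace ℝ (Fin n))).toSphere A' *
          ∫⁻ r : Set.Ioi (0 : ℝ), G r
            ∂Measure.volumeIoiPow (Module.finrank ℝ (EuclideanSpace ℝ (Fin n)) - 1) := fun A' hA' => by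
    rw [← lintegral_polar hA' hG, stdVec, withDensity_apply _ (hm (hA'.prod hB)),
      ← lintegral_indicator (hm (hA'.prod hB))]
    refine lintegral_congr fun v => ?_
    by_cases h1 : dirE v ∈ A' <;> by_cases h2 : ‖v‖ ∈ B <;> simp [G, h1, h2, c]
  rw [Measure.map_apply hm (hA.prod hB), key A hA, radLaw, Measure.map_apply (by fun_prop) hB,
    show (fun v : EuclideanSpace ℝ (Fin n) => ‖v‖) ⁻¹' B
      = (fun v => (dirE v, ‖v‖)) ⁻¹' (Set.univ : Set (Spin n)) ×ˢ B by ext v; simp,
    key Set.univ MeasurableSet.univ, uniform, Measure.smul_apply, smul_eq_mul]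
  set T := (volume : Measure (EuclideanSpace ℝ (Fin n))).toSphere
  have hT0 : T Set.univ ≠ 0 := by
    have : Nontrivial (EuclideanSpace ℝ (Fin n)) :=
      Module.nontrivial_of_finrank_pos (R := ℝ) (by simpa using Nat.pos_of_neZero n)
    simp only [ne_eq, Measure.measure_univ_eq_zero, T]
    exact Measure.toSphere_ne_zero _
  calc T A * _ = ((T Set.univ)⁻¹ * T Set.univ) * (T A * _) := by
        rw [ENNReal.inv_mul_cancel hT0 (measure_ne_top _ _), one_mul]
    _ = _ := by ring

/-- Transposition of a family of vectors into a field. -/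
def trans (p : ι → EuclideanSpace ℝ (Fin n)) : Fin n → ι → ℝ := fun i x => p x i

theorem measurePreserving_uncurry {κ₁ κ₂ : Type} [Fintype κ₁] [Fintype κ₂] :
    MeasurePreserving (fun (φ : κ₁ → κ₂ → ℝ) (k : κ₁ × κ₂) => φ k.1 k.2) volume volume := by
  have hm : Measurable fun (φ : κ₁ → κ₂ → ℝ) (k : κ₁ × κ₂) => φ k.1 k.2 := by fun_prop
  refine ⟨hm, (Measure.pi_eq fun s hs => ?_).symm⟩
  rw [Measure.map_apply hm (MeasurableSet.univ_pi hs),
    show (fun (φ : κ₁ → κ₂ → ℝ) (k : κ₁ × κ₂) => φ k.1 k.2) ⁻¹' Set.univ.pi s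
      = Set.univ.pi fun a => Set.univ.pi fun b => s (a, b) by ext φ; simp [Set.mem_pi],
    volume_pi_pi]
  simp only [volume_pi_pi, Fintype.prod_prod_type]

theorem measurePreserving_uncurry' {κ₁ κ₂ : Type} [Fintype κ₁] [Fintype κ₂] :
    MeasurePreserving (fun (φ : κ₁ → κ₂ → ℝ) (k : κ₂ × κ₁) => φ k.2 k.1) volume volume := by
  have hm : Measurable fun (φ : κ₁ → κ₂ → ℝ) (k : κ₂ × κ₁) => φ k.2 k.1 := by fun_prop
  refine ⟨hm, (Measure.pi_eq fun s hs => ?_).symm⟩
  rw [Measure.map_apply hm (MeasurableSet.univ_pi hs),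
    show (fun (φ : κ₁ → κ₂ → ℝ) (k : κ₂ × κ₁) => φ k.2 k.1) ⁻¹' Set.univ.pi s
      = Set.univ.pi fun a => Set.univ.pi fun b => s (b, a) by
        ext φ; simp only [Set.mem_preimage, Set.mem_pi, Set.mem_univ, true_implies, Prod.forall]
        exact forall_comm,
    volume_pi_pi]
  simp only [volume_pi_pi, Fintype.prod_prod_type]
  rw [prod_comm]

theorem measurePreserving_trans :
    MeasurePreserving (trans : (ι → EuclideanSpace ℝ (Fin n)) → _) volume volume := by
  have h1 : MeasurePreserving (fun (p : ι → EuclideanSpace ℝ (Fin n)) x => WithLp.ofLp (p x))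
      volume volume := volume_preserving_pi fun _ => PiLp.volume_preserving_ofLp (Fin n)
  have h2 : MeasurePreserving (MeasurableEquiv.curry (Fin n) ι ℝ) volume volume :=
    MeasurePreserving.symm (MeasurableEquiv.curry (Fin n) ι ℝ).symm
      (measurePreserving_uncurry (κ₁ := Fin n) (κ₂ := ι))
  exact (h2.comp measurePreserving_uncurry').comp h1

theorem posDef_one : (1 : Matrix ι ι ℝ).PosDef := PosDef.one

theorem map_trans_stdVec [NeZero n] :
    (Measure.pi fun _ : ι => stdVec n).map trans = fLaw n (1 : Matrix ι ι ℝ) 0 := by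
  set c := ∫ w : EuclideanSpace ℝ (Fin n), Real.exp (-((n : ℝ) / 2) * ‖w‖ ^ 2)
  have hc : 0 < c := integral_exp_pos integrable_stdDens
  have hn1 : 1 ≤ n := Nat.pos_of_neZero n
  have hn : (0 : ℝ) < n := Nat.cast_pos.2 hn1
  have hM := gMass_pos (s := (n : ℝ)) hn (posDef_one (ι := ι))
  have : ∀ _x : ι, SigmaFinite ((volume : Measure (EuclideanSpace ℝ (Fin n))).withDensity
      fun v => ENNReal.ofReal (Real.exp (-((n : ℝ) / 2) * ‖v‖ ^ 2) / c)) := fun _ => by
    change SigmaFinite (stdVec n); infer_instance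
  have hL : (Measure.pi fun _ : ι => stdVec n) = volume.withDensity fun p =>
      ENNReal.ofReal (∏ x, Real.exp (-((n : ℝ) / 2) * ‖p x‖ ^ 2) / c) :=
    pi_density _ (fun _ => by fun_prop) (fun _ => integrable_stdDens.div_const _)
      fun _ v => div_nonneg (Real.exp_nonneg _) hc.le
  set k := c ^ Fintype.card ι / gMass (n : ℝ) (1 : Matrix ι ι ℝ) ^ n
  have hk : 0 ≤ k := by positivity
  have e : ∀ p : ι → EuclideanSpace ℝ (Fin n), fWeight n 1 0 (trans p)
      = k * ∏ x, Real.exp (-((n : ℝ) / 2) * ‖p x‖ ^ 2) / c := fun p => by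
    simp only [fWeight, prod_div_distrib, prod_const, card_univ, Fintype.card_fin, k]
    have h1 : ∏ i : Fin n, gWeight (n : ℝ) 1 (fun x => trans p i x - (0 : ι → Fin n → ℝ) x i)
        = ∏ x, Real.exp (-((n : ℝ) / 2) * ‖p x‖ ^ 2) := by
      simp only [gWeight, one_mulVec, dotProduct, ← Real.exp_sum, EuclideanSpace.real_norm_sq_eq,
        mul_sum]
      rw [sum_comm]
      simp [trans, sq]
    rw [h1]
    field_simp
  have hN : fLaw n (1 : Matrix ι ι ℝ) 0
      = ENNReal.ofReal k • (Measure.pi fun _ : ι => stdVec n).map trans := by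
    refine Measure.ext fun s hs => ?_
    have ht := measurePreserving_trans (ι := ι) (n := n)
    rw [Measure.smul_apply, Measure.map_apply ht.measurable hs, hL,
      withDensity_apply _ (ht.measurable hs), fLaw_eq hn1 posDef_one, withDensity_apply _ hs,
      smul_eq_mul, ← lintegral_const_mul' _ _ ENNReal.ofReal_ne_top,
      ← ht.setLIntegral_comp_preimage hs (by unfold fWeight; fun_prop)]
    refine lintegral_congr fun p => ?_
    rw [e, ENNReal.ofReal_mul hk]
  have h1 : IsProbabilityMeasure (fLaw n (1 : Matrix ι ι ℝ) (0 : ι → Fin n → ℝ)) :=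
    (show Mom n (1 : Matrix ι ι ℝ) (0 : ι → Fin n → ℝ) from
      ⟨hn1, posDef_one, fun x => by simp⟩).prob_fLaw
  have h2 : IsProbabilityMeasure ((Measure.pi fun _ : ι => stdVec n).map trans) :=
    Measure.isProbabilityMeasure_map measurePreserving_trans.measurable.aemeasurable
  have hk1 : ENNReal.ofReal k = 1 := by
    have := congrArg (fun μ : Measure (Fin n → ι → ℝ) => μ Set.univ) hN
    simpa using this.symm
  rw [hN, hk1, one_smul]

/-- Directions and lengths of the standard field are independent. -/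
theorem measurePreserving_polar [NeZero n] :
    MeasurePreserving (fun φ : Fin n → ι → ℝ => (dirs φ, rads φ)) (fLaw n 1 0)
      ((base ι n).prod (Measure.pi fun _ => radLaw n)) := by
  have h1 : MeasurePreserving (fun v : EuclideanSpace ℝ (Fin n) => (dirE v, ‖v‖)) (stdVec n)
      ((uniform n).prod (radLaw n)) := ⟨by fun_prop, map_polar⟩
  have h2 := (measurePreserving_arrowProdEquivProdArrow (Spin n) ℝ ι (fun _ => uniform n)
    (fun _ => radLaw n)).comp
    (measurePreserving_pi (fun _ : ι => stdVec n) (fun _ => (uniform n).prod (radLaw n))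
      fun _ => h1)
  refine ⟨by fun_prop, ?_⟩
  rw [← map_trans_stdVec,
    Measure.map_map (by fun_prop) measurePreserving_trans.measurable]
  exact h2.map_eq

end Vale.Agent.P163.Gap
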