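import Vale.Agent.P163.Gap.Defs
import Vale.Agent.P163.Gap.Polar

/-!
# Gaussian domination of a block measure
-/

noncomputable section

namespace Vale.Agent.P163.Gap

open MeasureTheory Matrix Finset
open scoped ENNReal

set_option linter.unusedSectionVars false

variable {ι : Type} [Fintype ι] [DecidableEq ι] {n : ℕ} {P : Blk ι n}

theorem exp_integral_le {Ω : Type} {mΩ : MeasurableSpace Ω} {μ : Measure Ω}
    [IsProbabilityMeasure μ] {f : Ω → ℝ} (hf : Integrable f μ)
    (he : Integrable (fun ω => Real.exp (f ω)) μ) :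
    Real.exp (∫ ω, f ω ∂μ) ≤ ∫ ω, Real.exp (f ω) ∂μ := by
  set a := ∫ ω, f ω ∂μ with ha
  have h1 : ∀ ω, Real.exp a * (1 + (f ω - a)) ≤ Real.exp (f ω) := fun ω => by
    have h := mul_le_mul_of_nonneg_left (Real.add_one_le_exp (f ω - a)) (Real.exp_nonneg a)
    rw [← Real.exp_add, add_sub_cancel] at h
    linarith
  have hi : Integrable (fun ω => 1 + (f ω - a)) μ :=
    (integrable_const _).add (hf.sub (integrable_const _))
  have h2 := integral_mono (hi.const_mul (Real.exp a)) he h1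
  have h3 : ∫ ω, 1 + (f ω - a) ∂μ = 1 := by
    rw [integral_add (integrable_const _) (hf.sub' (integrable_const _)),
      integral_sub hf (integrable_const _)]
    simp [ha]
  rw [integral_const_mul, h3, mul_one] at h2
  exact h2

theorem ofReal_exp_integral_le {Ω : Type} {mΩ : MeasurableSpace Ω} {μ : Measure Ω}
    [IsProbabilityMeasure μ] {f : Ω → ℝ} (hf : Integrable f μ) :
    ENNReal.ofReal (Real.exp (∫ ω, f ω ∂μ)) ≤ ∫⁻ ω, ENNReal.ofReal (Real.exp (f ω)) ∂μ := by
  by_cases h : Integrable (fun ω => Real.exp (f ω)) μ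
  · rw [← ofReal_integral_eq_lintegral_ofReal h
      (Filter.Eventually.of_forall fun ω => Real.exp_nonneg _)]
    exact ENNReal.ofReal_le_ofReal (exp_integral_le hf h)
  · have : ∫⁻ ω, ENNReal.ofReal (Real.exp (f ω)) ∂μ = ⊤ := by
      by_contra hne
      refine h ⟨Real.continuous_exp.comp_aestronglyMeasurable hf.1, ?_⟩
      rw [hasFiniteIntegral_iff_ofReal (Filter.Eventually.of_forall fun ω => Real.exp_nonneg _)]
      exact lt_top_iff_ne_top.2 hne
    rw [this]
    exact le_top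

/-- The Taylor remainder of the product of two lengths. -/
theorem length_product_le {r r' : ℝ} (hr : 0 ≤ r) (hr' : 0 ≤ r') :
    |1 - r * r' * (1 - ((r ^ 2 - 1) + (r' ^ 2 - 1)) / 2)|
      ≤ 4 * ((r ^ 2 - 1) ^ 2 + (r' ^ 2 - 1) ^ 2) := by
  set p := r ^ 2 - 1
  set q := r' ^ 2 - 1
  set s := (p + q) / 2 with hs
  have e : 1 - r * r' * (1 - s) = s ^ 2 + (1 - s) * ((r - r') ^ 2 / 2) := by
    simp only [hs, p, q]; ring
  have h1 : (r - r') ^ 2 ≤ 2 * (p ^ 2 + q ^ 2) := by
    have a : (r - 1) ^ 2 ≤ p ^ 2 := by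
      have : p = (r - 1) * (r + 1) := by simp only [p]; ring
      rw [this, mul_pow]
      exact le_mul_of_one_le_right (sq_nonneg _) (one_le_pow₀ (by linarith))
    have c : (r' - 1) ^ 2 ≤ q ^ 2 := by
      have : q = (r' - 1) * (r' + 1) := by simp only [q]; ring
      rw [this, mul_pow]
      exact le_mul_of_one_le_right (sq_nonneg _) (one_le_pow₀ (by linarith))
    nlinarith [sq_nonneg ((r - 1) + (r' - 1))]
  have h2 : (r - r') ^ 2 ≤ 2 + 2 * s := by
    have : (r - r') ^ 2 = 2 + 2 * s - 2 * (r * r') := by simp only [hs, p, q]; ring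
    linarith [mul_nonneg hr hr']
  have h3 : |s| * (r - r') ^ 2 ≤ (r - r') ^ 2 + 4 * s ^ 2 := by
    rcases le_total |s| 1 with h | h
    · nlinarith [sq_nonneg (r - r'), sq_nonneg s]
    · have := mul_le_mul_of_nonneg_left h2 (abs_nonneg s)
      nlinarith [sq_abs s, le_abs_self s, sq_nonneg (r - r'), abs_nonneg s]
  have h4 : 2 * s ^ 2 ≤ p ^ 2 + q ^ 2 := by
    simp only [hs]; nlinarith [sq_nonneg (p - q)]
  rw [e]
  calc |s ^ 2 + (1 - s) * ((r - r') ^ 2 / 2)|
      ≤ s ^ 2 + (1 + |s|) * ((r - r') ^ 2 / 2) := by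
        refine (abs_add_le _ _).trans (add_le_add (le_of_eq (abs_sq s)) ?_)
        rw [abs_mul, abs_of_nonneg (a := (r - r') ^ 2 / 2) (by positivity)]
        exact mul_le_mul_of_nonneg_right ((abs_sub _ _).trans (by rw [abs_one])) (by positivity)
    _ ≤ _ := by nlinarith

/-- The exponent relating the saddle field to the standard field. -/
def Saddle.X (S : Saddle P) (φ : Fin n → ι → ℝ) : ℝ :=
  -(1 / 2) * ∑ x, (S.lam x - 1) * pairA φ x x + P.b / 2 * ∑ x, ∑ y, P.A x y * pairA φ x y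
    + P.b * ∑ x, linA (P.h x) φ x - P.b / 2 * ∑ x, ∑ i, P.h x i * S.m x i

/-- The saddle value of the energy, divided by `n`. -/
def Saddle.val (S : Saddle P) : ℝ :=
  P.b * ((∑ x, ∑ y, P.A x y * S.G x y) / 2 + ∑ x, ∑ i, P.h x i * S.m x i)

/-- The normalisation of the density of the saddle field. -/
def Saddle.kappa (S : Saddle P) : ℝ :=
  (gMass (n : ℝ) (1 : Matrix ι ι ℝ) / gMass (n : ℝ) (P.H S.lam)) ^ n

theorem pairA_eq [NeZero n] (φ : Fin n → ι → ℝ) (x y : ι) :
    pairA φ x y = rads φ x * rads φ y * dot (dirs φ x) (dirs φ y) := by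
  rw [pairA, dot_eq, mul_sum]
  refine sum_congr rfl fun i _ => ?_
  rw [eq_rads_mul φ i x, eq_rads_mul φ i y]; ring

theorem pairA_self [NeZero n] (φ : Fin n → ι → ℝ) (x : ι) : pairA φ x x = rads φ x ^ 2 := by
  rw [pairA_eq, dot_eq]
  simp only [← sq, co_sq_sum, mul_one]

theorem linA_eq [NeZero n] (φ : Fin n → ι → ℝ) (x : ι) :
    linA (P.h x) φ x = rads φ x * P.fieldDot (dirs φ) x := by
  rw [linA, Blk.fieldDot, mul_sum]
  refine sum_congr rfl fun i _ => ?_
  rw [eq_rads_mul φ i x]; ring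

theorem abs_fieldDot_le (hok : P.Ok) (σ : Conf ι n) (x : ι) : |P.fieldDot σ x| ≤ 4 := by
  have h := sum_mul_sq_le_sq_mul_sq univ (fun i => co (σ x) i) (fun i => P.h x i)
  rw [co_sq_sum, one_mul] at h
  have h' : P.fieldDot σ x ^ 2 ≤ 4 ^ 2 := by
    refine h.trans ((hok.field x).trans ?_); norm_num
  exact abs_le_of_sq_le_sq h' (by norm_num)

@[fun_prop]
theorem continuous_fieldDot (x : ι) : Continuous fun σ : Conf ι n => P.fieldDot σ x := by
  unfold Blk.fieldDot; fun_prop

@[fun_prop]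
theorem continuous_blockU : Continuous P.U := by
  unfold Blk.U Blk.fieldDot; fun_prop

@[fun_prop]
theorem continuous_blockQ (x : ι) : Continuous fun σ => P.q σ x := by
  unfold Blk.q Blk.fieldDot; fun_prop

theorem sum_weight_le (hok : P.Ok) {c : ℝ} (hc : 0 ≤ c) (f : ι → ι → ℝ) (hf : ∀ x y, f x y ≤ c) :
    ∑ x, ∑ y, P.A x y * f x y ≤ 4 * c * (Fintype.card ι : ℝ) := by
  calc ∑ x, ∑ y, P.A x y * f x y ≤ ∑ _x : ι, 4 * c := sum_le_sum fun x _ => by
        calc ∑ y, P.A x y * f x y ≤ ∑ y, P.A x y * c :=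
              sum_le_sum fun y _ => mul_le_mul_of_nonneg_left (hf x y) (hok.nonneg x y)
          _ = (∑ y, P.A x y) * c := (sum_mul _ _ _).symm
          _ ≤ _ := mul_le_mul_of_nonneg_right (hok.row x) hc
    _ = _ := by rw [sum_const, card_univ, nsmul_eq_mul]; ring

namespace Saddle

variable (S : Saddle P)

theorem mom (hn : 1 ≤ n) : Mom n (P.H S.lam) S.m :=
  ⟨hn, S.posDef, fun x => by rw [← S.C_eq]; exact S.diag_eq x⟩

theorem G_eq (x y : ι) : (P.H S.lam)⁻¹ x y + ∑ i, S.m x i * S.m y i = S.G x y := by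
  rw [Saddle.G, S.C_eq]

theorem G_self (x : ι) : S.G x x = 1 := by
  rw [Saddle.G, ← S.diag_eq x]; simp [sq]

theorem mulVec_m (i : Fin n) (x : ι) :
    (P.H S.lam *ᵥ fun z => S.m z i) x = P.b * P.h x i := by
  have : (fun z => S.m z i) = S.C *ᵥ fun y => P.b * P.h y i := by
    funext z; exact S.m_eq z i
  rw [this, mulVec_mulVec, S.C_eq, posDef_mul_inv S.posDef, one_mulVec]

theorem mulVec_H (f : ι → ℝ) (x : ι) :
    (P.H S.lam *ᵥ f) x = S.lam x * f x - P.b * ∑ y, P.A x y * f y := by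
  rw [Blk.H, sub_mulVec, smul_mulVec, Pi.sub_apply, mulVec_diagonal, Pi.smul_apply, smul_eq_mul]
  rfl

theorem lam_sub_one (hok : P.Ok) (x : ι) :
    S.lam x - 1 = P.b * (∑ y, P.A x y * S.G x y + ∑ i, P.h x i * S.m x i) := by
  have hHC : (P.H S.lam * S.C) x x = 1 := by
    rw [S.C_eq, posDef_mul_inv S.posDef, one_apply_eq]
  have h1 : S.lam x * S.C x x - P.b * ∑ y, P.A x y * S.C y x = 1 := by
    rw [← hHC]; exact (S.mulVec_H (fun y => S.C y x) x).symm
  have h2 : ∀ i, S.lam x * S.m x i - P.b * ∑ y, P.A x y * S.m y i = P.b * P.h x i := fun i => by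
    rw [← S.mulVec_m i x, S.mulVec_H]
  have h3 : ∑ i, S.m x i * (S.lam x * S.m x i - P.b * ∑ y, P.A x y * S.m y i)
      = ∑ i, S.m x i * (P.b * P.h x i) := sum_congr rfl fun i _ => by rw [h2 i]
  have hC : ∀ y, S.C y x = S.C x y := fun y => by
    rw [S.C_eq]
    conv_lhs => rw [← posDef_isSymm S.posDef.inv]
    rfl
  have e1 : ∑ i, S.m x i * (S.lam x * S.m x i - P.b * ∑ y, P.A x y * S.m y i)
      = S.lam x * ∑ i, S.m x i ^ 2 - P.b * ∑ y, P.A x y * ∑ i, S.m x i * S.m y i := by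
    simp only [mul_sub, mul_sum]
    rw [sum_sub_distrib, sum_comm (s := (univ : Finset ι))]
    congr 1
    · exact sum_congr rfl fun i _ => by ring
    · exact sum_congr rfl fun i _ => sum_congr rfl fun y _ => by ring
  have e2 : ∑ i, S.m x i * (P.b * P.h x i) = P.b * ∑ i, P.h x i * S.m x i := by
    rw [mul_sum]; exact sum_congr rfl fun i _ => by ring
  rw [e1, e2] at h3
  simp only [hC] at h1
  simp only [Saddle.G, mul_add, sum_add_distrib]
  have hd := S.diag_eq x
  linear_combination h1 + h3 - S.lam x * hd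

theorem val_eq (hok : P.Ok) :
    S.val = 1 / 2 * ∑ x, (S.lam x - 1) + P.b / 2 * ∑ x, ∑ i, P.h x i * S.m x i := by
  simp only [S.lam_sub_one hok, ← mul_sum, sum_add_distrib, Saddle.val]
  ring

theorem kappa_pos (hn : 1 ≤ n) : 0 < S.kappa := by
  have hn' : (0 : ℝ) < n := by exact_mod_cast hn
  exact pow_pos (div_pos (gMass_pos hn' PosDef.one) (gMass_pos hn' S.posDef)) n

theorem weight_eq (hn : 1 ≤ n) (φ : Fin n → ι → ℝ) :
    fWeight n (P.H S.lam) S.m φ
      = fWeight n 1 0 φ * (S.kappa * Real.exp (n * S.X φ)) := by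
  have hn' : (0 : ℝ) < n := by exact_mod_cast hn
  have h1 := gMass_pos (s := (n : ℝ)) hn' (PosDef.one : (1 : Matrix ι ι ℝ).PosDef)
  have hq : ∀ i, (fun x => φ i x - S.m x i) ⬝ᵥ (P.H S.lam *ᵥ fun x => φ i x - S.m x i)
      = ∑ x, (S.lam x * φ i x ^ 2 - P.b * ∑ y, P.A x y * (φ i x * φ i y)
          - 2 * P.b * (P.h x i * φ i x) + P.b * (P.h x i * S.m x i)) := fun i => by
    have e : (fun x => φ i x - S.m x i) = φ i - fun x => S.m x i := rfl
    rw [e, mulVec_sub, sub_dotProduct, dotProduct_sub, dotProduct_sub,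
      dot_mulVec_comm S.posDef (fun x => S.m x i) (φ i)]
    simp only [dotProduct, S.mulVec_m, S.mulVec_H, ← sum_sub_distrib]
    refine sum_congr rfl fun x _ => ?_
    rw [mul_sub, ← mul_assoc _ P.b, mul_comm _ P.b, mul_assoc P.b, mul_sum (a := φ i x)]
    have : ∑ y, φ i x * (P.A x y * φ i y) = ∑ y, P.A x y * (φ i x * φ i y) :=
      sum_congr rfl fun y _ => by ring
    rw [this]
    ring
  have hX : -((n : ℝ) / 2) * ∑ i, (fun x => φ i x - S.m x i) ⬝ᵥ
      (P.H S.lam *ᵥ fun x => φ i x - S.m x i)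
      = (-((n : ℝ) / 2) * ∑ i, ∑ x, φ i x * φ i x) + n * S.X φ := by
    simp only [hq, Saddle.X, pairA, linA, sum_add_distrib, sum_sub_distrib]
    rw [sum_comm (f := fun (i : Fin n) (x : ι) => S.lam x * φ i x ^ 2),
      sum_comm (f := fun (i : Fin n) (x : ι) => P.b * ∑ y, P.A x y * (φ i x * φ i y)),
      sum_comm (f := fun (i : Fin n) (x : ι) => 2 * P.b * (P.h x i * φ i x)),
      sum_comm (f := fun (i : Fin n) (x : ι) => P.b * (P.h x i * S.m x i)),
      sum_comm (f := fun (i : Fin n) (x : ι) => φ i x * φ i x)]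
    have e3 : ∀ x, ∑ i, P.b * ∑ y, P.A x y * (φ i x * φ i y)
        = P.b * ∑ y, P.A x y * ∑ i, φ i x * φ i y := fun x => by
      rw [← mul_sum, sum_comm]; simp only [mul_sum]
    simp only [e3, ← mul_sum, sub_mul, one_mul, sum_sub_distrib, ← sq]
    ring
  have hX' : Real.exp (-((n : ℝ) / 2) * ∑ i, (fun x => φ i x - S.m x i) ⬝ᵥ
      (P.H S.lam *ᵥ fun x => φ i x - S.m x i))
      = Real.exp (-((n : ℝ) / 2) * ∑ i, ∑ x, φ i x * φ i x) * Real.exp (n * S.X φ) := by
    rw [hX, Real.exp_add]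
  rw [fWeight, fWeight, Saddle.kappa, prod_div_distrib, prod_div_distrib, prod_const, card_univ,
    Fintype.card_fin, prod_const, card_univ, Fintype.card_fin]
  simp only [gWeight, ← Real.exp_sum]
  rw [← mul_sum, ← mul_sum, hX', div_pow]
  simp only [one_mulVec, dotProduct, Pi.zero_apply, sub_zero]
  field_simp

theorem fLaw_eq_withDensity (hn : 1 ≤ n) :
    fLaw n (P.H S.lam) S.m = (fLaw n 1 0).withDensity
      fun φ => ENNReal.ofReal (S.kappa * Real.exp (n * S.X φ)) := by
  rw [fLaw_eq hn S.posDef, fLaw_eq hn PosDef.one, ← withDensity_mul _ (by unfold fWeight; fun_prop)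
    (by unfold Saddle.X; fun_prop)]
  congr 1
  funext φ
  have hn' : (0 : ℝ) < n := by exact_mod_cast hn
  have h0 : 0 ≤ fWeight n (1 : Matrix ι ι ℝ) 0 φ := prod_nonneg fun i _ =>
    div_nonneg (gWeight_nonneg _) (gMass_pos hn' PosDef.one).le
  rw [Pi.mul_apply, ← ENNReal.ofReal_mul h0, ← S.weight_eq hn φ]

end Saddle

section Standard

theorem mom_one (hn : 1 ≤ n) : Mom n (1 : Matrix ι ι ℝ) 0 := ⟨hn, PosDef.one, fun x => by simp⟩

theorem radLaw_moments (hn : 1 ≤ n) (x : ι) [NeZero n] :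
    Integrable (fun r => r ^ 2) (radLaw n) ∧ ∫ r, r ^ 2 ∂radLaw n = 1 ∧
      Integrable (fun r => r) (radLaw n) ∧ 1 - 1024 / (n : ℝ) ≤ ∫ r, r ∂radLaw n ∧
      ∫ r, r ∂radLaw n ≤ 1 := by
  have h := mom_one (ι := ι) hn
  have := h.prob_fLaw
  have hmap : (fLaw n (1 : Matrix ι ι ℝ) 0).map (fun φ => rads φ x) = radLaw n := by
    have hp := (measurePreserving_polar (ι := ι) (n := n)).map_eq
    have : (fun φ : Fin n → ι → ℝ => rads φ x)
        = (fun p : Conf ι n × (ι → ℝ) => p.2 x) ∘ fun φ => (dirs φ, rads φ) := rfl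
    rw [this, ← Measure.map_map (by fun_prop) (by fun_prop), hp]
    exact ((measurePreserving_eval _ x).comp measurePreserving_snd).map_eq
  have hm : Measurable fun φ : Fin n → ι → ℝ => rads φ x := by fun_prop
  obtain ⟨p1, p2, p3, p4⟩ := h.pair_moments x x
  have hpp : ∀ φ : Fin n → ι → ℝ, pairA φ x x = rads φ x ^ 2 := fun φ => pairA_self φ x
  simp only [inv_one, one_apply_eq, Pi.zero_apply, mul_zero, sum_const_zero, add_zero, hpp]
    at p1 p2 p3 p4
  have hr : ∀ φ : Fin n → ι → ℝ, 0 ≤ rads φ x := fun φ => norm_nonneg _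
  have i1 : Integrable (fun φ => rads φ x) (fLaw n (1 : Matrix ι ι ℝ) 0) :=
    Integrable.mono' ((integrable_const (1 : ℝ)).add p1) (by fun_prop)
      (Filter.Eventually.of_forall fun φ => by
        rw [Real.norm_eq_abs, abs_of_nonneg (hr φ), Pi.add_apply]
        nlinarith [sq_nonneg (rads φ x - 1), hr φ])
  rw [← hmap, integrable_map_measure (by fun_prop) hm.aemeasurable,
    integral_map hm.aemeasurable (by fun_prop), integrable_map_measure (by fun_prop) hm.aemeasurable,
    integral_map hm.aemeasurable (by fun_prop)]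
  refine ⟨p1, p2, i1, ?_, ?_⟩
  · have hle : ∀ φ : Fin n → ι → ℝ,
        1 + (rads φ x ^ 2 - 1) / 2 - (rads φ x ^ 2 - 1) ^ 2 / 2 ≤ rads φ x := fun φ => by
      nlinarith [mul_nonneg (sq_nonneg (rads φ x - 1))
        (mul_nonneg (hr φ) (show 0 ≤ rads φ x + 2 by linarith [hr φ]))]
    have ha : Integrable (fun φ => 1 + (rads φ x ^ 2 - 1) / 2) (fLaw n (1 : Matrix ι ι ℝ) 0) :=
      (integrable_const 1).add ((p1.sub (integrable_const 1)).div_const 2)
    refine le_trans ?_ (integral_mono (ha.sub' (p3.div_const 2)) i1 hle)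
    rw [integral_sub ha (p3.div_const 2), integral_add (integrable_const _)
      ((p1.sub' (integrable_const 1)).div_const 2), integral_div, integral_div,
      integral_sub p1 (integrable_const _), p2]
    simp only [integral_const, probReal_univ, one_smul]
    linarith [show 1024 / (n : ℝ) = 2048 / n / 2 by ring]
  · refine (integral_mono i1 (((integrable_const (1 : ℝ)).add p1).div_const 2) fun φ => ?_).trans ?_
    · simp only [Pi.add_apply]; nlinarith [sq_nonneg (rads φ x - 1)]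
    · rw [integral_div, integral_add' (integrable_const _) p1, p2]
      simp

end Standard

section Bounds

variable [NeZero n] (S : Saddle P)

theorem measurable_X : Measurable S.X := by unfold Saddle.X; fun_prop

/-- The exponent as a function of directions and lengths. -/
def Saddle.Xr (S : Saddle P) (σ : Conf ι n) (r : ι → ℝ) : ℝ :=
  -(1 / 2) * ∑ x, (S.lam x - 1) * r x ^ 2
    + P.b / 2 * ∑ x, ∑ y, P.A x y * (r x * r y * dot (σ x) (σ y))
    + P.b * ∑ x, r x * P.fieldDot σ x - P.b / 2 * ∑ x, ∑ i, P.h x i * S.m x i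

theorem X_eq_Xr (φ : Fin n → ι → ℝ) : S.X φ = S.Xr (dirs φ) (rads φ) := by
  simp only [Saddle.X, Saddle.Xr, pairA_self, linA_eq]
  simp only [pairA_eq]

theorem Xr_integral_ge (hok : P.Ok) (hn : 1 ≤ n) (σ : Conf ι n) :
    Integrable (fun r => (n : ℝ) * S.Xr σ r) (Measure.pi fun _ : ι => radLaw n) ∧
      P.U σ - n * S.val - 8192 * P.b * Fintype.card ι
        ≤ ∫ r, (n : ℝ) * S.Xr σ r ∂Measure.pi fun _ : ι => radLaw n := by
  set R := Measure.pi fun _ : ι => radLaw n
  have hev : ∀ x, MeasurePreserving (Function.eval x) R (radLaw n) := fun x =>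
    measurePreserving_eval _ x
  have hsq : ∀ x, Integrable (fun r : ι → ℝ => r x ^ 2) R ∧ ∫ r, r x ^ 2 ∂R = 1 := fun x => by
    obtain ⟨a, b, -⟩ := radLaw_moments hn x
    refine ⟨(hev x).integrable_comp_of_integrable a, ?_⟩
    rw [← b, ← (hev x).map_eq, integral_map (hev x).measurable.aemeasurable (by fun_prop)]
  set μ₁ := ∫ r, r ∂radLaw n
  have hone : ∀ x, Integrable (fun r : ι → ℝ => r x) R ∧ ∫ r, r x ∂R = μ₁ := fun x => by
    obtain ⟨-, -, a, -⟩ := radLaw_moments hn x
    refine ⟨(hev x).integrable_comp_of_integrable a, ?_⟩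
    simp only [μ₁]
    rw [← (hev x).map_eq, integral_map (hev x).measurable.aemeasurable (by fun_prop)]
  have htwo : ∀ x y, Integrable (fun r : ι → ℝ => r x * r y) R ∧
      (x ≠ y → ∫ r, r x * r y ∂R = μ₁ ^ 2) := fun x y => by
    refine ⟨Integrable.mono' (((hsq x).1.add (hsq y).1)) (by fun_prop)
      (Filter.Eventually.of_forall fun r => ?_), fun hxy => ?_⟩
    · rw [Real.norm_eq_abs, Pi.add_apply, abs_le]
      constructor <;> nlinarith [sq_nonneg (r x - r y), sq_nonneg (r x + r y)]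
    · have e : ∀ r : ι → ℝ, r x * r y = ∏ z, if z = x ∨ z = y then r z else 1 := fun r => by
        rw [prod_ite]
        simp only [prod_const_one, mul_one]
        rw [show univ.filter (fun z => z = x ∨ z = y) = {x, y} by ext z; simp, prod_pair hxy]
      simp only [e]
      rw [integral_fintype_prod_eq_prod (fun z (t : ℝ) => if z = x ∨ z = y then t else 1)]
      rw [← mul_one (μ₁ ^ 2), sq]
      have e2 : ∀ z, (∫ t, (if z = x ∨ z = y then t else 1) ∂radLaw n)
          = if z = x ∨ z = y then μ₁ else 1 := fun z => by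
        split_ifs <;> simp [μ₁]
      simp only [e2]
      rw [prod_ite]
      simp only [prod_const_one, mul_one]
      rw [show univ.filter (fun z => z = x ∨ z = y) = {x, y} by ext z; simp, prod_pair hxy]
  have hnd : 0 ≤ (n : ℝ) := Nat.cast_nonneg n
  have hA : ∀ x y, ∫ r, P.A x y * (r x * r y * dot (σ x) (σ y)) ∂R
      = P.A x y * (μ₁ ^ 2 * dot (σ x) (σ y)) := fun x y => by
    rcases eq_or_ne x y with rfl | hxy
    · simp [hok.diag]
    · rw [integral_const_mul, integral_mul_const, (htwo x y).2 hxy]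
  have i1 : Integrable (fun r : ι → ℝ => ∑ x, (S.lam x - 1) * r x ^ 2) R :=
    integrable_finsetSum _ fun x _ => (hsq x).1.const_mul _
  have i2' : ∀ x y, Integrable (fun r : ι → ℝ => P.A x y * (r x * r y * dot (σ x) (σ y))) R :=
    fun x y => ((htwo x y).1.mul_const _).const_mul _
  have i2 : Integrable (fun r : ι → ℝ => ∑ x, ∑ y, P.A x y * (r x * r y * dot (σ x) (σ y))) R :=
    integrable_finsetSum _ fun x _ => integrable_finsetSum _ fun y _ => i2' x y
  have i3 : Integrable (fun r : ι → ℝ => ∑ x, r x * P.fieldDot σ x) R :=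
    integrable_finsetSum _ fun x _ => (hone x).1.mul_const _
  have j12 := (i1.const_mul (-(1 / 2))).fun_add (i2.const_mul (P.b / 2))
  have j123 := j12.fun_add (i3.const_mul P.b)
  have hint : Integrable (fun r => S.Xr σ r) R := j123.sub' (integrable_const _)
  refine ⟨hint.const_mul _, ?_⟩
  have hval : ∫ r, S.Xr σ r ∂R = -(1 / 2) * ∑ x, (S.lam x - 1)
      + μ₁ ^ 2 * (P.b / 2 * ∑ x, ∑ y, P.A x y * dot (σ x) (σ y))
      + μ₁ * (P.b * ∑ x, P.fieldDot σ x) - P.b / 2 * ∑ x, ∑ i, P.h x i * S.m x i := by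
    show ∫ r, (-(1 / 2) * ∑ x, (S.lam x - 1) * r x ^ 2
      + P.b / 2 * ∑ x, ∑ y, P.A x y * (r x * r y * dot (σ x) (σ y))
      + P.b * ∑ x, r x * P.fieldDot σ x - P.b / 2 * ∑ x, ∑ i, P.h x i * S.m x i) ∂R = _
    rw [integral_sub j123 (integrable_const _), integral_add j12 (i3.const_mul _),
      integral_add (i1.const_mul _) (i2.const_mul _), integral_const_mul, integral_const_mul,
      integral_const_mul, integral_finsetSum _ fun x _ => (hsq x).1.const_mul _,
      integral_finsetSum _ fun x _ => integrable_finsetSum _ fun y _ => i2' x y,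
      integral_finsetSum _ fun x _ => (hone x).1.mul_const _]
    simp only [integral_const_mul, integral_mul_const, (hsq _).2, (hone _).2, mul_one,
      integral_finsetSum _ fun y _ => i2' _ y, hA, ← mul_sum]
    simp only [integral_const, probReal_univ, one_smul]
    have e1 : ∀ x, ∑ y, P.A x y * (μ₁ ^ 2 * dot (σ x) (σ y))
        = μ₁ ^ 2 * ∑ y, P.A x y * dot (σ x) (σ y) := fun x => by
      rw [mul_sum]; exact sum_congr rfl fun y _ => by ring
    simp only [e1, ← mul_sum]
    ring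
  rw [integral_const_mul, hval, S.val_eq hok, Blk.U]
  rcases isEmpty_or_nonempty ι with h | ⟨⟨x₀⟩⟩
  · simp
  obtain ⟨-, -, -, m1, m2⟩ := radLaw_moments hn x₀
  have hn0 : (0 : ℝ) < n := by exact_mod_cast hn
  have hV : ∀ T : ℝ, ∀ w : ℝ, 0 ≤ w → |T| ≤ 4 * (Fintype.card ι : ℝ) →
      n * w * T ≤ n * w * (4 * Fintype.card ι) := fun T w hw hT =>
    mul_le_mul_of_nonneg_left ((le_abs_self T).trans hT) (mul_nonneg hnd hw)
  set T₁ := ∑ x, ∑ y, P.A x y * dot (σ x) (σ y)
  set T₂ := ∑ x, P.fieldDot σ x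
  have hT₁ : |T₁| ≤ 4 * (Fintype.card ι : ℝ) := by
    rw [abs_le]
    constructor
    · have := sum_weight_le hok zero_le_one (fun x y => -dot (σ x) (σ y))
        fun x y => by linarith [(abs_le.1 (abs_dot_le (σ x) (σ y))).1]
      simp only [mul_neg, sum_neg_distrib] at this
      linarith
    · exact (sum_weight_le hok zero_le_one (fun x y => dot (σ x) (σ y))
        fun x y => (abs_le.1 (abs_dot_le _ _)).2).trans (le_of_eq (by ring))
  have hT₂ : |T₂| ≤ 4 * (Fintype.card ι : ℝ) :=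
    (abs_sum_le_sum_abs _ _).trans ((sum_le_sum fun x _ => abs_fieldDot_le hok σ x).trans
      (le_of_eq (by rw [sum_const, card_univ, nsmul_eq_mul]; ring)))
  have hμ0 : 0 ≤ μ₁ := by
    refine integral_nonneg_of_ae ?_
    rw [radLaw]
    exact (ae_map_iff (by fun_prop) measurableSet_Ici).2 (Filter.Eventually.of_forall fun v => norm_nonneg v)
  have hnw : (n : ℝ) * (1 - μ₁) ≤ 1024 := by
    have := mul_le_mul_of_nonneg_left m1 hnd
    rw [mul_sub, mul_div_cancel₀ _ hn0.ne'] at this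
    linarith
  have hb := hok.b_pos.le
  have a1 := hV T₁ (P.b * (1 - μ₁ ^ 2) / 2)
    (div_nonneg (mul_nonneg hb (by nlinarith)) zero_le_two) hT₁
  have a2 := hV T₂ (P.b * (1 - μ₁)) (mul_nonneg hb (by linarith)) hT₂
  have hc : (0 : ℝ) ≤ Fintype.card ι := Nat.cast_nonneg _
  have hsq2 : (n : ℝ) * (1 - μ₁ ^ 2) ≤ 2048 := by nlinarith
  have a3 := mul_le_mul_of_nonneg_left hsq2 (mul_nonneg hb hc)
  have a4 := mul_le_mul_of_nonneg_left hnw (mul_nonneg hb hc)
  linarith

theorem dot_mean_ge (hok : P.Ok) (hn : 1 ≤ n) (x y : ι) :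
    S.G x y - 18432 / (n : ℝ) ≤ ∫ φ, dot (dirs φ x) (dirs φ y) ∂fLaw n (P.H S.lam) S.m := by
  have h := S.mom hn
  have := h.prob_fLaw
  obtain ⟨xy1, xy2, xy3, xy4⟩ := h.pair_moments x y
  obtain ⟨xx1, xx2, xx3, xx4⟩ := h.pair_moments x x
  obtain ⟨yy1, yy2, yy3, yy4⟩ := h.pair_moments y y
  simp only [S.G_eq, S.G_self, pairA_self] at xy2 xy3 xy4 xx1 xx2 xx3 xx4 yy1 yy2 yy3 yy4
  set G := S.G x y
  have hle : ∀ φ : Fin n → ι → ℝ,
      pairA φ x y - G / 2 * ((rads φ x ^ 2 - 1) + (rads φ y ^ 2 - 1))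
        - (pairA φ x y - G) ^ 2 / 2 - 17 / 4 * ((rads φ x ^ 2 - 1) ^ 2 + (rads φ y ^ 2 - 1) ^ 2)
        ≤ dot (dirs φ x) (dirs φ y) := fun φ => by
    rw [pairA_eq φ x y]
    set a := dot (dirs φ x) (dirs φ y)
    set r := rads φ x
    set r' := rads φ y
    have hL := length_product_le (r := r) (r' := r') (norm_nonneg _) (norm_nonneg _)
    set c := 1 - r * r' * (1 - ((r ^ 2 - 1) + (r' ^ 2 - 1)) / 2) with hc
    have h1 : -(4 * ((r ^ 2 - 1) ^ 2 + (r' ^ 2 - 1) ^ 2)) ≤ a * c := by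
      have : |a * c| ≤ 1 * (4 * ((r ^ 2 - 1) ^ 2 + (r' ^ 2 - 1) ^ 2)) := by
        rw [abs_mul]; exact mul_le_mul (abs_dot_le _ _) hL (abs_nonneg _) zero_le_one
      linarith [(abs_le.1 this).1]
    have e : a * c = a - r * r' * a + (r * r' * a - G) * (((r ^ 2 - 1) + (r' ^ 2 - 1)) / 2)
        + G / 2 * ((r ^ 2 - 1) + (r' ^ 2 - 1)) := by rw [hc]; ring
    nlinarith [sq_nonneg ((r * r' * a - G) - ((r ^ 2 - 1) + (r' ^ 2 - 1)) / 2),
      sq_nonneg ((r ^ 2 - 1) - (r' ^ 2 - 1))]
  have ha := (xx1.sub' (integrable_const 1)).fun_add (yy1.sub' (integrable_const 1))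
  have hb := xy1.sub' (ha.const_mul (G / 2))
  have hc := hb.sub' (xy3.div_const 2)
  have hd := hc.sub' ((xx3.fun_add yy3).const_mul (17 / 4))
  have hdot : Integrable (fun φ => dot (dirs φ x) (dirs φ y)) (fLaw n (P.H S.lam) S.m) :=
    Integrable.of_bound ((show Measurable fun φ : Fin n → ι → ℝ => dot (dirs φ x) (dirs φ y) from
      (show Continuous fun σ : Conf ι n => dot (σ x) (σ y) by fun_prop).measurable.comp
        measurable_dirs).aestronglyMeasurable) 1
      (Filter.Eventually.of_forall fun φ => abs_dot_le _ _)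
  refine le_trans ?_ (integral_mono hd hdot hle)
  rw [integral_sub hc ((xx3.fun_add yy3).const_mul _), integral_sub hb (xy3.div_const 2),
    integral_sub xy1 (ha.const_mul _), integral_const_mul, integral_const_mul, integral_div,
    integral_add (xx1.sub' (integrable_const 1)) (yy1.sub' (integrable_const 1)),
    integral_sub xx1 (integrable_const 1), integral_sub yy1 (integrable_const 1),
    integral_add xx3 yy3, xy2, xx2, yy2]
  simp only [integral_const, probReal_univ, one_smul, sub_self, add_zero, mul_zero, sub_zero]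
  linarith [show 18432 / (n : ℝ) = 2048 / n / 2 + 17 / 4 * (2048 / n + 2048 / n) by ring]

theorem field_mean_ge (hok : P.Ok) (hn : 1 ≤ n) (x : ι) :
    ∑ i, P.h x i * S.m x i - 33792 / (n : ℝ)
      ≤ ∫ φ, P.fieldDot (dirs φ) x ∂fLaw n (P.H S.lam) S.m := by
  have h := S.mom hn
  have := h.prob_fLaw
  obtain ⟨l1, l2, l3, l4⟩ := h.lin_moments x (P.h x) (hok.field x)
  obtain ⟨xx1, xx2, xx3, xx4⟩ := h.pair_moments x x
  simp only [S.G_eq, S.G_self, pairA_self] at xx1 xx2 xx3 xx4
  set G := ∑ i, P.h x i * S.m x i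
  have hle : ∀ φ : Fin n → ι → ℝ, linA (P.h x) φ x - G / 2 * (rads φ x ^ 2 - 1)
        - (linA (P.h x) φ x - G) ^ 2 / 4 - 65 / 4 * (rads φ x ^ 2 - 1) ^ 2
        ≤ P.fieldDot (dirs φ) x := fun φ => by
    rw [linA_eq φ x]
    set a := P.fieldDot (dirs φ) x
    set r := rads φ x
    have hL := length_product_le (r := r) (r' := 1) (norm_nonneg _) zero_le_one
    rw [show ((1 : ℝ) ^ 2 - 1) = 0 by norm_num, add_zero, mul_one, zero_pow two_ne_zero,
      add_zero] at hL
    set c := 1 - r * (1 - (r ^ 2 - 1) / 2) with hc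
    have h1 : -(16 * (r ^ 2 - 1) ^ 2) ≤ a * c := by
      have : |a * c| ≤ 4 * (4 * (r ^ 2 - 1) ^ 2) := by
        rw [abs_mul]; exact mul_le_mul (abs_fieldDot_le hok _ x) hL (abs_nonneg _) (by norm_num)
      linarith [(abs_le.1 this).1]
    have e : a * c = a - r * a + (r * a - G) * ((r ^ 2 - 1) / 2) + G / 2 * (r ^ 2 - 1) := by
      rw [hc]; ring
    nlinarith [sq_nonneg ((r * a - G) - (r ^ 2 - 1))]
  have ha := xx1.sub' (integrable_const 1)
  have hb := l1.sub' (ha.const_mul (G / 2))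
  have hc := hb.sub' (l3.div_const 4)
  have hd := hc.sub' (xx3.const_mul (65 / 4))
  have hdot : Integrable (fun φ => P.fieldDot (dirs φ) x) (fLaw n (P.H S.lam) S.m) :=
    Integrable.of_bound ((show Measurable fun φ : Fin n → ι → ℝ => P.fieldDot (dirs φ) x from
      (continuous_fieldDot x).measurable.comp measurable_dirs).aestronglyMeasurable) 4
      (Filter.Eventually.of_forall fun φ => abs_fieldDot_le hok _ x)
  refine le_trans ?_ (integral_mono hd hdot hle)
  rw [integral_sub hc (xx3.const_mul _), integral_sub hb (l3.div_const 4),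
    integral_sub l1 (ha.const_mul _), integral_const_mul, integral_const_mul, integral_div,
    integral_sub xx1 (integrable_const 1), l2, xx2]
  simp only [integral_const, probReal_univ, one_smul, sub_self, mul_zero, sub_zero]
  linarith [show 33792 / (n : ℝ) = 2048 / n / 4 + 65 / 4 * (2048 / n) by ring]

end Bounds

end Vale.Agent.P163.Gap
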