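import Mathlib.Probability.Moments.Basic

/-!
# Random variables with a sub-Gaussian Laplace transform near the origin
-/

noncomputable section

namespace Vale.Agent.P163.Gap

open MeasureTheory

variable {Ω : Type} {mΩ : MeasurableSpace Ω} {P : Measure Ω}

/-- The Laplace transform of `D` is at most `exp (v u²)` for `|u| ≤ r`. -/
def Tame (P : Measure Ω) (D : Ω → ℝ) (v r : ℝ) : Prop :=
  ∀ u : ℝ, |u| ≤ r →
    Integrable (fun ω => Real.exp (u * D ω)) P ∧ ∫ ω, Real.exp (u * D ω) ∂P ≤ Real.exp (v * u ^ 2)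

variable {D E : Ω → ℝ} {v r : ℝ}

theorem Tame.mono (h : Tame P D v r) {v' r' : ℝ} (hv : v ≤ v') (hr : r' ≤ r) : Tame P D v' r' :=
  fun u hu => ⟨(h u (hu.trans hr)).1, (h u (hu.trans hr)).2.trans
    (Real.exp_le_exp.2 (mul_le_mul_of_nonneg_right hv (sq_nonneg u)))⟩

theorem Tame.congr (h : Tame P D v r) (he : ∀ ω, E ω = D ω) : Tame P E v r := by
  have : E = D := funext he
  rw [this]; exact h

theorem Tame.const_mul (h : Tame P D v r) (c : ℝ) {r' : ℝ} (hr : |c| * r' ≤ r) :
    Tame P (fun ω => c * D ω) (c ^ 2 * v) r' := by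
  intro u hu
  have h' := h (u * c) (by
    rw [abs_mul, mul_comm]
    exact (mul_le_mul_of_nonneg_left hu (abs_nonneg c)).trans hr)
  simp only [← mul_assoc]
  exact ⟨h'.1, h'.2.trans (le_of_eq (by ring_nf))⟩

theorem Tame.neg (h : Tame P D v r) : Tame P (fun ω => -D ω) v r := by
  refine fun u hu => ?_
  have h' := h (-u) (by rwa [abs_neg])
  simpa [neg_mul, mul_neg, neg_sq] using h'

theorem Tame.add (hD : Tame P D v r) (hE : Tame P E v r)
    (hm : AEStronglyMeasurable (fun ω => D ω + E ω) P) :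
    Tame P (fun ω => D ω + E ω) (4 * v) (r / 2) := by
  intro u hu
  have h2 : |2 * u| ≤ r := by rw [abs_mul, abs_two]; linarith
  obtain ⟨a1, a2⟩ := hD (2 * u) h2
  obtain ⟨b1, b2⟩ := hE (2 * u) h2
  have hle : ∀ ω, Real.exp (u * (D ω + E ω))
      ≤ (Real.exp (2 * u * D ω) + Real.exp (2 * u * E ω)) / 2 := fun ω => by
    have h := sq_nonneg (Real.exp (u * D ω) - Real.exp (u * E ω))
    rw [mul_add, Real.exp_add, mul_assoc 2, mul_assoc 2, two_mul (u * D ω), two_mul (u * E ω),
      Real.exp_add, Real.exp_add]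
    nlinarith
  have hi : Integrable (fun ω => Real.exp (u * (D ω + E ω))) P := by
    refine Integrable.mono' ((a1.add b1).div_const 2)
      (Real.continuous_exp.comp_aestronglyMeasurable (hm.const_mul u))
      (Filter.Eventually.of_forall fun ω => ?_)
    rw [Real.norm_eq_abs, Real.abs_exp]
    exact hle ω
  refine ⟨hi, (integral_mono hi ((a1.add b1).div_const 2) hle).trans ?_⟩
  rw [integral_div, integral_add' a1 b1]
  have e : v * (2 * u) ^ 2 = 4 * v * u ^ 2 := by ring
  rw [e] at a2 b2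
  linarith

theorem Tame.integrable (h : Tame P D v r) (hr : 0 < r) (hm : AEStronglyMeasurable D P) :
    Integrable D P := by
  obtain ⟨a, -⟩ := h r (by rw [abs_of_pos hr])
  obtain ⟨b, -⟩ := h (-r) (by rw [abs_neg, abs_of_pos hr])
  refine Integrable.mono' ((a.add b).div_const r) hm (Filter.Eventually.of_forall fun ω => ?_)
  rw [Real.norm_eq_abs, Pi.add_apply, le_div_iff₀ hr]
  have ha := Real.add_one_le_exp (r * D ω)
  have hb := Real.add_one_le_exp (-r * D ω)
  have := Real.exp_nonneg (r * D ω)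
  have := Real.exp_nonneg (-r * D ω)
  rcases abs_cases (D ω) with ⟨e, _⟩ | ⟨e, _⟩ <;> rw [e] <;> nlinarith

theorem Tame.integral_nonpos [IsProbabilityMeasure P] (h : Tame P D v r) (hr : 0 < r) (hv : 0 < v)
    (hm : AEStronglyMeasurable D P) : ∫ ω, D ω ∂P ≤ 0 := by
  by_contra hc
  push Not at hc
  set M := ∫ ω, D ω ∂P
  set u := min r (min (M / (4 * v)) (1 / (1 + v)))
  have hu : 0 < u := lt_min hr (lt_min (by positivity) (by positivity))
  obtain ⟨a1, a2⟩ := h u (by rw [abs_of_pos hu]; exact min_le_left _ _)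
  have h1 : u * M + 1 ≤ ∫ ω, Real.exp (u * D ω) ∂P := by
    have hD := h.integrable hr hm
    calc u * M + 1 = ∫ ω, (u * D ω + 1) ∂P := by
          rw [integral_add (hD.const_mul u) (integrable_const _), integral_const_mul]; simp [M]
      _ ≤ _ := integral_mono ((hD.const_mul u).add (integrable_const _)) a1
          fun ω => Real.add_one_le_exp _
  have h2 : v * u ^ 2 ≤ 1 := by
    have h3 : u ≤ 1 / (1 + v) := (min_le_right _ _).trans (min_le_right _ _)
    rw [le_div_iff₀ (by linarith)] at h3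
    nlinarith
  have h3 : Real.exp (v * u ^ 2) ≤ 1 + 2 * (v * u ^ 2) := by
    have := Real.abs_exp_sub_one_le (x := v * u ^ 2) (by rw [abs_of_nonneg (by positivity)]; exact h2)
    rw [abs_of_nonneg (by positivity : (0:ℝ) ≤ v * u ^ 2)] at this
    linarith [le_abs_self (Real.exp (v * u ^ 2) - 1)]
  have h4 : u ≤ M / (4 * v) := (min_le_right _ _).trans (min_le_left _ _)
  rw [le_div_iff₀ (by positivity)] at h4
  have h5 := mul_le_mul_of_nonneg_left h4 hu.le
  nlinarith [mul_pos hu hc]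

theorem Tame.integral_eq_zero [IsProbabilityMeasure P] (h : Tame P D v r) (hr : 0 < r) (hv : 0 < v)
    (hm : AEStronglyMeasurable D P) : ∫ ω, D ω ∂P = 0 := by
  have a := h.integral_nonpos hr hv hm
  have b := h.neg.integral_nonpos hr hv hm.neg
  rw [integral_neg] at b
  linarith

theorem Tame.sq_bound (h : Tame P D v r) {u : ℝ} (hu : 0 < u) (hur : u ≤ r)
    (hvu : v * u ^ 2 ≤ 1 / 4) (hm : AEStronglyMeasurable D P) :
    Integrable (fun ω => D ω ^ 2) P ∧ ∫ ω, D ω ^ 2 ∂P ≤ 8 / u ^ 2 := by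
  obtain ⟨a1, a2⟩ := h u (by rwa [abs_of_pos hu])
  obtain ⟨b1, b2⟩ := h (-u) (by rwa [abs_neg, abs_of_pos hu])
  rw [neg_sq] at b2
  have hle : ∀ ω, D ω ^ 2 ≤ 2 * (Real.exp (u * D ω) + Real.exp (-u * D ω)) / u ^ 2 := fun ω => by
    rw [le_div_iff₀ (by positivity)]
    rcases le_total 0 (u * D ω) with hp | hn
    · have := Real.quadratic_le_exp_of_nonneg hp
      have := Real.add_one_le_exp (-u * D ω)
      nlinarith
    · have := Real.quadratic_le_exp_of_nonneg (show 0 ≤ -u * D ω by linarith)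
      have := Real.add_one_le_exp (u * D ω)
      nlinarith
  have hi : Integrable (fun ω => D ω ^ 2) P := by
    refine Integrable.mono' (((a1.add b1).const_mul 2).div_const (u ^ 2)) (hm.pow 2)
      (Filter.Eventually.of_forall fun ω => ?_)
    rw [Real.norm_eq_abs, abs_of_nonneg (sq_nonneg _)]
    exact hle ω
  refine ⟨hi, (integral_mono hi (((a1.add b1).const_mul 2).div_const _) hle).trans ?_⟩
  rw [integral_div, integral_const_mul, integral_add' a1 b1]
  refine div_le_div_of_nonneg_right ?_ (sq_nonneg u)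
  have : Real.exp (v * u ^ 2) ≤ 2 := by
    refine (Real.exp_le_exp.2 hvu).trans ?_
    have := Real.exp_bound' (x := 1 / 4) (by norm_num) (by norm_num) (n := 1) one_pos
    norm_num at this ⊢
    linarith
  linarith

theorem Tame.tail [IsFiniteMeasure P] (h : Tame P D v r) {u η : ℝ} (hu : 0 ≤ u) (hur : u ≤ r) :
    P.real {ω | η ≤ D ω} ≤ Real.exp (v * u ^ 2 - u * η) := by
  obtain ⟨a1, a2⟩ := h u (by rwa [abs_of_nonneg hu])
  refine (ProbabilityTheory.measure_ge_le_exp_mul_mgf η hu a1).trans ?_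
  rw [ProbabilityTheory.mgf]
  refine (mul_le_mul_of_nonneg_left a2 (Real.exp_nonneg _)).trans (le_of_eq ?_)
  rw [← Real.exp_add]
  congr 1
  ring

theorem Tame.tail_abs [IsFiniteMeasure P] (h : Tame P D v r) {u η : ℝ} (hu : 0 ≤ u)
    (hur : u ≤ r) : P.real {ω | η ≤ |D ω|} ≤ 2 * Real.exp (v * u ^ 2 - u * η) := by
  have e : {ω | η ≤ |D ω|} = {ω | η ≤ D ω} ∪ {ω | η ≤ -D ω} := by
    ext ω; simp only [Set.mem_ofPred_eq, Set.mem_union]; exact le_abs
  rw [e]
  refine (measureReal_union_le _ _).trans ?_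
  linarith [h.tail (η := η) hu hur, h.neg.tail (η := η) hu hur]

end Vale.Agent.P163.Gap
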