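import Vale.Agent.P163.Gap.GaussVec
import Vale.Agent.P163.Gap.Tame

/-!
# Gaussian fields with `n` independent components and unit second moment
-/

noncomputable section

namespace Vale.Agent.P163.Gap

open MeasureTheory Matrix Finset

set_option linter.unusedSectionVars false

variable {ι : Type} [Fintype ι] [DecidableEq ι] {n : ℕ}

/-- `n` independent centred components. -/
def cLaw (n : ℕ) (H : Matrix ι ι ℝ) : Measure (Fin n → ι → ℝ) :=
  Measure.pi fun _ => gLaw (n : ℝ) H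

/-- Adding the means. -/
def shift (m : ι → Fin n → ℝ) (g : Fin n → ι → ℝ) : Fin n → ι → ℝ := fun i x => g i x + m x i

/-- The field with means `m`. -/
def fLaw (n : ℕ) (H : Matrix ι ι ℝ) (m : ι → Fin n → ℝ) : Measure (Fin n → ι → ℝ) :=
  (cLaw n H).map (shift m)

/-- The scalar product of the spins at two sites. -/
def pairA (φ : Fin n → ι → ℝ) (x y : ι) : ℝ := ∑ i, φ i x * φ i y

/-- The scalar product with a fixed vector at a site. -/
def linA (c : Fin n → ℝ) (φ : Fin n → ι → ℝ) (x : ι) : ℝ := ∑ i, c i * φ i x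

/-- A field whose second moment matrix has unit diagonal. -/
structure Mom (n : ℕ) (H : Matrix ι ι ℝ) (m : ι → Fin n → ℝ) : Prop where
  pos : 1 ≤ n
  posDef : H.PosDef
  diag : ∀ x, H⁻¹ x x + ∑ i, m x i ^ 2 = 1

variable {H : Matrix ι ι ℝ} {m : ι → Fin n → ℝ}

@[fun_prop]
theorem measurable_shift : Measurable (shift (n := n) m) := by unfold shift; fun_prop

@[fun_prop]
theorem measurable_pairA (x y : ι) : Measurable fun φ : Fin n → ι → ℝ => pairA φ x y := by
  unfold pairA; fun_prop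

@[fun_prop]
theorem measurable_linA (c : Fin n → ℝ) (x : ι) :
    Measurable fun φ : Fin n → ι → ℝ => linA c φ x := by unfold linA; fun_prop

namespace Mom

theorem cast_pos (h : Mom n H m) : (0 : ℝ) < n := by exact_mod_cast h.pos

theorem sigmaFinite (h : Mom n H m) : IsProbabilityMeasure (gLaw (n : ℝ) H) :=
  isProbability_gLaw h.cast_pos h.posDef

theorem prob_cLaw (h : Mom n H m) : IsProbabilityMeasure (cLaw n H) := by
  have := h.sigmaFinite
  unfold cLaw; infer_instance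

theorem prob_fLaw (h : Mom n H m) : IsProbabilityMeasure (fLaw n H m) := by
  have := h.prob_cLaw
  exact Measure.isProbabilityMeasure_map measurable_shift.aemeasurable

theorem inv_diag_le (h : Mom n H m) (x : ι) : H⁻¹ x x ≤ 1 := by
  linarith [h.diag x, sum_nonneg (fun i (_ : i ∈ univ) => sq_nonneg (m x i))]

theorem sum_sq_le (h : Mom n H m) (x : ι) : ∑ i, m x i ^ 2 ≤ 1 := by
  linarith [h.diag x, h.posDef.inv.diag_pos (i := x)]

theorem quad_two (h : Mom n H m) (x y : ι) (a c : ℝ) :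
    (Pi.single x a + Pi.single y c : ι → ℝ) ⬝ᵥ (H⁻¹ *ᵥ (Pi.single x a + Pi.single y c))
      = a ^ 2 * H⁻¹ x x + 2 * a * c * H⁻¹ x y + c ^ 2 * H⁻¹ y y := by
  have hs : H⁻¹ y x = H⁻¹ x y := by
    conv_lhs => rw [← posDef_isSymm h.posDef.inv]
    rfl
  simp only [mulVec_add, add_dotProduct, dotProduct_add, single_dotProduct, mulVec_single,
    Pi.smul_apply, Matrix.col_apply, op_smul_eq_smul, smul_eq_mul, hs]
  ring

theorem abs_inv_le (h : Mom n H m) (x y : ι) : |H⁻¹ x y| ≤ 1 := by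
  have h1 := quad_nonneg h.posDef.inv (Pi.single x 1 + Pi.single y 1)
  have h2 := quad_nonneg h.posDef.inv (Pi.single x 1 + Pi.single y (-1))
  rw [h.quad_two] at h1 h2
  rw [abs_le]
  constructor <;> linarith [h.inv_diag_le x, h.inv_diag_le y]

theorem quad_two_le (h : Mom n H m) (x y : ι) (a c : ℝ) :
    (Pi.single x a + Pi.single y c : ι → ℝ) ⬝ᵥ (H⁻¹ *ᵥ (Pi.single x a + Pi.single y c))
      ≤ 2 * a ^ 2 + 2 * c ^ 2 := by
  rw [h.quad_two]
  have h1 := mul_le_mul_of_nonneg_left (h.inv_diag_le x) (sq_nonneg a)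
  have h2 := mul_le_mul_of_nonneg_left (h.inv_diag_le y) (sq_nonneg c)
  have h3 : 2 * a * c * H⁻¹ x y ≤ 2 * |a * c| := by
    calc 2 * a * c * H⁻¹ x y ≤ |2 * a * c * H⁻¹ x y| := le_abs_self _
      _ = 2 * |a * c| * |H⁻¹ x y| := by rw [abs_mul, mul_assoc 2, abs_mul 2, abs_two]
      _ ≤ 2 * |a * c| * 1 := mul_le_mul_of_nonneg_left (h.abs_inv_le x y) (by positivity)
      _ = _ := mul_one _
  have h4 : 2 * |a * c| ≤ a ^ 2 + c ^ 2 := by
    rw [abs_mul, ← sq_abs a, ← sq_abs c]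
    nlinarith [sq_nonneg (|a| - |c|)]
  linarith

theorem tame_linear (h : Mom n H m) (W : Fin n → ι → ℝ) {q : ℝ}
    (hq : ∑ i, W i ⬝ᵥ (H⁻¹ *ᵥ W i) ≤ q) (r : ℝ) :
    Tame (cLaw n H) (fun g => ∑ i, W i ⬝ᵥ g i) (q / (2 * n)) r := by
  have := h.sigmaFinite
  intro u _
  have e : ∀ g : Fin n → ι → ℝ,
      Real.exp (u * ∑ i, W i ⬝ᵥ g i) = ∏ i, Real.exp ((u • W i) ⬝ᵥ g i) := fun g => by
    rw [mul_sum, Real.exp_sum]
    simp [smul_dotProduct]
  simp only [e]
  refine ⟨Integrable.fintype_prod fun i => integrable_exp_linear h.cast_pos h.posDef (u • W i), ?_⟩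
  rw [cLaw, integral_fintype_prod_eq_prod (fun i v => Real.exp ((u • W i) ⬝ᵥ v))]
  simp only [integral_exp_linear h.cast_pos h.posDef]
  rw [← Real.exp_sum]
  refine Real.exp_le_exp.2 ?_
  simp only [mulVec_smul, smul_dotProduct, dotProduct_smul, smul_eq_mul]
  have hn := h.cast_pos
  calc ∑ i, u * (u * (W i ⬝ᵥ (H⁻¹ *ᵥ W i))) / (2 * (n : ℝ))
      = u ^ 2 / (2 * n) * ∑ i, W i ⬝ᵥ (H⁻¹ *ᵥ W i) := by
        rw [mul_sum]; refine sum_congr rfl fun i _ => ?_; ring
    _ ≤ u ^ 2 / (2 * n) * q := mul_le_mul_of_nonneg_left hq (by positivity)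
    _ = _ := by ring

theorem tame_square (h : Mom n H m) (w : ι → ℝ) (hw : w ⬝ᵥ (H⁻¹ *ᵥ w) ≤ 4) :
    Tame (cLaw n H) (fun g => ∑ i, ((w ⬝ᵥ g i) ^ 2 - w ⬝ᵥ (H⁻¹ *ᵥ w) / n)) (32 / n) (n / 16) := by
  have := h.sigmaFinite
  have hn := h.cast_pos
  intro u hu
  set Q := w ⬝ᵥ (H⁻¹ *ᵥ w)
  have hQ : 0 ≤ Q := quad_nonneg h.posDef.inv w
  have ha : |u * (Q / n)| ≤ 1 / 4 := by
    rw [abs_mul, abs_of_nonneg (div_nonneg hQ hn.le)]
    calc |u| * (Q / n) ≤ (n / 16) * (4 / n) :=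
          mul_le_mul hu (div_le_div_of_nonneg_right hw hn.le) (by positivity) (by positivity)
      _ = _ := by field_simp; norm_num
  obtain ⟨h1, h2⟩ := exp_sq_gLaw hn h.posDef w ha
  have e : ∀ g : Fin n → ι → ℝ, Real.exp (u * ∑ i, ((w ⬝ᵥ g i) ^ 2 - Q / n))
      = ∏ i : Fin n, Real.exp (-(u * (Q / n))) * Real.exp (u * (w ⬝ᵥ g i) ^ 2) := fun g => by
    rw [mul_sum, Real.exp_sum]
    refine prod_congr rfl fun i _ => ?_
    rw [← Real.exp_add]; ring_nf
  simp only [e]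
  refine ⟨Integrable.fintype_prod fun _ => h1.const_mul _, ?_⟩
  rw [cLaw, integral_fintype_prod_eq_prod
    (fun (_ : Fin n) v => Real.exp (-(u * (Q / n))) * Real.exp (u * (w ⬝ᵥ v) ^ 2))]
  calc ∏ _i : Fin n, ∫ v, Real.exp (-(u * (Q / n))) * Real.exp (u * (w ⬝ᵥ v) ^ 2) ∂gLaw (n : ℝ) H
      ≤ ∏ _i : Fin n, Real.exp (2 * u ^ 2 * (4 / (n : ℝ)) ^ 2) := by
        refine prod_le_prod (fun i _ => integral_nonneg fun v => by positivity) fun i _ => ?_
        rw [integral_const_mul]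
        refine (mul_le_mul_of_nonneg_left h2 (Real.exp_nonneg _)).trans ?_
        rw [← Real.exp_add]
        refine Real.exp_le_exp.2 ?_
        have : (Q / n) ^ 2 ≤ (4 / (n : ℝ)) ^ 2 :=
          pow_le_pow_left₀ (by positivity) (div_le_div_of_nonneg_right hw hn.le) 2
        have := mul_le_mul_of_nonneg_left this (by positivity : 0 ≤ 2 * u ^ 2)
        linarith
    _ = Real.exp (32 / n * u ^ 2) := by
        rw [prod_const, card_univ, Fintype.card_fin, ← Real.exp_nat_mul]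
        congr 1
        field_simp
        ring

theorem tame_map (_h : Mom n H m) {D : (Fin n → ι → ℝ) → ℝ} (hD : Measurable D) {v r : ℝ}
    (hT : Tame (cLaw n H) (fun g => D (shift m g)) v r) : Tame (fLaw n H m) D v r := by
  intro u hu
  obtain ⟨a, b⟩ := hT u hu
  refine ⟨(integrable_map_measure (by fun_prop) measurable_shift.aemeasurable).2 a, ?_⟩
  rwa [fLaw, integral_map measurable_shift.aemeasurable (by fun_prop)]

theorem tame_lin (h : Mom n H m) (x : ι) (c : Fin n → ℝ) (hc : ∑ i, c i ^ 2 ≤ 16) :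
    Tame (fLaw n H m) (fun φ => linA c φ x - ∑ i, c i * m x i) (8 / n) (n / 16) := by
  refine h.tame_map (by fun_prop) ?_
  refine ((h.tame_linear (fun i => Pi.single x (c i)) (q := 16) ?_ _).mono (le_of_eq ?_) le_rfl).congr
    fun g => ?_
  · refine le_trans (sum_le_sum fun i _ => ?_) hc
    simp only [single_dotProduct, mulVec_single, Pi.smul_apply, Matrix.col_apply,
      op_smul_eq_smul, smul_eq_mul]
    calc c i * (c i * H⁻¹ x x) = c i ^ 2 * H⁻¹ x x := by ring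
      _ ≤ c i ^ 2 * 1 := mul_le_mul_of_nonneg_left (h.inv_diag_le x) (sq_nonneg _)
      _ = _ := mul_one _
  · ring
  · simp [linA, shift, single_dotProduct, mul_add, sum_add_distrib]

theorem pair_split (h : Mom n H m) (x y : ι) (g : Fin n → ι → ℝ) :
    pairA (shift m g) x y - (H⁻¹ x y + ∑ i, m x i * m y i)
      = (∑ i, (Pi.single x (m y i) + Pi.single y (m x i) : ι → ℝ) ⬝ᵥ g i)
        + (1 / 4 * (∑ i, (((Pi.single x 1 + Pi.single y 1 : ι → ℝ) ⬝ᵥ g i) ^ 2
              - (Pi.single x 1 + Pi.single y 1 : ι → ℝ) ⬝ᵥ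
                (H⁻¹ *ᵥ (Pi.single x 1 + Pi.single y 1)) / n))
          + -1 / 4 * (∑ i, (((Pi.single x 1 + Pi.single y (-1) : ι → ℝ) ⬝ᵥ g i) ^ 2
              - (Pi.single x 1 + Pi.single y (-1) : ι → ℝ) ⬝ᵥ
                (H⁻¹ *ᵥ (Pi.single x 1 + Pi.single y (-1))) / n))) := by
  have hn := h.cast_pos.ne'
  simp only [h.quad_two, add_dotProduct, single_dotProduct]
  have e : ∀ i, m y i * g i x + m x i * g i y
      + (1 / 4 * ((1 * g i x + 1 * g i y) ^ 2
          - (1 ^ 2 * H⁻¹ x x + 2 * 1 * 1 * H⁻¹ x y + 1 ^ 2 * H⁻¹ y y) / n)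
        + -1 / 4 * ((1 * g i x + -1 * g i y) ^ 2
          - (1 ^ 2 * H⁻¹ x x + 2 * 1 * -1 * H⁻¹ x y + (-1) ^ 2 * H⁻¹ y y) / n))
      = (g i x + m x i) * (g i y + m y i) - m x i * m y i - H⁻¹ x y / n := fun i => by
    ring
  rw [mul_sum, mul_sum, ← sum_add_distrib, ← sum_add_distrib, sum_congr rfl fun i _ => e i,
    sum_sub_distrib, sum_sub_distrib, sum_const, card_univ, Fintype.card_fin, nsmul_eq_mul,
    mul_div_cancel₀ _ hn]
  simp only [pairA, shift]
  ring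

theorem tame_pair (h : Mom n H m) (x y : ι) :
    Tame (fLaw n H m) (fun φ => pairA φ x y - (H⁻¹ x y + ∑ i, m x i * m y i)) (32 / n) (n / 16) := by
  have hn := h.cast_pos
  refine h.tame_map (by fun_prop) ?_
  set W : Fin n → ι → ℝ := fun i => Pi.single x (m y i) + Pi.single y (m x i) with hW
  have hq : ∑ i, W i ⬝ᵥ (H⁻¹ *ᵥ W i) ≤ 4 := by
    calc ∑ i, W i ⬝ᵥ (H⁻¹ *ᵥ W i) ≤ ∑ i, (2 * m y i ^ 2 + 2 * m x i ^ 2) :=
          sum_le_sum fun i _ => h.quad_two_le x y (m y i) (m x i)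
      _ = 2 * ∑ i, m y i ^ 2 + 2 * ∑ i, m x i ^ 2 := by rw [sum_add_distrib, mul_sum, mul_sum]
      _ ≤ 4 := by linarith [h.sum_sq_le x, h.sum_sq_le y]
  have hc : (4 : ℝ) / (2 * n) ≤ 8 / n := by
    rw [div_le_div_iff₀ (by positivity) hn]; linarith
  have hL := (h.tame_linear W hq ((n : ℝ) / 8)).mono hc (le_refl _)
  have hw : ∀ c : ℝ, c ^ 2 = 1 →
      (Pi.single x 1 + Pi.single y c : ι → ℝ) ⬝ᵥ (H⁻¹ *ᵥ (Pi.single x 1 + Pi.single y c)) ≤ 4 :=
    fun c hc => (h.quad_two_le x y 1 c).trans (by rw [hc]; norm_num)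
  have hr : ∀ {c : ℝ}, |c| = 1 / 4 → |c| * ((n : ℝ) / 4) ≤ n / 16 := fun hc => by
    rw [hc]; exact le_of_eq (by ring)
  have hP := (h.tame_square _ (hw 1 (by norm_num))).const_mul (1 / 4) (hr (by norm_num))
  have hM := (h.tame_square _ (hw (-1) (by norm_num))).const_mul (-1 / 4)
    (hr (by norm_num [abs_div]))
  have hQ := (hP.mono (show (1 / 4 : ℝ) ^ 2 * (32 / n) ≤ 2 / n from le_of_eq (by ring)) le_rfl).add
    (hM.mono (show (-1 / 4 : ℝ) ^ 2 * (32 / n) ≤ 2 / n from le_of_eq (by ring)) le_rfl)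
    (by fun_prop)
  have hQ' := hQ.mono (show (4 : ℝ) * (2 / n) ≤ 8 / n from le_of_eq (by ring))
    (show (n : ℝ) / 8 ≤ n / 4 / 2 by linarith)
  have hT := hL.add hQ' (by fun_prop)
  refine (hT.mono (show (4 : ℝ) * (8 / n) ≤ 32 / n from le_of_eq (by ring))
    (show (n : ℝ) / 16 ≤ n / 8 / 2 by linarith)).congr fun g => ?_
  rw [h.pair_split x y g]

theorem exists_u (h : Mom n H m) : 0 < Real.sqrt n / 16 ∧ Real.sqrt n / 16 ≤ (n : ℝ) / 16
    ∧ 32 / (n : ℝ) * (Real.sqrt n / 16) ^ 2 ≤ 1 / 4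
    ∧ 8 / (Real.sqrt n / 16) ^ 2 = 2048 / (n : ℝ) := by
  have hn := h.cast_pos
  have h1 : (1 : ℝ) ≤ n := by exact_mod_cast h.pos
  refine ⟨by positivity, ?_, ?_, ?_⟩
  · gcongr
    rw [Real.sqrt_le_left hn.le]
    nlinarith
  · rw [div_pow, Real.sq_sqrt hn.le]; field_simp; norm_num
  · rw [div_pow, Real.sq_sqrt hn.le]; field_simp; norm_num

theorem pair_moments (h : Mom n H m) (x y : ι) :
    Integrable (fun φ => pairA φ x y) (fLaw n H m) ∧
      ∫ φ, pairA φ x y ∂fLaw n H m = H⁻¹ x y + ∑ i, m x i * m y i ∧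
      Integrable (fun φ => (pairA φ x y - (H⁻¹ x y + ∑ i, m x i * m y i)) ^ 2) (fLaw n H m) ∧
      ∫ φ, (pairA φ x y - (H⁻¹ x y + ∑ i, m x i * m y i)) ^ 2 ∂fLaw n H m ≤ 2048 / n := by
  have hn := h.cast_pos
  have := h.prob_fLaw
  obtain ⟨u0, u1, u2, u3⟩ := h.exists_u
  have hT := h.tame_pair x y
  set G := H⁻¹ x y + ∑ i, m x i * m y i
  have hi := hT.integrable (by positivity) (by fun_prop)
  have h0 := hT.integral_eq_zero (by positivity) (by positivity) (by fun_prop)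
  have hA : Integrable (fun φ => pairA φ x y) (fLaw n H m) :=
    (hi.add (integrable_const G)).congr (Filter.Eventually.of_forall fun φ => by simp)
  obtain ⟨h2, h3⟩ := hT.sq_bound u0 u1 u2 (by fun_prop)
  refine ⟨hA, ?_, h2, h3.trans_eq u3⟩
  rw [integral_sub hA (integrable_const _), integral_const] at h0
  simp at h0
  linarith

theorem lin_moments (h : Mom n H m) (x : ι) (c : Fin n → ℝ) (hc : ∑ i, c i ^ 2 ≤ 16) :
    Integrable (fun φ => linA c φ x) (fLaw n H m) ∧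
      ∫ φ, linA c φ x ∂fLaw n H m = ∑ i, c i * m x i ∧
      Integrable (fun φ => (linA c φ x - ∑ i, c i * m x i) ^ 2) (fLaw n H m) ∧
      ∫ φ, (linA c φ x - ∑ i, c i * m x i) ^ 2 ∂fLaw n H m ≤ 2048 / n := by
  have hn := h.cast_pos
  have := h.prob_fLaw
  obtain ⟨u0, u1, u2, u3⟩ := h.exists_u
  have hT := (h.tame_lin x c hc).mono (show (8 : ℝ) / n ≤ 32 / n by gcongr; norm_num) le_rfl
  set G := ∑ i, c i * m x i
  have hi := hT.integrable (by positivity) (by fun_prop)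
  have h0 := hT.integral_eq_zero (by positivity) (by positivity) (by fun_prop)
  have hA : Integrable (fun φ => linA c φ x) (fLaw n H m) :=
    (hi.add (integrable_const G)).congr (Filter.Eventually.of_forall fun φ => by simp)
  obtain ⟨h2, h3⟩ := hT.sq_bound u0 u1 u2 (by fun_prop)
  refine ⟨hA, ?_, h2, h3.trans_eq u3⟩
  rw [integral_sub hA (integrable_const _), integral_const] at h0
  simp at h0
  linarith

theorem tail_bound (h : Mom n H m) {D : (Fin n → ι → ℝ) → ℝ}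
    (hT : Tame (fLaw n H m) D (32 / n) (n / 16)) {η : ℝ} (h0 : 0 ≤ η) (h1 : η ≤ 4) :
    (fLaw n H m).real {φ | η ≤ |D φ|} ≤ 2 * Real.exp (-(η ^ 2 * n) / 128) := by
  have := h.prob_fLaw
  have hn := h.cast_pos
  refine (hT.tail_abs (η := η) (u := η * n / 64) (by positivity) ?_).trans (le_of_eq ?_)
  · rw [mul_div_assoc]; nlinarith
  · congr 2
    field_simp
    ring

end Mom

end Vale.Agent.P163.Gap
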