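import Mathlib.Probability.Distributions.Gaussian.Real
import Mathlib.Probability.Moments.ComplexMGF
import Mathlib.MeasureTheory.Integral.Pi
import Mathlib.MeasureTheory.Measure.Lebesgue.EqHaar
import Mathlib.LinearAlgebra.Matrix.PosDef

/-!
# Centred Gaussian vectors with a positive definite precision matrix
-/

noncomputable section

namespace Vale.Agent.P163.Gap

open MeasureTheory Matrix Finset ProbabilityTheory

set_option linter.unusedSectionVars false

variable {ι : Type} [Fintype ι] [DecidableEq ι]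

/-- The unnormalised Gaussian density with precision `s • H`. -/
def gWeight (s : ℝ) (H : Matrix ι ι ℝ) (v : ι → ℝ) : ℝ := Real.exp (-(s / 2) * (v ⬝ᵥ (H *ᵥ v)))

/-- Its total mass. -/
def gMass (s : ℝ) (H : Matrix ι ι ℝ) : ℝ := ∫ v, gWeight s H v

/-- The centred Gaussian law with precision `s • H`. -/
def gLaw (s : ℝ) (H : Matrix ι ι ℝ) : Measure (ι → ℝ) :=
  volume.withDensity fun v => ENNReal.ofReal (gWeight s H v / gMass s H)

variable {s : ℝ} {H : Matrix ι ι ℝ}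

theorem posDef_isSymm (hH : H.PosDef) : Hᵀ = H := by
  simpa [IsHermitian, conjTranspose_eq_transpose_of_trivial] using hH.1

theorem dot_mulVec_comm (hH : H.PosDef) (u v : ι → ℝ) : u ⬝ᵥ (H *ᵥ v) = v ⬝ᵥ (H *ᵥ u) := by
  rw [dotProduct_mulVec, ← mulVec_transpose, posDef_isSymm hH, dotProduct_comm]

theorem posDef_mul_inv (hH : H.PosDef) : H * H⁻¹ = 1 :=
  mul_nonsing_inv H ((isUnit_iff_isUnit_det H).1 hH.isUnit)

theorem quad_nonneg (hH : H.PosDef) (v : ι → ℝ) : 0 ≤ v ⬝ᵥ (H *ᵥ v) := by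
  simpa using hH.posSemidef.dotProduct_mulVec_nonneg v

theorem sq_le_inv_diag (hH : H.PosDef) (v : ι → ℝ) (x : ι) :
    v x ^ 2 ≤ H⁻¹ x x * (v ⬝ᵥ (H *ᵥ v)) := by
  set e : ι → ℝ := Pi.single x 1 with he
  set w := H⁻¹ *ᵥ e
  have hHw : H *ᵥ w = e := by rw [mulVec_mulVec, posDef_mul_inv hH, one_mulVec]
  have hq : w ⬝ᵥ (H *ᵥ w) = H⁻¹ x x := by
    rw [hHw, dotProduct_comm, he, single_one_dotProduct]
    simp [w, e, mulVec_single]
  have hd : (0 : ℝ) < H⁻¹ x x := hH.inv.diag_pos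
  have hx : v ⬝ᵥ (H *ᵥ w) = v x := by rw [hHw, he, dotProduct_single_one]
  have hx' : w ⬝ᵥ (H *ᵥ v) = v x := by rw [dot_mulVec_comm hH, hx]
  set t := v x / H⁻¹ x x
  have h := quad_nonneg hH (v - t • w)
  simp only [mulVec_sub, mulVec_smul, sub_dotProduct, dotProduct_sub, smul_dotProduct,
    dotProduct_smul, smul_eq_mul, hx, hx', hq] at h
  have e1 : t * H⁻¹ x x = v x := div_mul_cancel₀ _ hd.ne'
  rw [e1, sub_self, mul_zero, sub_zero] at h
  have : v x * t ≤ v ⬝ᵥ (H *ᵥ v) := by linarith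
  calc v x ^ 2 = (v x * t) * H⁻¹ x x := by rw [mul_assoc, e1, sq]
    _ ≤ (v ⬝ᵥ (H *ᵥ v)) * H⁻¹ x x := mul_le_mul_of_nonneg_right this hd.le
    _ = _ := mul_comm _ _

@[fun_prop]
theorem continuous_gWeight : Continuous (gWeight s H) := by
  unfold gWeight dotProduct mulVec dotProduct
  fun_prop

theorem gWeight_nonneg (v : ι → ℝ) : 0 ≤ gWeight s H v := Real.exp_nonneg _

theorem integrable_gWeight (hs : 0 < s) (hH : H.PosDef) : Integrable (gWeight s H) volume := by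
  set T := (∑ x, H⁻¹ x x) + 1 with hT
  have hT0 : 0 < T := add_pos_of_nonneg_of_pos (sum_nonneg fun x _ => hH.inv.diag_pos.le) one_pos
  have hi : ∀ _x : ι, Integrable (fun r : ℝ => Real.exp (-(s / (2 * T)) * r ^ 2)) volume :=
    fun _ => integrable_exp_neg_mul_sq (by positivity)
  refine Integrable.mono' (Integrable.fintype_prod hi) continuous_gWeight.aestronglyMeasurable
    (Filter.Eventually.of_forall fun v => ?_)
  rw [gWeight, Real.norm_eq_abs, Real.abs_exp, ← Real.exp_sum]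
  refine Real.exp_le_exp.2 ?_
  rw [← mul_sum]
  have h : ∑ x, v x ^ 2 ≤ T * (v ⬝ᵥ (H *ᵥ v)) := by
    refine (sum_le_sum fun x _ => sq_le_inv_diag hH v x).trans ?_
    rw [← sum_mul, hT, add_mul, one_mul]
    linarith [quad_nonneg hH v]
  have h2 : (∑ x, v x ^ 2) / T ≤ v ⬝ᵥ (H *ᵥ v) := by
    rw [div_le_iff₀ hT0]; linarith
  have h3 := mul_le_mul_of_nonneg_left h2 (by positivity : (0 : ℝ) ≤ s / 2)
  have e : s / (2 * T) * ∑ x, v x ^ 2 = s / 2 * ((∑ x, v x ^ 2) / T) := by ring_nf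
  linarith

theorem gMass_pos (hs : 0 < s) (hH : H.PosDef) : 0 < gMass s H :=
  integral_exp_pos (integrable_gWeight hs hH)

theorem isProbability_gLaw (hs : 0 < s) (hH : H.PosDef) : IsProbabilityMeasure (gLaw s H) := by
  have h := gMass_pos hs hH
  refine ⟨?_⟩
  rw [gLaw, withDensity_apply _ MeasurableSet.univ, Measure.restrict_univ,
    ← ofReal_integral_eq_lintegral_ofReal ((integrable_gWeight hs hH).div_const _)
      (Filter.Eventually.of_forall fun v => (div_nonneg (Real.exp_nonneg _) h.le)),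
    integral_div, ← gMass, div_self h.ne', ENNReal.ofReal_one]

theorem integral_gLaw (hs : 0 < s) (hH : H.PosDef) (f : (ι → ℝ) → ℝ) :
    ∫ v, f v ∂gLaw s H = (∫ v, gWeight s H v * f v) / gMass s H := by
  have h := gMass_pos hs hH
  rw [gLaw, integral_withDensity_eq_integral_toReal_smul (by fun_prop)
    (Filter.Eventually.of_forall fun v => ENNReal.ofReal_lt_top), ← integral_div]
  refine integral_congr_ae (Filter.Eventually.of_forall fun v => ?_)
  simp only [smul_eq_mul]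
  rw [ENNReal.toReal_ofReal (div_nonneg (gWeight_nonneg v) h.le)]
  ring

theorem complete_square (hs : 0 < s) (hH : H.PosDef) (t v : ι → ℝ) :
    gWeight s H v * Real.exp (t ⬝ᵥ v)
      = Real.exp (t ⬝ᵥ (H⁻¹ *ᵥ t) / (2 * s)) * gWeight s H (v - s⁻¹ • (H⁻¹ *ᵥ t)) := by
  set w := H⁻¹ *ᵥ t
  have hHw : H *ᵥ w = t := by rw [mulVec_mulVec, posDef_mul_inv hH, one_mulVec]
  rw [gWeight, gWeight, ← Real.exp_add, ← Real.exp_add]
  congr 1
  simp only [mulVec_sub, mulVec_smul, sub_dotProduct, dotProduct_sub, smul_dotProduct,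
    dotProduct_smul, smul_eq_mul, hHw]
  rw [dot_mulVec_comm hH w v, hHw, dotProduct_comm v t, dotProduct_comm w t]
  field_simp
  ring_nf

theorem integrable_exp_linear (hs : 0 < s) (hH : H.PosDef) (t : ι → ℝ) :
    Integrable (fun v => Real.exp (t ⬝ᵥ v)) (gLaw s H) := by
  have h := gMass_pos hs hH
  rw [gLaw, integrable_withDensity_iff_integrable_smul' (by fun_prop)
    (Filter.Eventually.of_forall fun v => ENNReal.ofReal_lt_top)]
  refine (((integrable_gWeight hs hH).comp_sub_right (s⁻¹ • (H⁻¹ *ᵥ t))).const_mul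
    (Real.exp (t ⬝ᵥ (H⁻¹ *ᵥ t) / (2 * s)) / gMass s H)).congr
    (Filter.Eventually.of_forall fun v => ?_)
  simp only [smul_eq_mul]
  rw [ENNReal.toReal_ofReal (div_nonneg (gWeight_nonneg v) h.le), div_mul_eq_mul_div,
    div_mul_eq_mul_div, complete_square hs hH t v]

theorem integral_exp_linear (hs : 0 < s) (hH : H.PosDef) (t : ι → ℝ) :
    ∫ v, Real.exp (t ⬝ᵥ v) ∂gLaw s H = Real.exp (t ⬝ᵥ (H⁻¹ *ᵥ t) / (2 * s)) := by
  rw [integral_gLaw hs hH]
  simp only [complete_square hs hH t]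
  rw [integral_const_mul, integral_sub_right_eq_self (fun v => gWeight s H v), ← gMass,
    mul_div_cancel_right₀ _ (gMass_pos hs hH).ne']

theorem map_linear (hs : 0 < s) (hH : H.PosDef) (w : ι → ℝ) :
    (gLaw s H).map (fun v => w ⬝ᵥ v)
      = gaussianReal 0 ⟨w ⬝ᵥ (H⁻¹ *ᵥ w) / s, div_nonneg (quad_nonneg hH.inv w) hs.le⟩ := by
  have := isProbability_gLaw hs hH
  set X : (ι → ℝ) → ℝ := fun v => w ⬝ᵥ v
  have hX : Measurable X := by fun_prop
  set V : NNReal := ⟨w ⬝ᵥ (H⁻¹ *ᵥ w) / s, div_nonneg (quad_nonneg hH.inv w) hs.le⟩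
  have hm : mgf X (gLaw s H) = mgf id (gaussianReal 0 V) := by
    funext t
    rw [mgf_id_gaussianReal]
    have h := integral_exp_linear hs hH (t • w)
    simp only [mgf, X]
    have e : ∀ v, t * (w ⬝ᵥ v) = (t • w) ⬝ᵥ v := fun v => by rw [smul_dotProduct, smul_eq_mul]
    simp only [e, h]
    congr 1
    have hVc : (V : ℝ) = w ⬝ᵥ (H⁻¹ *ᵥ w) / s := rfl
    rw [hVc]
    simp only [mulVec_smul, smul_dotProduct, dotProduct_smul, smul_eq_mul]
    field_simp
    ring_nf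
  have hi : integrableExpSet X (gLaw s H) = Set.univ := by
    rw [integrableExpSet_eq_of_mgf hm, integrableExpSet_id_gaussianReal]
  have hc : complexMGF X (gLaw s H) = complexMGF id (gaussianReal 0 V) :=
    funext fun z => eqOn_complexMGF_of_mgf hm (by simp [hi])
  have h := Measure.ext_of_complexMGF_eq hX.aemeasurable aemeasurable_id hc
  simpa using h

theorem exp_sq_gaussianReal {V : NNReal} {a : ℝ} (ha : |a * V| ≤ 1 / 4) :
    Integrable (fun x => Real.exp (a * x ^ 2)) (gaussianReal 0 V) ∧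
      ∫ x, Real.exp (a * x ^ 2) ∂gaussianReal 0 V ≤ Real.exp (a * V + 2 * a ^ 2 * (V : ℝ) ^ 2) := by
  rcases eq_or_ne V 0 with rfl | hV
  · simp [gaussianReal_zero_var, integrable_dirac]
  set v : ℝ := (V : ℝ)
  have hv : 0 < v := NNReal.coe_pos.2 (pos_iff_ne_zero.2 hV)
  set x := a * v with hx
  have h1 : -(1 / 4 : ℝ) ≤ x ∧ x ≤ 1 / 4 := abs_le.1 ha
  have hb : 0 < 1 / (2 * v) - a := by
    have : 1 / (2 * v) - a = (1 - 2 * x) / (2 * v) := by rw [hx]; field_simp
    rw [this]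
    exact div_pos (by linarith [h1.2]) (by positivity)
  have e : ∀ r : ℝ, gaussianPDFReal 0 V r * Real.exp (a * r ^ 2)
      = (√(2 * Real.pi * v))⁻¹ * Real.exp (-(1 / (2 * v) - a) * r ^ 2) := fun r => by
    rw [gaussianPDFReal, mul_assoc, ← Real.exp_add]
    congr 2
    simp only [sub_zero, v]
    field_simp
    ring_nf
  constructor
  · rw [gaussianReal_of_var_ne_zero _ hV, integrable_withDensity_iff_integrable_smul'
      (measurable_gaussianPDF _ _) (Filter.Eventually.of_forall fun r => gaussianPDF_lt_top)]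
    simp only [smul_eq_mul, toReal_gaussianPDF, e]
    exact (integrable_exp_neg_mul_sq hb).const_mul _
  · rw [integral_gaussianReal_eq_integral_smul hV]
    simp only [smul_eq_mul, e]
    rw [integral_const_mul, integral_gaussian, ← Real.sqrt_inv, ← Real.sqrt_mul (by positivity),
      Real.sqrt_le_left (Real.exp_nonneg _), sq, ← Real.exp_add]
    have e2 : (2 * Real.pi * v)⁻¹ * (Real.pi / (1 / (2 * v) - a)) = 1 / (1 - 2 * x) := by
      have : (1 - 2 * x) ≠ 0 := by linarith [h1.2]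
      rw [hx] at this ⊢
      field_simp
    rw [e2, div_le_iff₀ (by linarith [h1.2]),
      show a * v + 2 * a ^ 2 * v ^ 2 + (a * v + 2 * a ^ 2 * v ^ 2) = 2 * x + 4 * x ^ 2 by
        rw [hx]; ring]
    rcases le_total 0 x with hp | hn
    · have h2 := Real.quadratic_le_exp_of_nonneg (show 0 ≤ 2 * x + 4 * x ^ 2 by positivity)
      refine le_trans ?_ (mul_le_mul_of_nonneg_right h2 (by linarith [h1.2]))
      nlinarith [mul_nonneg (mul_nonneg hp hp) (show 0 ≤ 1 - 2 * x - 4 * x ^ 2 - 8 * x ^ 3 by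
        nlinarith [mul_le_mul h1.2 h1.2 hp (by norm_num : (0 : ℝ) ≤ 1 / 4),
          mul_nonneg hp (sq_nonneg x)])]
    · have h2 := Real.add_one_le_exp (2 * x + 4 * x ^ 2)
      refine le_trans ?_ (mul_le_mul_of_nonneg_right h2 (by linarith [h1.2]))
      nlinarith [mul_nonneg (sq_nonneg x) (neg_nonneg.2 hn)]

theorem exp_sq_gLaw (hs : 0 < s) (hH : H.PosDef) (w : ι → ℝ) {a : ℝ}
    (ha : |a * (w ⬝ᵥ (H⁻¹ *ᵥ w) / s)| ≤ 1 / 4) :
    Integrable (fun v => Real.exp (a * (w ⬝ᵥ v) ^ 2)) (gLaw s H) ∧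
      ∫ v, Real.exp (a * (w ⬝ᵥ v) ^ 2) ∂gLaw s H
        ≤ Real.exp (a * (w ⬝ᵥ (H⁻¹ *ᵥ w) / s)
            + 2 * a ^ 2 * (w ⬝ᵥ (H⁻¹ *ᵥ w) / s) ^ 2) := by
  set V : NNReal := ⟨w ⬝ᵥ (H⁻¹ *ᵥ w) / s, div_nonneg (quad_nonneg hH.inv w) hs.le⟩
  have hm := map_linear hs hH w
  obtain ⟨h1, h2⟩ := exp_sq_gaussianReal (V := V) (a := a) ha
  have hX : Measurable fun v : ι → ℝ => w ⬝ᵥ v := by fun_prop
  rw [← hm] at h1 h2
  rw [integral_map hX.aemeasurable (by fun_prop)] at h2
  exact ⟨(integrable_map_measure (by fun_prop) hX.aemeasurable).1 h1, h2⟩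

end Vale.Agent.P163.Gap
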