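import Vale.Agent.P163.Gap.Domination
import Vale.Agent.P163.Gibbs

/-!
# The block measure concentrates at the saddle
-/

noncomputable section

namespace Vale.Agent.P163.Gap

open MeasureTheory Matrix Finset
open scoped ENNReal

set_option linter.unusedSectionVars false

variable {ι : Type} [Fintype ι] [DecidableEq ι] {n : ℕ} {P : Blk ι n}

theorem measurableSet_good (S : Saddle P) (i : Fin n) (δ : ℝ) : MeasurableSet (S.good i δ) := by
  have : S.good i δ = ⋂ x, ({σ | |co (σ x) i - S.m x i| ≤ δ} ∩ {σ | |P.q σ x - S.qbar x| ≤ δ}) := by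
    ext σ; simp [Saddle.good]
  rw [this]
  exact MeasurableSet.iInter fun x =>
    ((isClosed_le (by fun_prop) continuous_const).measurableSet.inter
      (isClosed_le (by fun_prop) continuous_const).measurableSet)

/-- Monotonicity of averages for bounded measurable functions. -/
theorem avg_mono_bdd [NeZero n] {V : Type} [Fintype V] {U f g : Conf V n → ℝ} (hU : Continuous U)
    (hf : Measurable f) (hg : Measurable g) {M : ℝ} (hfM : ∀ σ, |f σ| ≤ M) (hgM : ∀ σ, |g σ| ≤ M)
    (h : ∀ σ, f σ ≤ g σ) : avg U f ≤ avg U g := by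
  have hi : ∀ k : Conf V n → ℝ, Measurable k → (∀ σ, |k σ| ≤ M) →
      Integrable (fun σ => Real.exp (U σ) * k σ) (base V n) := fun k hk hkM =>
    (integrable_base (f := fun σ => Real.exp (U σ)) (by fun_prop)).mul_bdd
      hk.aestronglyMeasurable (Filter.Eventually.of_forall fun σ => hkM σ)
  exact div_le_div_of_nonneg_right
    (integral_mono (hi f hf hfM) (hi g hg hgM)
      fun σ => mul_le_mul_of_nonneg_left (h σ) (Real.exp_nonneg _))
    (weight_pos hU).le

theorem energy_mean_ge [NeZero n] (S : Saddle P) (hok : P.Ok) (hn : 1 ≤ n) :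
    n * S.val - 70656 * P.b * Fintype.card ι
      ≤ ∫ φ, P.U (dirs φ) ∂fLaw n (P.H S.lam) S.m := by
  have := (S.mom hn).prob_fLaw
  have hn0 : (0 : ℝ) < n := by exact_mod_cast hn
  have hdot : ∀ x y, Integrable (fun φ => dot (dirs φ x) (dirs φ y)) (fLaw n (P.H S.lam) S.m) :=
    fun x y => Integrable.of_bound
      ((show Continuous fun σ : Conf ι n => dot (σ x) (σ y) by fun_prop).measurable.comp
        measurable_dirs).aestronglyMeasurable 1
      (Filter.Eventually.of_forall fun φ => abs_dot_le _ _)
  have hfd : ∀ x, Integrable (fun φ => P.fieldDot (dirs φ) x) (fLaw n (P.H S.lam) S.m) :=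
    fun x => Integrable.of_bound
      ((continuous_fieldDot x).measurable.comp measurable_dirs).aestronglyMeasurable 4
      (Filter.Eventually.of_forall fun φ => abs_fieldDot_le hok _ x)
  have i1' : ∀ x y, Integrable (fun φ => P.A x y * dot (dirs φ x) (dirs φ y))
      (fLaw n (P.H S.lam) S.m) := fun x y => (hdot x y).const_mul _
  have i1 : Integrable (fun φ => ∑ x, ∑ y, P.A x y * dot (dirs φ x) (dirs φ y))
      (fLaw n (P.H S.lam) S.m) :=
    integrable_finsetSum _ fun x _ => integrable_finsetSum _ fun y _ => i1' x y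
  have i2 : Integrable (fun φ => ∑ x, P.fieldDot (dirs φ) x) (fLaw n (P.H S.lam) S.m) :=
    integrable_finsetSum _ fun x _ => hfd x
  simp only [Blk.U]
  rw [integral_const_mul, integral_add (i1.div_const 2) i2, integral_div,
    integral_finsetSum _ fun x _ => integrable_finsetSum _ fun y _ => i1' x y,
    integral_finsetSum _ fun x _ => hfd x]
  simp only [integral_finsetSum _ fun y _ => i1' _ y, integral_const_mul]
  have hnb : 0 ≤ (n : ℝ) * P.b := mul_nonneg hn0.le hok.b_pos.le
  have h1 : ∑ x, ∑ y, P.A x y * S.G x y - 4 * (18432 / (n : ℝ)) * Fintype.card ι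
      ≤ ∑ x, ∑ y, P.A x y * ∫ φ, dot (dirs φ x) (dirs φ y) ∂fLaw n (P.H S.lam) S.m := by
    have := sum_weight_le hok (show (0 : ℝ) ≤ 18432 / n by positivity)
      (fun x y => S.G x y - ∫ φ, dot (dirs φ x) (dirs φ y) ∂fLaw n (P.H S.lam) S.m)
      fun x y => by linarith [dot_mean_ge S hok hn x y]
    simp only [mul_sub, sum_sub_distrib] at this
    linarith
  have h2 : ∑ x, ∑ i, P.h x i * S.m x i - 33792 / (n : ℝ) * Fintype.card ι
      ≤ ∑ x, ∫ φ, P.fieldDot (dirs φ) x ∂fLaw n (P.H S.lam) S.m := by
    have := sum_le_sum fun x (_ : x ∈ (univ : Finset ι)) => field_mean_ge S hok hn x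
    rw [sum_sub_distrib, sum_const, card_univ, nsmul_eq_mul] at this
    linarith
  refine le_trans ?_ (mul_le_mul_of_nonneg_left (add_le_add (div_le_div_of_nonneg_right h1
    zero_le_two) h2) hnb)
  refine le_of_eq ?_
  rw [Saddle.val]
  field_simp
  ring

/-- The block measure of a set of configurations is dominated by the saddle field. -/
theorem domination [NeZero n] (S : Saddle P) (hok : P.Ok) (hn : 1 ≤ n) {A : Set (Conf ι n)}
    (hA : MeasurableSet A) :
    avg P.U (A.indicator fun _ => 1)
      ≤ Real.exp (80000 * P.b * Fintype.card ι)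
        * (fLaw n (P.H S.lam) S.m).real {φ | dirs φ ∈ A} := by
  classical
  set N := fLaw n (P.H S.lam) S.m
  set N₀ := fLaw n (1 : Matrix ι ι ℝ) 0
  set V : ℝ := (Fintype.card ι : ℝ)
  have hN : IsProbabilityMeasure N := (S.mom hn).prob_fLaw
  have hN₀ : IsProbabilityMeasure N₀ := (mom_one hn).prob_fLaw
  have hb := hok.b_pos.le
  have hV : 0 ≤ V := Nat.cast_nonneg _
  have hk := S.kappa_pos hn
  have hX : Measurable S.X := measurable_X S
  have hU : Continuous P.U := continuous_blockU
  have hpol := measurePreserving_polar (ι := ι) (n := n)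
  have hA' : MeasurableSet {φ : Fin n → ι → ℝ | dirs φ ∈ A} := measurable_dirs hA
  set F := ENNReal.ofReal (Real.exp (n * S.val + 8192 * P.b * V))
  -- upper bound
  have hup : ∫⁻ σ, A.indicator (fun σ => ENNReal.ofReal (Real.exp (P.U σ))) σ ∂base ι n
      ≤ F * (ENNReal.ofReal S.kappa⁻¹ * N {φ | dirs φ ∈ A}) := by
    have hpt : ∀ σ, A.indicator (fun σ => ENNReal.ofReal (Real.exp (P.U σ))) σ
        ≤ F * ∫⁻ r, A.indicator (1 : Conf ι n → ℝ≥0∞) σ *
            ENNReal.ofReal (Real.exp (n * S.Xr σ r)) ∂Measure.pi fun _ : ι => radLaw n := fun σ => by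
      by_cases hσ : σ ∈ A
      · rw [Set.indicator_of_mem hσ, Set.indicator_of_mem hσ]
        simp only [Pi.one_apply, one_mul]
        obtain ⟨a, c⟩ := Xr_integral_ge S hok hn σ
        refine le_trans ?_ (mul_le_mul_of_nonneg_left (ofReal_exp_integral_le a) zero_le)
        simp only [F]
        rw [← ENNReal.ofReal_mul (Real.exp_nonneg _), ← Real.exp_add]
        exact ENNReal.ofReal_le_ofReal (Real.exp_le_exp.2 (by linarith))
      · rw [Set.indicator_of_notMem hσ]; exact zero_le
    refine (lintegral_mono hpt).trans (le_of_eq ?_)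
    rw [lintegral_const_mul' _ _ ENNReal.ofReal_ne_top]
    congr 1
    set g : Conf ι n × (ι → ℝ) → ℝ≥0∞ := fun p =>
      A.indicator (1 : Conf ι n → ℝ≥0∞) p.1 * ENNReal.ofReal (Real.exp (n * S.Xr p.1 p.2))
    have hg : Measurable g := by
      refine ((measurable_one.indicator hA).comp measurable_fst).mul ?_
      have : Continuous fun p : Conf ι n × (ι → ℝ) => S.Xr p.1 p.2 := by
        unfold Saddle.Xr Blk.fieldDot; fun_prop
      exact ((Real.continuous_exp.comp (this.const_smul (n : ℝ))).measurable).ennreal_ofReal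
    rw [← lintegral_prod g hg.aemeasurable, ← hpol.lintegral_comp hg]
    have e : ∀ φ : Fin n → ι → ℝ, g (dirs φ, rads φ)
        = ENNReal.ofReal S.kappa⁻¹ * (ENNReal.ofReal (S.kappa * Real.exp (n * S.X φ))
            * {φ | dirs φ ∈ A}.indicator 1 φ) := fun φ => by
      simp only [g, ← X_eq_Xr]
      rw [← mul_assoc, ← ENNReal.ofReal_mul (inv_nonneg.2 hk.le), ← mul_assoc,
        inv_mul_cancel₀ hk.ne', one_mul, mul_comm]
      rfl
    simp only [e]
    rw [lintegral_const_mul' _ _ ENNReal.ofReal_ne_top]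
    congr 1
    simp only [N]
    rw [S.fLaw_eq_withDensity hn, withDensity_apply _ hA', ← lintegral_indicator hA']
    refine lintegral_congr fun φ => ?_
    by_cases h : φ ∈ {φ : Fin n → ι → ℝ | dirs φ ∈ A} <;> simp [h]
  have hnum : ∫ σ, Real.exp (P.U σ) * A.indicator (fun _ => (1 : ℝ)) σ ∂base ι n
      ≤ Real.exp (n * S.val + 8192 * P.b * V) * (S.kappa⁻¹ * N.real {φ | dirs φ ∈ A}) := by
    have e : ∀ σ, Real.exp (P.U σ) * A.indicator (fun _ => (1 : ℝ)) σ
        = A.indicator (fun σ => Real.exp (P.U σ)) σ := fun σ => by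
      by_cases h : σ ∈ A <;> simp [h]
    simp only [e]
    rw [integral_eq_lintegral_of_nonneg_ae
      (Filter.Eventually.of_forall fun σ => Set.indicator_nonneg (fun _ _ => Real.exp_nonneg _) σ)
      ((Real.continuous_exp.comp hU).measurable.indicator hA).aestronglyMeasurable]
    refine ENNReal.toReal_le_of_le_ofReal
      (mul_nonneg (Real.exp_nonneg _) (mul_nonneg (inv_nonneg.2 hk.le) measureReal_nonneg)) ?_
    refine le_trans (le_of_eq ?_) (hup.trans (le_of_eq ?_))
    · refine lintegral_congr fun σ => ?_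
      by_cases h : σ ∈ A <;> simp [h]
    · rw [ENNReal.ofReal_mul (Real.exp_nonneg _), ENNReal.ofReal_mul (inv_nonneg.2 hk.le),
        ofReal_measureReal]
  -- lower bound of the partition function
  have hden : Real.exp (n * S.val - 70656 * P.b * V) / S.kappa
      ≤ ∫ σ, Real.exp (P.U σ) ∂base ι n := by
    obtain ⟨M, hM⟩ := (isCompact_univ (X := Conf ι n)).exists_bound_of_continuousOn
      (f := P.U) hU.continuousOn
    have hUd : Measurable fun φ : Fin n → ι → ℝ => P.U (dirs φ) := hU.measurable.comp measurable_dirs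
    have iU : Integrable (fun φ => P.U (dirs φ)) N :=
      Integrable.of_bound hUd.aestronglyMeasurable M
        (Filter.Eventually.of_forall fun φ => hM _ trivial)
    have iX : Integrable S.X N ∧ ∫ φ, S.X φ ∂N = 0 := by
      have h := S.mom hn
      have ia : Integrable (fun φ => ∑ x, (S.lam x - 1) * pairA φ x x) N :=
        integrable_finsetSum _ fun x _ => (h.pair_moments x x).1.const_mul _
      have ib' : ∀ x y, Integrable (fun φ => P.A x y * pairA φ x y) N := fun x y =>
        (h.pair_moments x y).1.const_mul _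
      have ib : Integrable (fun φ => ∑ x, ∑ y, P.A x y * pairA φ x y) N :=
        integrable_finsetSum _ fun x _ => integrable_finsetSum _ fun y _ => ib' x y
      have il : ∀ x, Integrable (fun φ => linA (P.h x) φ x) N := fun x =>
        (h.lin_moments x _ (hok.field x)).1
      have ic : Integrable (fun φ => ∑ x, linA (P.h x) φ x) N := integrable_finsetSum _ fun x _ => il x
      have j12 := (ia.const_mul (-(1 / 2))).fun_add (ib.const_mul (P.b / 2))
      have j123 := j12.fun_add (ic.const_mul P.b)
      refine ⟨j123.sub' (integrable_const _), ?_⟩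
      simp only [Saddle.X]
      rw [integral_sub j123 (integrable_const _), integral_add j12 (ic.const_mul _),
        integral_add (ia.const_mul _) (ib.const_mul _), integral_const_mul, integral_const_mul,
        integral_const_mul, integral_finsetSum _ fun x _ => (h.pair_moments x x).1.const_mul _,
        integral_finsetSum _ fun x _ => integrable_finsetSum _ fun y _ => ib' x y,
        integral_finsetSum _ fun x _ => il x]
      simp only [integral_finsetSum _ fun y _ => ib' _ y, integral_const_mul,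
        (h.pair_moments _ _).2.1, N, (h.lin_moments _ _ (hok.field _)).2.1, S.G_eq, S.G_self,
        mul_one, integral_const, probReal_univ, one_smul, S.lam_sub_one hok, ← mul_sum, sum_add_distrib]
      ring
    obtain ⟨hXi, hX0⟩ := iX
    set f : (Fin n → ι → ℝ) → ℝ := fun φ => P.U (dirs φ) - n * S.X φ
    have hfi : Integrable f N := iU.sub' (hXi.const_mul _)
    have hmap : ∫ φ, Real.exp (P.U (dirs φ)) ∂N₀ = ∫ σ, Real.exp (P.U σ) ∂base ι n := by
      have h2 := measurePreserving_fst.comp hpol
      rw [← h2.map_eq, integral_map h2.measurable.aemeasurable (by fun_prop)]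
      rfl
    have e : ∀ φ, S.kappa * Real.exp (n * S.X φ) * Real.exp (f φ)
        = S.kappa * Real.exp (P.U (dirs φ)) := fun φ => by
      rw [mul_assoc, ← Real.exp_add]; congr 2; simp [f]
    have hmeas : Measurable fun φ => ENNReal.ofReal (S.kappa * Real.exp (n * S.X φ)) :=
      ((hX.const_mul _).exp.const_mul _).ennreal_ofReal
    have hei : Integrable (fun φ => Real.exp (f φ)) N := by
      simp only [N]
      rw [S.fLaw_eq_withDensity hn, integrable_withDensity_iff_integrable_smul' hmeas
        (Filter.Eventually.of_forall fun φ => ENNReal.ofReal_lt_top)]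
      refine (((Integrable.of_bound hUd.exp.aestronglyMeasurable (Real.exp M)
        (Filter.Eventually.of_forall fun φ => ?_)).const_mul S.kappa).congr
          (Filter.Eventually.of_forall fun φ => ?_))
      · rw [Real.norm_eq_abs, Real.abs_exp]
        exact Real.exp_le_exp.2 ((le_abs_self _).trans (hM _ trivial))
      · simp only [smul_eq_mul]
        rw [ENNReal.toReal_ofReal (mul_nonneg hk.le (Real.exp_nonneg _)), e φ]
    have hj := exp_integral_le hfi hei
    have hint : ∫ φ, Real.exp (f φ) ∂N = S.kappa * ∫ σ, Real.exp (P.U σ) ∂base ι n := by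
      simp only [N]
      rw [S.fLaw_eq_withDensity hn, integral_withDensity_eq_integral_toReal_smul hmeas
        (Filter.Eventually.of_forall fun φ => ENNReal.ofReal_lt_top), ← hmap, ← integral_const_mul]
      refine integral_congr_ae (Filter.Eventually.of_forall fun φ => ?_)
      simp only [smul_eq_mul]
      rw [ENNReal.toReal_ofReal (mul_nonneg hk.le (Real.exp_nonneg _)), e φ]
    have hlow : n * S.val - 70656 * P.b * V ≤ ∫ φ, f φ ∂N := by
      simp only [f]
      rw [integral_sub iU (hXi.const_mul _), integral_const_mul, hX0, mul_zero, sub_zero]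
      exact energy_mean_ge S hok hn
    rw [div_le_iff₀ hk, mul_comm _ S.kappa]
    rw [hint] at hj
    exact (Real.exp_le_exp.2 hlow).trans hj
  rw [avg, div_le_iff₀ (weight_pos hU)]
  refine hnum.trans (le_trans ?_ (mul_le_mul_of_nonneg_left hden
    (mul_nonneg (Real.exp_nonneg _) measureReal_nonneg)))
  have hexp : Real.exp (n * S.val + 8192 * P.b * V)
      ≤ Real.exp (80000 * P.b * V) * Real.exp (n * S.val - 70656 * P.b * V) := by
    rw [← Real.exp_add]
    exact Real.exp_le_exp.2 (by linarith [mul_nonneg hb hV])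
  calc Real.exp (n * S.val + 8192 * P.b * V) * (S.kappa⁻¹ * N.real {φ | dirs φ ∈ A})
      ≤ (Real.exp (80000 * P.b * V) * Real.exp (n * S.val - 70656 * P.b * V))
          * (S.kappa⁻¹ * N.real {φ | dirs φ ∈ A}) :=
        mul_le_mul_of_nonneg_right hexp (mul_nonneg (inv_nonneg.2 hk.le) measureReal_nonneg)
    _ = _ := by ring

/-- The field is close to the saddle except on a set of small probability. -/
theorem field_tail [NeZero n] (S : Saddle P) (hok : P.Ok) (hn : 1 ≤ n) (i : Fin n) {δ : ℝ}
    (hδ : 0 ≤ δ) (hδ1 : δ ≤ 1) :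
    (fLaw n (P.H S.lam) S.m).real {φ | dirs φ ∈ (S.good i δ)ᶜ}
      ≤ ((Fintype.card ι : ℝ) + 2) * Fintype.card ι * (2 * Real.exp (-((δ / 32) ^ 2 * n) / 128)) := by
  have h := S.mom hn
  have := h.prob_fLaw
  set N := fLaw n (P.H S.lam) S.m
  set η := δ / 32 with hη
  have hη0 : 0 ≤ η := by positivity
  have hη1 : η ≤ 4 := by linarith
  set e := 2 * Real.exp (-(η ^ 2 * n) / 128)
  set Bp := fun p : ι × ι => {φ : Fin n → ι → ℝ | η ≤ |pairA φ p.1 p.2 - S.G p.1 p.2|}
  set Bl := fun x : ι => {φ : Fin n → ι → ℝ | η ≤ |linA (P.h x) φ x - ∑ k, P.h x k * S.m x k|}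
  set Bc := fun x : ι =>
    {φ : Fin n → ι → ℝ | η ≤ |linA (Pi.single i 1) φ x - ∑ k, (Pi.single i 1 : Fin n → ℝ) k * S.m x k|}
  have hsub : {φ | dirs φ ∈ (S.good i δ)ᶜ} ⊆ (⋃ p, Bp p) ∪ ((⋃ x, Bl x) ∪ ⋃ x, Bc x) := by
    intro φ hφ
    by_contra hc
    simp only [Set.mem_union, Set.mem_iUnion, not_or, not_exists, Bp, Bl, Bc, Set.mem_ofPred_eq,
      not_le, Prod.forall] at hc
    obtain ⟨hp, hl, hc⟩ := hc
    refine hφ ?_
    set σ := dirs φ
    set r := rads φ
    have hr : ∀ x, |r x - 1| ≤ η := fun x => by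
      have := (hp x x).le
      rw [S.G_self, pairA_self φ x] at this
      have h0 : 0 ≤ r x := norm_nonneg _
      refine le_trans ?_ this
      rw [show r x ^ 2 - 1 = (r x - 1) * (r x + 1) by ring, abs_mul]
      exact le_mul_of_one_le_right (abs_nonneg _) (by rw [abs_of_nonneg (by linarith)]; linarith)
    have hη32 : η ≤ 1 / 32 := by rw [hη]; linarith
    have hdot : ∀ x y, |dot (σ x) (σ y) - S.G x y| ≤ 4 * η := fun x y => by
      have h1 := (hp x y).le
      rw [pairA_eq φ x y] at h1
      have ha := abs_dot_le (σ x) (σ y)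
      obtain ⟨rx1, rx2⟩ := abs_le.1 (hr x)
      obtain ⟨ry1, ry2⟩ := abs_le.1 (hr y)
      have h2 : |1 - r x * r y| ≤ 3 * η := by
        rw [abs_le]; constructor <;> nlinarith
      calc |dot (σ x) (σ y) - S.G x y|
          = |dot (σ x) (σ y) * (1 - r x * r y) + (r x * r y * dot (σ x) (σ y) - S.G x y)| := by
            congr 1; ring
        _ ≤ |dot (σ x) (σ y)| * |1 - r x * r y| + η := by
            refine (abs_add_le _ _).trans (add_le_add (le_of_eq (abs_mul _ _)) h1)
        _ ≤ 1 * (3 * η) + η :=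
            add_le_add (mul_le_mul ha h2 (abs_nonneg _) zero_le_one) le_rfl
        _ = 4 * η := by ring
    intro x
    constructor
    · have h1 := (hc x).le
      rw [linA] at h1
      simp only [Pi.single_apply, ite_mul, one_mul, zero_mul, sum_ite_eq', mem_univ, if_true] at h1
      rw [eq_rads_mul φ i x] at h1
      have hco : |co (σ x) i| ≤ 1 := by
        have := single_le_sum (fun k _ => sq_nonneg (co (σ x) k)) (mem_univ i)
        rw [co_sq_sum] at this
        exact abs_le_of_sq_le_sq (by simpa using this) zero_le_one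
      calc |co (σ x) i - S.m x i|
          = |co (σ x) i * (1 - r x) + (r x * co (σ x) i - S.m x i)| := by congr 1; ring
        _ ≤ 1 * η + η := by
            refine (abs_add_le _ _).trans (add_le_add ?_ h1)
            rw [abs_mul, abs_sub_comm 1]
            exact mul_le_mul hco (hr x) (abs_nonneg _) zero_le_one
        _ ≤ δ := by rw [hη]; linarith
    · have h1 := (hl x).le
      rw [linA_eq φ x] at h1
      have hf : |P.fieldDot σ x - ∑ k, P.h x k * S.m x k| ≤ 5 * η := by
        calc |P.fieldDot σ x - ∑ k, P.h x k * S.m x k|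
            = |P.fieldDot σ x * (1 - r x) + (r x * P.fieldDot σ x - ∑ k, P.h x k * S.m x k)| := by
              congr 1; ring
          _ ≤ 4 * η + η := by
              refine (abs_add_le _ _).trans (add_le_add ?_ h1)
              rw [abs_mul, abs_sub_comm 1]
              exact mul_le_mul (abs_fieldDot_le hok σ x) (hr x) (abs_nonneg _) (by norm_num)
          _ = 5 * η := by ring
      have hs : |∑ y, P.A x y * dot (σ x) (σ y) - ∑ y, P.A x y * S.G x y| ≤ 16 * η := by
        rw [← sum_sub_distrib]
        refine (abs_sum_le_sum_abs _ _).trans ?_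
        calc ∑ y, |P.A x y * dot (σ x) (σ y) - P.A x y * S.G x y|
            ≤ ∑ y, P.A x y * (4 * η) := sum_le_sum fun y _ => by
              rw [← mul_sub, abs_mul, abs_of_nonneg (hok.nonneg x y)]
              exact mul_le_mul_of_nonneg_left (hdot x y) (hok.nonneg x y)
          _ = (∑ y, P.A x y) * (4 * η) := (sum_mul _ _ _).symm
          _ ≤ 4 * (4 * η) := mul_le_mul_of_nonneg_right (hok.row x) (by positivity)
          _ = _ := by ring
      have hsw : ∑ k, S.m x k * P.h x k = ∑ k, P.h x k * S.m x k :=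
        sum_congr rfl fun k _ => mul_comm _ _
      rw [Blk.q, Saddle.qbar, hsw]
      obtain ⟨s1, s2⟩ := abs_le.1 hs
      obtain ⟨f1, f2⟩ := abs_le.1 hf
      rw [abs_le]
      constructor <;> linarith
  have hp : ∀ p, N.real (Bp p) ≤ e := fun p => by
    refine h.tail_bound ?_ hη0 hη1
    have := h.tame_pair p.1 p.2
    rwa [S.G_eq] at this
  have hl : ∀ x, N.real (Bl x) ≤ e := fun x =>
    h.tail_bound ((h.tame_lin x _ (hok.field x)).mono
      (by gcongr; norm_num) le_rfl) hη0 hη1
  have hc : ∀ x, N.real (Bc x) ≤ e := fun x =>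
    h.tail_bound ((h.tame_lin x (Pi.single i 1) (by simp [Pi.single_apply])).mono
      (by gcongr; norm_num) le_rfl) hη0 hη1
  have e1 := (measureReal_iUnion_fintype_le Bp).trans (sum_le_sum fun p _ => hp p)
  have e2 := (measureReal_iUnion_fintype_le Bl).trans (sum_le_sum fun x _ => hl x)
  have e3 := (measureReal_iUnion_fintype_le Bc).trans (sum_le_sum fun x _ => hc x)
  rw [sum_const, card_univ, nsmul_eq_mul] at e1 e2 e3
  rw [Fintype.card_prod, Nat.cast_mul] at e1
  refine (measureReal_mono hsub).trans ((measureReal_union_le _ _).trans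
    (le_trans (add_le_add e1 ((measureReal_union_le _ _).trans (add_le_add e2 e3))) ?_))
  exact le_of_eq (by ring)

/-- The Gaussian domination module. -/
theorem goodGoal : GoodGoal := by
  refine ⟨131072 * 81000, by norm_num, fun ι _ _ n P hn hok S i B hB hbB hw => ?_⟩
  have : NeZero n := ⟨by omega⟩
  have hn1 : 1 ≤ n := by omega
  have hn0 : (0 : ℝ) < n := by exact_mod_cast hn1
  set V : ℝ := (Fintype.card ι : ℝ)
  have hV : 0 ≤ V := Nat.cast_nonneg _
  set K : ℝ := 131072 * 81000 with hK
  set δ := width K B (Fintype.card ι) n with hδ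
  have hlog : 0 ≤ Real.log n := Real.log_nonneg (by exact_mod_cast hn1)
  have hX : 0 ≤ K * (B * V + Real.log n + 1) / n :=
    div_nonneg (mul_nonneg (by norm_num [K]) (by positivity)) hn0.le
  have hsq : δ ^ 2 = K * (B * V + Real.log n + 1) / n := Real.sq_sqrt hX
  have hδ0 : 0 ≤ δ := Real.sqrt_nonneg _
  have hexp : (δ / 32) ^ 2 * n / 128 = 81000 * (B * V + Real.log n + 1) := by
    rw [div_pow, hsq, hK]
    field_simp
    ring
  refine (domination S hok hn1 (measurableSet_good S i δ).compl).trans ?_
  refine (mul_le_mul_of_nonneg_left (field_tail S hok hn1 i hδ0 hw) (Real.exp_nonneg _)).trans ?_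
  rw [neg_div, hexp]
  have hpow : ((n : ℝ) ^ 20)⁻¹ = Real.exp (-(20 * Real.log n)) := by
    rw [Real.exp_neg, ← Real.exp_log hn0, ← Real.exp_nat_mul, Real.exp_log hn0]
    norm_num
  have hBV : P.b * V ≤ B * V := mul_le_mul_of_nonneg_right hbB hV
  have h1 : Real.exp (80000 * P.b * V) * Real.exp (-(81000 * (B * V + Real.log n + 1)))
      ≤ Real.exp (-V) * ((n : ℝ) ^ 20)⁻¹ := by
    rw [hpow, ← Real.exp_add, ← Real.exp_add]
    refine Real.exp_le_exp.2 ?_
    nlinarith [mul_le_mul_of_nonneg_right hB hV]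
  have h2 : (V + 2) * V * (2 * Real.exp (-V)) ≤ K * (V + 1) := by
    have := Real.add_one_le_exp V
    have h3 : (V + 1) * Real.exp (-V) ≤ 1 := by
      rw [Real.exp_neg, ← div_eq_mul_inv, div_le_one (Real.exp_pos _)]; exact this
    have h4 := mul_le_mul_of_nonneg_left h3 (by positivity : (0 : ℝ) ≤ 2 * (V + 1))
    have h5 : (V + 2) * V ≤ (V + 1) * (V + 1) := by nlinarith
    have h6 := mul_le_mul_of_nonneg_right h5 (by positivity : (0 : ℝ) ≤ 2 * Real.exp (-V))
    have h7 : 2 * (V + 1) ≤ K * (V + 1) :=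
      mul_le_mul_of_nonneg_right (by norm_num [K]) (by linarith)
    nlinarith
  calc Real.exp (80000 * P.b * V) *
        ((V + 2) * V * (2 * Real.exp (-(81000 * (B * V + Real.log n + 1)))))
      = (V + 2) * V * 2 * (Real.exp (80000 * P.b * V) *
          Real.exp (-(81000 * (B * V + Real.log n + 1)))) := by ring
    _ ≤ (V + 2) * V * 2 * (Real.exp (-V) * ((n : ℝ) ^ 20)⁻¹) :=
        mul_le_mul_of_nonneg_left h1 (by positivity)
    _ = ((V + 2) * V * (2 * Real.exp (-V))) * ((n : ℝ) ^ 20)⁻¹ := by ring
    _ ≤ K * (V + 1) * ((n : ℝ) ^ 20)⁻¹ := mul_le_mul_of_nonneg_right h2 (by positivity)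
    _ = _ := by rw [div_eq_mul_inv]

end Vale.Agent.P163.Gap
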