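import Vale.Agent.P163.Gap.Defs
import Mathlib.Combinatorics.SetFamily.FourFunctions
import Mathlib.Analysis.Calculus.Deriv.MeanValue
import Mathlib.Analysis.SpecialFunctions.ExpDeriv

/-!
# Griffiths inequalities on the discrete cube

`Pos` is the cone spanned by the characters, `Dom H H'` says that `H + H' ∘ (η ·)` lies in it for
every configuration `η`. Two replicas give all the correlation inequalities needed.
-/

noncomputable section

namespace Vale.Agent.P163.Gap.Griffiths

open Finset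

variable {V : Type} [Fintype V] [DecidableEq V]

/-- Configurations. -/
abbrev Cfg (V : Type) : Type := V → Bool

/-- A character. -/
def chi (S : Finset V) (ε : Cfg V) : ℝ := ∏ v ∈ S, sgn (ε v)

/-- The product of two configurations. -/
def tw (η ε : Cfg V) : Cfg V := fun v => η v == ε v

omit [Fintype V] [DecidableEq V] in
lemma sgn_beq (a b : Bool) : sgn (a == b) = sgn a * sgn b := by
  cases a <;> cases b <;> simp [sgn]

lemma sgn_sq (a : Bool) : sgn a * sgn a = 1 := by cases a <;> simp [sgn]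

lemma abs_sgn (a : Bool) : |sgn a| = 1 := by cases a <;> simp [sgn]

omit [Fintype V] [DecidableEq V] in
lemma chi_tw (S : Finset V) (η ε : Cfg V) : chi S (tw η ε) = chi S η * chi S ε := by
  simp [chi, tw, sgn_beq, prod_mul_distrib]

omit [Fintype V] [DecidableEq V] in
lemma abs_chi (S : Finset V) (ε : Cfg V) : |chi S ε| = 1 := by
  simp [chi, abs_prod, abs_sgn]

omit [Fintype V] in
lemma chi_mul (S T : Finset V) (ε : Cfg V) : chi S ε * chi T ε = chi (symmDiff S T) ε := by
  have hd : Disjoint (S \ T) (T \ S) := disjoint_sdiff_sdiff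
  rw [chi, chi, chi, symmDiff_def, sup_eq_union, prod_union hd,
    ← prod_sdiff (inter_subset_left (s₁ := S) (s₂ := T)),
    ← prod_sdiff (inter_subset_right (s₁ := S) (s₂ := T)), sdiff_inter_self_left,
    sdiff_inter_self_right]
  have h : ∏ v ∈ S ∩ T, sgn (ε v) * sgn (ε v) = 1 := prod_eq_one fun v _ => sgn_sq _
  rw [prod_mul_distrib] at h
  linear_combination (∏ v ∈ S \ T, sgn (ε v)) * (∏ v ∈ T \ S, sgn (ε v)) * h

/-- The cone spanned by the characters. -/
inductive Pos : (Cfg V → ℝ) → Prop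
  | chi (S : Finset V) : Pos (chi S)
  | zero : Pos 0
  | add {f g : Cfg V → ℝ} : Pos f → Pos g → Pos (f + g)
  | smul {c : ℝ} {f : Cfg V → ℝ} : 0 ≤ c → Pos f → Pos (c • f)

namespace Pos

omit [Fintype V] [DecidableEq V] in
lemma const {c : ℝ} (hc : 0 ≤ c) : Pos (fun _ : Cfg V => c) := by
  have h := Pos.smul hc (Pos.chi (∅ : Finset V))
  convert h using 1
  funext ε
  simp [Griffiths.chi]

omit [Fintype V] [DecidableEq V] in
lemma var (v : V) : Pos fun ε : Cfg V => sgn (ε v) := by
  convert Pos.chi ({v} : Finset V) using 1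
  funext ε
  simp [Griffiths.chi]

omit [Fintype V] [DecidableEq V] in
lemma sum {κ : Type*} (s : Finset κ) {f : κ → Cfg V → ℝ} (h : ∀ k ∈ s, Pos (f k)) :
    Pos (∑ k ∈ s, f k) := Finset.sum_induction _ Pos (fun _ _ => Pos.add) Pos.zero h

omit [Fintype V] in
lemma mul {f g : Cfg V → ℝ} (hf : Pos f) (hg : Pos g) : Pos (f * g) := by
  induction hf with
  | chi S =>
    induction hg with
    | chi T =>
      convert Pos.chi (symmDiff S T) using 1
      funext ε
      exact chi_mul S T ε
    | zero => rw [mul_zero]; exact Pos.zero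
    | add _ _ h₁ h₂ => rw [mul_add]; exact h₁.add h₂
    | smul hc _ h => rw [mul_smul_comm]; exact Pos.smul hc h
  | zero => rw [zero_mul]; exact Pos.zero
  | add _ _ h₁ h₂ => rw [add_mul]; exact h₁.add h₂
  | smul hc _ h => rw [smul_mul_assoc]; exact Pos.smul hc h

omit [Fintype V] in
lemma exp {f : Cfg V → ℝ} (hf : Pos f) : Pos fun ε => Real.exp (f ε) := by
  suffices H : ∀ c : ℝ, 0 ≤ c → Pos fun ε => Real.exp (c * f ε) by simpa using H 1 zero_le_one
  induction hf with
  | chi S =>
    intro c hc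
    have h : Pos ((fun _ : Cfg V => Real.cosh c) + Real.sinh c • Griffiths.chi S) :=
      (Pos.const (Real.cosh_pos c).le).add (Pos.smul (Real.sinh_nonneg_iff.2 hc) (Pos.chi S))
    convert h using 1
    funext ε
    simp only [Pi.add_apply, Pi.smul_apply, smul_eq_mul]
    rcases eq_or_eq_neg_of_abs_eq (abs_chi S ε) with e | e <;> rw [e]
    · rw [mul_one, mul_one, Real.cosh_add_sinh]
    · rw [mul_neg_one, mul_neg_one, ← sub_eq_add_neg, Real.cosh_sub_sinh]
  | zero => intro c _; simpa using Pos.const (V := V) zero_le_one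
  | add _ _ h₁ h₂ =>
    intro c hc
    convert (h₁ c hc).mul (h₂ c hc) using 1
    funext ε
    simp [mul_add, Real.exp_add]
  | @smul d g hd _ h =>
    intro c hc
    convert h (c * d) (mul_nonneg hc hd) using 1
    funext ε
    simp [mul_assoc]

lemma sum_nonneg {f : Cfg V → ℝ} (hf : Pos f) : 0 ≤ ∑ ε, f ε := by
  induction hf with
  | chi S =>
    simp only [Griffiths.chi]
    rcases S.eq_empty_or_nonempty with rfl | ⟨v, hv⟩
    · simp
    · refine le_of_eq (Eq.symm ?_)
      have hflip : ∀ ε : Cfg V, ∏ u ∈ S, sgn (Function.update ε v (!ε v) u) =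
          -∏ u ∈ S, sgn (ε u) := fun ε => by
        rw [← Finset.mul_prod_erase S _ hv, ← Finset.mul_prod_erase S _ hv, Function.update_self,
          prod_congr rfl fun u hu => by rw [Function.update_of_ne (mem_erase.1 hu).1]]
        cases ε v <;> simp [sgn]
      have e : ∑ ε : Cfg V, ∏ u ∈ S, sgn (Function.update ε v (!ε v) u) =
          ∑ ε : Cfg V, ∏ u ∈ S, sgn (ε u) := by
        refine Fintype.sum_bijective (fun ε => Function.update ε v (!ε v))
          (Function.Involutive.bijective fun ε => ?_) _ _ fun ε => rfl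
        simp
      simp only [hflip, sum_neg_distrib] at e
      linarith
  | zero => simp
  | add _ _ h₁ h₂ => simp only [Pi.add_apply, sum_add_distrib]; linarith
  | smul hc _ h => simp only [Pi.smul_apply, smul_eq_mul, ← mul_sum]; positivity

omit [Fintype V] [DecidableEq V] in
lemma twist {f : Cfg V → ℝ} (hf : Pos f) (η : Cfg V) :
    Pos (fun ε => f ε + f (tw η ε)) ∧ Pos (fun ε => f ε - f (tw η ε)) := by
  induction hf with
  | chi S =>
    have h := abs_le.1 (abs_chi S η).le
    refine ⟨?_, ?_⟩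
    · convert Pos.smul (c := 1 + Griffiths.chi S η) (by linarith) (Pos.chi S) using 1
      funext ε
      simp [chi_tw, add_mul]
    · convert Pos.smul (c := 1 - Griffiths.chi S η) (by linarith) (Pos.chi S) using 1
      funext ε
      simp [chi_tw, sub_mul]
  | zero => exact ⟨by simpa using Pos.const le_rfl, by simpa using Pos.const le_rfl⟩
  | add _ _ h₁ h₂ =>
    refine ⟨?_, ?_⟩
    · convert h₁.1.add h₂.1 using 1
      funext ε; simp only [Pi.add_apply]; ring
    · convert h₁.2.add h₂.2 using 1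
      funext ε; simp only [Pi.add_apply]; ring
  | smul hc _ h =>
    refine ⟨?_, ?_⟩
    · convert Pos.smul hc h.1 using 1
      funext ε; simp only [Pi.smul_apply, smul_eq_mul]; ring
    · convert Pos.smul hc h.2 using 1
      funext ε; simp only [Pi.smul_apply, smul_eq_mul]; ring

end Pos

/-- `H` dominates `H'`. -/
def Dom (H H' : Cfg V → ℝ) : Prop := ∀ η, Pos fun ε => H ε + H' (tw η ε)

omit [Fintype V] [DecidableEq V] in
lemma Dom.add {H H' K K' : Cfg V → ℝ} (h : Dom H H') (k : Dom K K') :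
    Dom (fun ε => H ε + K ε) (fun ε => H' ε + K' ε) := fun η => by
  convert (h η).add (k η) using 1
  funext ε; simp only [Pi.add_apply]; ring

omit [Fintype V] [DecidableEq V] in
lemma dom_chi {c c' : ℝ} (h : |c'| ≤ c) (S : Finset V) :
    Dom (fun ε => c * chi S ε) (fun ε => c' * chi S ε) := fun η => by
  have hb : 0 ≤ c + c' * chi S η := by
    have h1 : |c' * chi S η| ≤ c := by rwa [abs_mul, abs_chi, mul_one]
    linarith [neg_abs_le (c' * chi S η)]
  convert Pos.smul hb (Pos.chi S) using 1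
  funext ε; simp only [chi_tw, Pi.smul_apply, smul_eq_mul]; ring

omit [Fintype V] [DecidableEq V] in
lemma dom_sum {κ : Type*} (s : Finset κ) {F F' : κ → Cfg V → ℝ} (h : ∀ k ∈ s, Dom (F k) (F' k)) :
    Dom (fun ε => ∑ k ∈ s, F k ε) (fun ε => ∑ k ∈ s, F' k ε) := fun η => by
  convert Pos.sum s fun k hk => h k hk η using 1
  funext ε; simp [sum_add_distrib]

omit [Fintype V] [DecidableEq V] in
lemma Dom.refl {H : Cfg V → ℝ} (hH : Pos H) : Dom H H := fun η => (hH.twist η).1

/-- The expectation with weight `exp H`. -/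
def mean (H f : Cfg V → ℝ) : ℝ := (∑ ε, Real.exp (H ε) * f ε) / ∑ ε, Real.exp (H ε)

/-- The partition function. -/
def part (H : Cfg V → ℝ) : ℝ := ∑ ε : Cfg V, Real.exp (H ε)

lemma part_pos (H : Cfg V → ℝ) : 0 < part H :=
  sum_pos (fun _ _ => Real.exp_pos _) univ_nonempty

lemma abs_mean_le (H : Cfg V → ℝ) {f : Cfg V → ℝ} {M : ℝ} (h : ∀ ε, |f ε| ≤ M) :
    |mean H f| ≤ M := by
  change |(∑ ε, Real.exp (H ε) * f ε) / part H| ≤ M
  rw [abs_div, abs_of_pos (part_pos H), div_le_iff₀ (part_pos H)]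
  refine (abs_sum_le_sum_abs _ _).trans ?_
  rw [part, mul_sum]
  refine sum_le_sum fun ε _ => ?_
  rw [abs_mul, abs_of_pos (Real.exp_pos _), mul_comm]
  exact mul_le_mul_of_nonneg_right (h ε) (Real.exp_pos _).le

lemma mean_mono (H : Cfg V → ℝ) {f g : Cfg V → ℝ} (h : ∀ ε, f ε ≤ g ε) : mean H f ≤ mean H g :=
  div_le_div_of_nonneg_right
    (sum_le_sum fun ε _ => mul_le_mul_of_nonneg_left (h ε) (Real.exp_pos _).le) (part_pos H).le

lemma mean_const_mul (H : Cfg V → ℝ) (c : ℝ) (f : Cfg V → ℝ) :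
    mean H (fun ε => c * f ε) = c * mean H f := by
  simp only [mean, ← mul_div_assoc, mul_sum]
  exact congrArg (· / _) (sum_congr rfl fun ε _ => mul_left_comm _ _ _)

lemma mean_sum (H : Cfg V → ℝ) {κ : Type*} (s : Finset κ) (f : κ → Cfg V → ℝ) :
    mean H (fun ε => ∑ k ∈ s, f k ε) = ∑ k ∈ s, mean H (f k) := by
  simp only [mean, mul_sum, ← sum_div]
  rw [sum_comm]

omit [Fintype V] [DecidableEq V] in
lemma tw_bijective (ε : Cfg V) : Function.Bijective fun η => tw η ε := by
  refine Function.Involutive.bijective fun η => funext fun v => ?_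
  simp only [tw]; cases η v <;> cases ε v <;> rfl

lemma sum_sum_tw (F : Cfg V → Cfg V → ℝ) : ∑ η, ∑ ε, F ε (tw η ε) = ∑ ε, ∑ ε', F ε ε' := by
  rw [sum_comm]
  exact sum_congr rfl fun ε _ => Fintype.sum_bijective _ (tw_bijective ε) _ _ fun η => rfl

/-- The first Griffiths inequality. -/
theorem mean_nonneg {H f : Cfg V → ℝ} (hH : Pos H) (hf : Pos f) : 0 ≤ mean H f :=
  div_nonneg (hH.exp.mul hf).sum_nonneg (part_pos H).le

/-- Comparison of expectations. -/
theorem abs_mean_le_mean {H H' f : Cfg V → ℝ} (hd : Dom H H') (hf : Pos f) :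
    |mean H' f| ≤ mean H f := by
  have hZ := part_pos H
  have hZ' := part_pos H'
  have key : ∀ s : ℝ, (∀ η, Pos fun ε => f ε - s * f (tw η ε)) →
      0 ≤ (∑ ε, Real.exp (H ε) * f ε) * part H' - s * (part H * ∑ ε, Real.exp (H' ε) * f ε) := by
    intro s hs
    have h : 0 ≤ ∑ η, ∑ ε, Real.exp (H ε + H' (tw η ε)) * (f ε - s * f (tw η ε)) :=
      sum_nonneg fun η _ => ((hd η).exp.mul (hs η)).sum_nonneg
    rw [sum_sum_tw (fun ε ε' => Real.exp (H ε + H' ε') * (f ε - s * f ε'))] at h
    refine h.trans_eq ?_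
    simp only [part, sum_mul_sum]
    simp only [mul_sum, ← sum_sub_distrib, Real.exp_add]
    exact sum_congr rfl fun ε _ => sum_congr rfl fun ε' _ => by ring
  have h1 := key 1 fun η => by simpa using (hf.twist η).2
  have h2 := key (-1) fun η => by simpa using (hf.twist η).1
  change |(∑ ε, Real.exp (H' ε) * f ε) / part H'| ≤ (∑ ε, Real.exp (H ε) * f ε) / part H
  rw [abs_div, abs_of_pos hZ', div_le_div_iff₀ hZ' hZ]
  rcases abs_cases (∑ ε, Real.exp (H' ε) * f ε) with ⟨e, _⟩ | ⟨e, _⟩ <;> rw [e] <;> linarith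

/-- Monotonicity in a positive perturbation. -/
theorem mean_le_mean {H H' f : Cfg V → ℝ} (hd : Dom H H') (hf : Pos f) : mean H' f ≤ mean H f :=
  (le_abs_self _).trans (abs_mean_le_mean hd hf)

/-- The second Griffiths inequality. -/
theorem mean_mul_le {H f g : Cfg V → ℝ} (hH : Pos H) (hf : Pos f) (hg : Pos g) :
    mean H f * mean H g ≤ mean H (fun ε => f ε * g ε) := by
  have hZ := part_pos H
  have h : 0 ≤ ∑ η, ∑ ε, Real.exp (H ε + H (tw η ε)) * (f ε * (g ε - g (tw η ε))) :=
    sum_nonneg fun η _ => ((hH.twist η).1.exp.mul (hf.mul (hg.twist η).2)).sum_nonneg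
  rw [sum_sum_tw (fun ε ε' => Real.exp (H ε + H ε') * (f ε * (g ε - g ε')))] at h
  have h' : (∑ ε, Real.exp (H ε) * f ε) * ∑ ε, Real.exp (H ε) * g ε ≤
      (∑ ε, Real.exp (H ε) * (f ε * g ε)) * part H := by
    rw [← sub_nonneg]
    refine h.trans_eq ?_
    simp only [part, sum_mul_sum, ← sum_sub_distrib, Real.exp_add]
    exact sum_congr rfl fun ε _ => sum_congr rfl fun ε' _ => by ring
  change (∑ ε, Real.exp (H ε) * f ε) / part H * ((∑ ε, Real.exp (H ε) * g ε) / part H) ≤
    (∑ ε, Real.exp (H ε) * (f ε * g ε)) / part H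
  rw [div_mul_div_comm, div_le_div_iff₀ (by positivity) hZ]
  nlinarith

/-- Log-supermodularity of partition functions. -/
theorem part_supermod {H P Q R : Cfg V → ℝ} (hH : Pos H) (hP : Pos P) (hQ : Pos Q) (hR : Pos R) :
    part (H + P) * part (H + Q) ≤ part H * part (H + P + Q + R) := by
  have hZ := part_pos H
  have e : ∀ D : Cfg V → ℝ, part (H + D) = part H * mean H fun ε => Real.exp (D ε) := fun D => by
    change _ = part H * (_ / part H)
    rw [mul_div_cancel₀ _ hZ.ne']
    simp [part, Real.exp_add]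
  have hR1 : 1 ≤ mean H fun ε => Real.exp (R ε) := by
    have h0 : mean H (fun _ => (1:ℝ)) = 1 := by
      simp only [mean, mul_one]
      exact div_self hZ.ne'
    have h1 := mean_nonneg hH hR
    have h2 : mean H (fun ε => 1 + R ε) ≤ mean H fun ε => Real.exp (R ε) :=
      mean_mono H fun ε => by linarith [Real.add_one_le_exp (R ε)]
    have h3 : mean H (fun ε => 1 + R ε) = mean H (fun _ => (1:ℝ)) + mean H R := by
      simp only [mean, ← add_div, ← sum_add_distrib, mul_add]
    linarith
  have h12 := mean_mul_le hH hP.exp (hQ.exp.mul hR.exp)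
  have h3 := mean_mul_le hH hQ.exp hR.exp
  have hn : 0 ≤ mean H fun ε => Real.exp (Q ε) := mean_nonneg hH hQ.exp
  have hnP : 0 ≤ mean H fun ε => Real.exp (P ε) := mean_nonneg hH hP.exp
  have e4 : part (H + P + Q + R) =
      part H * mean H fun ε => Real.exp (P ε) * (Real.exp (Q ε) * Real.exp (R ε)) := by
    rw [show H + P + Q + R = H + (P + Q + R) by abel, e]
    simp only [Pi.add_apply, Real.exp_add, mul_assoc]
  rw [e P, e Q, e4]
  have h4 : (mean H fun ε => Real.exp (P ε)) * (mean H fun ε => Real.exp (Q ε)) ≤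
      mean H fun ε => Real.exp (P ε) * (Real.exp (Q ε) * Real.exp (R ε)) :=
    calc _ ≤ (mean H fun ε => Real.exp (P ε)) *
          (mean H fun ε => Real.exp (Q ε) * Real.exp (R ε)) :=
        mul_le_mul_of_nonneg_left ((le_mul_of_one_le_right hn hR1).trans h3) hnP
      _ ≤ _ := h12
  nlinarith [mul_le_mul_of_nonneg_left h4 (mul_nonneg hZ.le hZ.le)]

/-! ### Splitting the vertices -/

/-- `ε` on `A`, `ε'` elsewhere. -/
def mix (A : Finset V) (ε ε' : Cfg V) : Cfg V := fun v => if v ∈ A then ε v else ε' v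

lemma sum_mix (A : Finset V) (F : Cfg V → Cfg V → ℝ) :
    ∑ ε, ∑ ε', F (mix A ε ε') (mix A ε' ε) = ∑ ε, ∑ ε', F ε ε' := by
  rw [← Fintype.sum_prod_type', ← Fintype.sum_prod_type']
  refine Fintype.sum_bijective (fun p : Cfg V × Cfg V => (mix A p.1 p.2, mix A p.2 p.1))
    (Function.Involutive.bijective fun p => ?_) _ _ fun p => rfl
  refine Prod.ext (funext fun v => ?_) (funext fun v => ?_) <;>
    by_cases h : v ∈ A <;> simp [mix, h]

/-- Sums over independent spins factorise. -/
lemma sum_split (A : Finset V) {F G : Cfg V → ℝ} (hF : ∀ ε ε', F (mix A ε ε') = F ε)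
    (hG : ∀ ε ε', G (mix A ε ε') = G ε') :
    (Fintype.card (Cfg V) : ℝ) * ∑ ε, F ε * G ε = (∑ ε, F ε) * ∑ ε, G ε := by
  have h := sum_mix A (fun a b => F a * G b)
  simp only [hF, hG] at h
  rw [sum_mul_sum, ← h]
  simp [mul_sum]

/-- The expectation given the spins outside `T`. -/
def cmean (H : Cfg V → ℝ) (T : Finset V) (φ : Cfg V → ℝ) (ε : Cfg V) : ℝ :=
  mean (fun ε' => H (mix T ε' ε)) fun ε' => φ (mix T ε' ε)

/-- The Markov identity. -/
theorem mean_cmean (H : Cfg V → ℝ) (T : Finset V) (φ : Cfg V → ℝ) :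
    mean H (cmean H T φ) = mean H φ := by
  refine congrArg (· / ∑ ε, Real.exp (H ε)) ?_
  have hmm : ∀ a b : Cfg V, mix T (mix T b a) (mix T a b) = b := fun a b => by
    funext v; by_cases h : v ∈ T <;> simp [mix, h]
  set Z : Cfg V → ℝ := fun ε => ∑ ε', Real.exp (H (mix T ε' ε)) with hZd
  have hZ : ∀ ε, 0 < Z ε := fun ε => sum_pos (fun _ _ => Real.exp_pos _) univ_nonempty
  have hinv : ∀ a b, Z (mix T a b) = Z b := fun a b => sum_congr rfl fun c _ => by
    congr 2; funext v; by_cases h : v ∈ T <;> simp [mix, h]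
  calc ∑ ε, Real.exp (H ε) * cmean H T φ ε
      = ∑ ε, ∑ ε', Real.exp (H ε) * (Real.exp (H (mix T ε' ε)) * φ (mix T ε' ε)) / Z ε := by
        refine sum_congr rfl fun ε _ => ?_
        rw [cmean, mean, mul_div_assoc', mul_sum, ← sum_div]
    _ = ∑ ε, ∑ ε', Real.exp (H (mix T ε' ε)) * (Real.exp (H ε) * φ ε) / Z ε := by
        rw [← sum_mix T fun a b =>
          Real.exp (H a) * (Real.exp (H (mix T b a)) * φ (mix T b a)) / Z a]
        rw [sum_comm]
        refine sum_congr rfl fun b _ => sum_congr rfl fun a _ => ?_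
        rw [hinv, show mix T (mix T b a) (mix T a b) = b from hmm a b]
    _ = ∑ ε, Real.exp (H ε) * φ ε := by
        refine sum_congr rfl fun ε _ => ?_
        rw [← sum_div, ← sum_mul]
        exact mul_div_cancel_left₀ _ (hZ ε).ne'

/-- The derivative of an expectation along a perturbation. -/
theorem hasDerivAt_mean (H P f : Cfg V → ℝ) (t : ℝ) :
    HasDerivAt (fun t => mean (fun ε => H ε + t * P ε) f)
      (mean (fun ε => H ε + t * P ε) (fun ε => f ε * P ε) -
        mean (fun ε => H ε + t * P ε) f * mean (fun ε => H ε + t * P ε) P) t := by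
  have hd : ∀ ε, HasDerivAt (fun t => Real.exp (H ε + t * P ε))
      (Real.exp (H ε + t * P ε) * P ε) t := fun ε => by
    simpa using (((hasDerivAt_id t).mul_const (P ε)).const_add (H ε)).exp
  have hn := HasDerivAt.fun_sum (u := univ) fun ε (_ : ε ∈ univ) => (hd ε).mul_const (f ε)
  have hz := HasDerivAt.fun_sum (u := univ) fun ε (_ : ε ∈ univ) => hd ε
  have hpos := part_pos (fun ε => H ε + t * P ε)
  refine (hn.div hz hpos.ne').congr_deriv ?_
  have e : ∑ ε, Real.exp (H ε + t * P ε) * (f ε * P ε) =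
      ∑ ε, Real.exp (H ε + t * P ε) * P ε * f ε := sum_congr rfl fun ε _ => by ring
  simp only [mean, e]
  rw [part] at hpos
  field_simp

end Vale.Agent.P163.Gap.Griffiths
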