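import Vale.Agent.P163.Gap.StepIface
import Vale.Agent.P163.Gap.Flip
import Vale.Agent.P163.Gap.IBP

/-!
# Mass gap for `β ≤ c n log n`: the pair function and the removal of the field

The pair function depends only on the absolute values of the field, so flipping component `i`
site by site leaves it unchanged and turns the two-point function into an Ising correlation.
-/

noncomputable section

namespace Vale.Agent.P163.Gap

open MeasureTheory Finset Griffiths IsingAux

namespace PairAux

set_option linter.unusedSectionVars false

variable {V E : Type} [Fintype V] [Fintype E] [DecidableEq V] {src dst : E → V}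

/-! ### Gauge, bounds and monotonicity -/

lemma sgn_mul_abs (x : ℝ) : sgn (decide (0 ≤ x)) * |x| = x := by
  rcases le_or_gt 0 x with h | h
  · simp [sgn, h, abs_of_nonneg h]
  · simp [sgn, not_le.2 h, abs_of_neg h]

lemma mul_sgn (x : ℝ) : x * sgn (decide (0 ≤ x)) = |x| := by
  rcases le_or_gt 0 x with h | h
  · simp [sgn, h, abs_of_nonneg h]
  · simp [sgn, not_le.2 h, abs_of_neg h]

/-- The couplings of the absolute values. -/
def absCoup (src dst : E → V) (β : ℝ) (s : V → ℝ) (e : E) : ℝ := β * |s (src e)| * |s (dst e)|

lemma pairFn_abs (hI : IsingFacts src dst) (β : ℝ) (T : Finset V) (w v : V) (s : V → ℝ) :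
    pairFn src dst β T w v s
      = |s w| * |s v| * corr src dst (restrict src dst (absCoup src dst β s) T) w v := by
  have e : restrict src dst (signedCoup src dst β s) T = fun e =>
      sgn (decide (0 ≤ s (src e))) * sgn (decide (0 ≤ s (dst e))) *
        restrict src dst (absCoup src dst β s) T e := by
    funext e
    simp only [restrict]
    split_ifs
    · simp only [signedCoup, absCoup]
      conv_lhs => rw [← sgn_mul_abs (s (src e)), ← sgn_mul_abs (s (dst e))]
      ring
    · simp
  rw [pairFn, e, hI.corr_gauge _ (fun u => decide (0 ≤ s u)), ← mul_sgn (s w), ← mul_sgn (s v)]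
  ring

lemma pairFn_congr_abs (hI : IsingFacts src dst) (β : ℝ) (T : Finset V) (w v : V) {s s' : V → ℝ}
    (h : ∀ u, |s' u| = |s u|) : pairFn src dst β T w v s' = pairFn src dst β T w v s := by
  have e : absCoup src dst β s' = absCoup src dst β s := funext fun e => by simp [absCoup, h]
  simp only [pairFn_abs hI, e, h]

lemma absCoup_nonneg {β : ℝ} (hβ : 0 ≤ β) (s : V → ℝ) (e : E) : 0 ≤ absCoup src dst β s e := by
  unfold absCoup; positivity

lemma pairFn_bounds (hI : IsingFacts src dst) {β : ℝ} (hβ : 0 ≤ β) (T : Finset V) (w v : V)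
    (s : V → ℝ) :
    0 ≤ pairFn src dst β T w v s ∧ pairFn src dst β T w v s ≤ |s w| * |s v| := by
  rw [pairFn_abs hI]
  refine ⟨mul_nonneg (by positivity) (hI.corr_nonneg _ (fun e => ?_) _ _),
    mul_le_of_le_one_right (by positivity) ((le_abs_self _).trans (hI.abs_corr_le _ _ _))⟩
  exact restrict_nonneg (absCoup_nonneg hβ s) T e

lemma pairFn_mono (hI : IsingFacts src dst) {β : ℝ} (hβ : 0 ≤ β) {T S : Finset V} (hTS : T ⊆ S)
    (w v : V) (s : V → ℝ) : pairFn src dst β T w v s ≤ pairFn src dst β S w v s := by
  rw [pairFn_abs hI, pairFn_abs hI]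
  refine mul_le_mul_of_nonneg_left (hI.corr_mono _ _ (fun e => ?_) _ _) (by positivity)
  refine ⟨restrict_nonneg (absCoup_nonneg hβ s) T e, ?_⟩
  unfold restrict
  split_ifs with h1 h2
  · exact le_rfl
  · exact absurd ⟨hTS h1.1, hTS h1.2⟩ h2
  · exact absCoup_nonneg hβ s e
  · exact le_rfl

/-! ### The derivative -/

/-- The slope of the couplings in the coordinate `x`. -/
def slope (src dst : E → V) (β : ℝ) (T : Finset V) (x : V) (s : V → ℝ) : E → ℝ :=
  restrict src dst
    (fun e => if src e = x then β * s (dst e) else if dst e = x then β * s (src e) else 0) T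

lemma coup_update (hl : ∀ e, src e ≠ dst e) (β : ℝ) (T : Finset V) (x : V) (s : V → ℝ) (t : ℝ)
    (e : E) :
    restrict src dst (signedCoup src dst β (Function.update s x t)) T e
      = restrict src dst (signedCoup src dst β s) T e
        + (t - s x) * slope src dst β T x s e := by
  simp only [slope, restrict]
  split_ifs with hi hs hd
  · subst hs
    simp only [signedCoup, Function.update_self, Function.update_of_ne (hl e).symm]
    ring
  · subst hd
    simp only [signedCoup, Function.update_self, Function.update_of_ne hs]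
    ring
  · simp [signedCoup, Function.update_of_ne hs, Function.update_of_ne hd]
  · simp

/-- The derivative of the correlation in the direction `K`. -/
def dcorr (src dst : E → V) (J K : E → ℝ) (w v : V) : ℝ :=
  mean (ener src dst J 0) (fun ε => sgn (ε w) * sgn (ε v) * ener src dst K 0 ε)
    - mean (ener src dst J 0) (fun ε => sgn (ε w) * sgn (ε v))
      * mean (ener src dst J 0) (ener src dst K 0)

/-- The derivative of the pair function in the coordinate `x`. -/
def pairD (src dst : E → V) (β : ℝ) (T : Finset V) (w v x : V) (s : V → ℝ) : ℝ :=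
  ((if w = x then 1 else 0) * s v + s w * if v = x then 1 else 0) *
      corr src dst (restrict src dst (signedCoup src dst β s) T) w v
    + s w * s v *
      dcorr src dst (restrict src dst (signedCoup src dst β s) T) (slope src dst β T x s) w v

lemma hasDerivAt_coord (s : V → ℝ) (x w : V) :
    HasDerivAt (fun t => Function.update s x t w) (if w = x then 1 else 0) (s x) := by
  by_cases h : w = x
  · subst h
    simpa [id_def] using hasDerivAt_id' (s w)
  · simpa [h] using hasDerivAt_const (s x) (s w)

lemma hasDerivAt_pairFn (hl : ∀ e, src e ≠ dst e) (β : ℝ) (T : Finset V) (w v x : V)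
    (s : V → ℝ) :
    HasDerivAt (fun t => pairFn src dst β T w v (Function.update s x t))
      (pairD src dst β T w v x s) (s x) := by
  set J := restrict src dst (signedCoup src dst β s) T
  set K := slope src dst β T x s
  have hH : ∀ t, corr src dst (restrict src dst (signedCoup src dst β (Function.update s x t)) T)
      w v = mean (fun ε => ener src dst J 0 ε + (t - s x) * ener src dst K 0 ε)
        fun ε => sgn (ε w) * sgn (ε v) := by
    intro t
    rw [corr, imean_eq]
    congr 1
    funext ε
    simp only [ener, Pi.zero_apply, zero_mul, sum_const_zero, add_zero, mul_sum,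
      ← sum_add_distrib]
    refine sum_congr rfl fun e _ => ?_
    rw [coup_update hl]
    ring
  have hsub : HasDerivAt (fun t => t - s x) 1 (s x) := (hasDerivAt_id' (s x)).sub_const (s x)
  have hm := (hasDerivAt_mean (ener src dst J 0) (ener src dst K 0)
    (fun ε => sgn (ε w) * sgn (ε v)) (s x - s x)).comp (h := fun t => t - s x) (s x) hsub
  have h := ((hasDerivAt_coord s x w).mul (hasDerivAt_coord s x v)).mul hm
  unfold pairFn
  simp only [hH]
  refine h.congr_deriv ?_
  simp only [pairD, dcorr, corr, imean_eq, Pi.mul_apply, Function.update_eq_self, Function.comp_def,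
    sub_self, zero_mul, add_zero, mul_one, J, K]

lemma continuous_mean {α : Type*} [TopologicalSpace α] {H f : α → Cfg V → ℝ}
    (hH : ∀ ε, Continuous fun a => H a ε) (hf : ∀ ε, Continuous fun a => f a ε) :
    Continuous fun a => mean (H a) (f a) :=
  (continuous_finsetSum _ fun ε _ => ((hH ε).rexp).mul (hf ε)).div
    (continuous_finsetSum _ fun ε _ => (hH ε).rexp) fun a => (part_pos (H a)).ne'

lemma continuous_restrict_signed (β : ℝ) (T : Finset V) (e : E) :
    Continuous fun s : V → ℝ => restrict src dst (signedCoup src dst β s) T e := by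
  unfold restrict signedCoup
  split_ifs <;> fun_prop

lemma continuous_slope (β : ℝ) (T : Finset V) (x : V) (e : E) :
    Continuous fun s : V → ℝ => slope src dst β T x s e := by
  simp only [slope, restrict]
  split_ifs <;> fun_prop

lemma continuous_ener {α : Type*} [TopologicalSpace α] {J : α → E → ℝ}
    (hJ : ∀ e, Continuous fun a => J a e) (ε : Cfg V) :
    Continuous fun a => ener src dst (J a) 0 ε := by
  unfold ener; fun_prop

lemma continuous_corr_signed (β : ℝ) (T : Finset V) (w v : V) :
    Continuous fun s : V → ℝ =>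
      corr src dst (restrict src dst (signedCoup src dst β s) T) w v :=
  continuous_mean (continuous_ener (continuous_restrict_signed β T)) fun _ => continuous_const

lemma continuous_pairFn (β : ℝ) (T : Finset V) (w v : V) :
    Continuous (pairFn src dst β T w v) := by
  unfold pairFn
  exact ((continuous_apply w).mul (continuous_apply v)).mul (continuous_corr_signed β T w v)

lemma continuous_pairD (β : ℝ) (T : Finset V) (w v x : V) :
    Continuous (pairD src dst β T w v x) := by
  have hH := continuous_ener (src := src) (dst := dst)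
    (J := fun s => restrict src dst (signedCoup src dst β s) T) (continuous_restrict_signed β T)
  have hK := continuous_ener (src := src) (dst := dst)
    (J := fun s => slope src dst β T x s) (continuous_slope β T x)
  have hc := continuous_corr_signed (src := src) (dst := dst) β T w v
  have hd : Continuous fun s : V → ℝ =>
      dcorr src dst (restrict src dst (signedCoup src dst β s) T) (slope src dst β T x s) w v :=
    (continuous_mean (f := fun s ε => sgn (ε w) * sgn (ε v) *
        ener src dst (slope src dst β T x s) 0 ε) hH fun ε => continuous_const.mul (hK ε)).sub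
      ((continuous_mean (f := fun _ ε => sgn (ε w) * sgn (ε v)) hH fun _ => continuous_const).mul
        (continuous_mean hH hK))
  unfold pairD
  fun_prop

lemma pairD_eq_zero (β : ℝ) {T : Finset V} {w v x : V} (hw : w ∈ T) (hv : v ∈ T) (hx : x ∉ T)
    (s : V → ℝ) : pairD src dst β T w v x s = 0 := by
  have h1 : w ≠ x := fun h => hx (h ▸ hw)
  have h2 : v ≠ x := fun h => hx (h ▸ hv)
  have hK : slope src dst β T x s = 0 := by
    funext e
    simp only [slope, restrict, Pi.zero_apply]
    split_ifs with hi hs hd
    · exact absurd (hs ▸ hi.1) hx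
    · exact absurd (hd ▸ hi.2) hx
    all_goals rfl
  simp [pairD, dcorr, hK, h1, h2, ener, mean]

lemma abs_pairD_le (hI : IsingFacts src dst) {β : ℝ} (hβ : 0 ≤ β)
    {T : Finset V} {w v : V} (hw : w ∈ T) (hv : v ∈ T) (x : V)
    (hdeg : (univ.filter fun e => src e = x ∨ dst e = x).card ≤ 4) (s : V → ℝ) {d : ℝ}
    (hs : ∀ y ∈ T, |s y| ≤ d) (hd : 0 ≤ d) :
    |pairD src dst β T w v x s| ≤ 2 * d + 8 * β * d ^ 3 := by
  set J := restrict src dst (signedCoup src dst β s) T
  set K := slope src dst β T x s
  have hK : ∀ e, |K e| ≤ if src e = x ∨ dst e = x then β * d else 0 := by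
    intro e
    simp only [K, slope, restrict]
    by_cases hi : inside src dst T e
    · rw [if_pos hi]
      split_ifs with h1 h2 h3 h4 h5
      all_goals first
        | tauto
        | (simp; done)
        | (rw [abs_mul, abs_of_nonneg hβ]
           first
            | exact mul_le_mul_of_nonneg_left (hs _ hi.2) hβ
            | exact mul_le_mul_of_nonneg_left (hs _ hi.1) hβ)
    · rw [if_neg hi, abs_zero]
      split_ifs <;> positivity
  have hP : ∀ ε : Cfg V, |ener src dst K 0 ε| ≤ 4 * (β * d) := by
    intro ε
    simp only [ener, Pi.zero_apply, zero_mul, sum_const_zero, add_zero]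
    calc |∑ e, K e * sgn (ε (src e)) * sgn (ε (dst e))|
        ≤ ∑ e, |K e * sgn (ε (src e)) * sgn (ε (dst e))| := abs_sum_le_sum_abs _ _
      _ = ∑ e, |K e| := sum_congr rfl fun e _ => by simp [abs_mul, abs_sgn]
      _ ≤ ∑ e, if src e = x ∨ dst e = x then β * d else 0 := sum_le_sum fun e _ => hK e
      _ = (univ.filter fun e => src e = x ∨ dst e = x).card * (β * d) := by
          rw [← sum_filter, sum_const, nsmul_eq_mul]
      _ ≤ 4 * (β * d) :=
          mul_le_mul_of_nonneg_right (by exact_mod_cast hdeg) (mul_nonneg hβ hd)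
  have hf : ∀ ε : Cfg V, |sgn (ε w) * sgn (ε v)| ≤ 1 := fun ε => by
    rw [abs_mul, abs_sgn, abs_sgn, mul_one]
  have hdc : |dcorr src dst J K w v| ≤ 8 * (β * d) := by
    refine (abs_sub _ _).trans ?_
    rw [abs_mul]
    have h1 : |mean (ener src dst J 0) fun ε => sgn (ε w) * sgn (ε v) * ener src dst K 0 ε|
        ≤ 4 * (β * d) := abs_mean_le _ fun ε => by
      rw [abs_mul, abs_mul, abs_sgn, abs_sgn, one_mul, one_mul]; exact hP ε
    have h2 := abs_mean_le (ener src dst J 0) hf
    have h3 := abs_mean_le (ener src dst J 0) hP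
    have h4 := mul_le_mul h2 h3 (abs_nonneg _) zero_le_one
    linarith
  have hc : ∀ u : V, |if u = x then (1 : ℝ) else 0| ≤ 1 := fun u => by split_ifs <;> simp
  have hA : |(if w = x then 1 else 0) * s v + s w * if v = x then 1 else 0| ≤ 2 * d := by
    refine (abs_add_le _ _).trans ?_
    rw [abs_mul, abs_mul]
    have := mul_le_mul (hc w) (hs v hv) (abs_nonneg _) zero_le_one
    have := mul_le_mul (hs w hw) (hc v) (abs_nonneg _) hd
    linarith
  refine (abs_add_le _ _).trans ?_
  rw [abs_mul, abs_mul, abs_mul (s w)]
  have h5 := mul_le_mul hA (hI.abs_corr_le J w v) (abs_nonneg _) (by positivity)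
  have h6 := mul_le_mul (mul_le_mul (hs w hw) (hs v hv) (abs_nonneg _) hd) hdc (abs_nonneg _)
    (by positivity)
  nlinarith

/-! ### Flipping one component -/

variable {n : ℕ}

/-- The signs of the sites of `S`. -/
def signs (S : Finset V) (ε : Cfg V) (y : ↥S) : Bool := ε y.1

lemma dot_flip (S : Finset V) (i : Fin n) (ε : Cfg V) (σ : Conf ↥S n) (x y : ↥S) :
    dot (flip i (signs S ε) σ x) (flip i (signs S ε) σ y)
        - co (flip i (signs S ε) σ x) i * co (flip i (signs S ε) σ y) i
      = dot (σ x) (σ y) - co (σ x) i * co (σ y) i := by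
  simp only [dot_eq, ← sum_erase_eq_sub (mem_univ i)]
  refine sum_congr rfl fun k hk => ?_
  simp [co_flip, ne_of_mem_erase hk]

lemma extend_flip (S : Finset V) (i : Fin n) (ε : Cfg V) (σ : Conf ↥S n) (u : V) :
    extend S (fun y => co (flip i (signs S ε) σ y) i) u
      = sgn (ε u) * extend S (fun y => co (σ y) i) u := by
  unfold extend
  split_ifs <;> simp [co_flip, signs]

lemma sum_ite_extend (S : Finset V) (G : ↥S → ℝ) (u : V) :
    ∑ x : ↥S, (if u = x.1 then G x else 0) = extend S G u := by
  unfold extend
  split_ifs with h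
  · rw [sum_eq_single ⟨u, h⟩ (fun x _ hx => if_neg fun e => hx (Subtype.ext e.symm)) (by simp),
      if_pos rfl]
  · exact sum_eq_zero fun x _ => if_neg fun e => h (by rw [e]; exact x.2)

/-- The adjacency of a block is a sum over bonds. -/
lemma sum_adj (hl : ∀ e, src e ≠ dst e) (β : ℝ) (S : Finset V) (τ : Conf V n) (G : ↥S → ℝ) :
    ∑ x, ∑ y, (blockOf β src dst S τ).A x y * (G x * G y)
      = 2 * ∑ e, extend S G (src e) * extend S G (dst e) := by
  simp only [blockOf, natCast_card_filter, sum_mul, mul_sum]
  rw [sum_congr rfl fun x _ => sum_comm, sum_comm]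
  refine sum_congr rfl fun e _ => ?_
  have key : ∀ x y : ↥S, (if (src e = x.1 ∧ dst e = y.1) ∨ (src e = y.1 ∧ dst e = x.1) then
      (1 : ℝ) else 0) * (G x * G y)
      = (if src e = x.1 then G x else 0) * (if dst e = y.1 then G y else 0)
        + (if dst e = x.1 then G x else 0) * (if src e = y.1 then G y else 0) := by
    intro x y
    by_cases ha : src e = x.1 ∧ dst e = y.1
    · have hb : ¬ (dst e = x.1) := fun hb => hl e (ha.1.trans hb.symm)
      rw [if_pos (Or.inl ha), if_pos ha.1, if_pos ha.2, if_neg hb, zero_mul, add_zero, one_mul]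
    · by_cases hb : src e = y.1 ∧ dst e = x.1
      · have hc : ¬ (src e = x.1) := fun hc => hl e (hc.trans hb.2.symm)
        rw [if_pos (Or.inr hb), if_neg hc, if_pos hb.2, if_pos hb.1, zero_mul, zero_add, one_mul]
      · rw [if_neg (by tauto), zero_mul]
        split_ifs <;> simp_all
  simp only [key, sum_add_distrib, ← mul_sum, ← sum_mul, sum_ite_extend]
  ring

/-- The part of the energy that does not see component `i`. -/
def rest {ι : Type} [Fintype ι] (P : Blk ι n) (i : Fin n) (σ : Conf ι n) : ℝ :=
  n * P.b * ((∑ x, ∑ y, P.A x y * (dot (σ x) (σ y) - co (σ x) i * co (σ y) i)) / 2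
    + ∑ x, P.fieldDot σ x)

lemma U_eq (hl : ∀ e, src e ≠ dst e) (hn : 0 < n) (β : ℝ) (S : Finset V) (τ : Conf V n)
    (i : Fin n) (σ : Conf ↥S n) :
    (zeroField (blockOf β src dst S τ) i).U σ = rest (zeroField (blockOf β src dst S τ) i) i σ
      + ∑ e, signedCoup src dst β (extend S fun y => co (σ y) i) e := by
  have h := sum_adj (n := n) hl β S τ fun y => co (σ y) i
  have hnb : (n : ℝ) * (blockOf β src dst S τ).b = β :=
    mul_div_cancel₀ β (by exact_mod_cast hn.ne')
  simp only [Blk.U, rest, zeroField, mul_sub, sum_sub_distrib, signedCoup, mul_assoc β, ← mul_sum,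
    hnb, h]
  ring

lemma rest_flip (β : ℝ) (S : Finset V) (τ : Conf V n) (i : Fin n) (ε : Cfg V) (σ : Conf ↥S n) :
    rest (zeroField (blockOf β src dst S τ) i) i (flip i (signs S ε) σ)
      = rest (zeroField (blockOf β src dst S τ) i) i σ := by
  have hf : ∀ x, (zeroField (blockOf β src dst S τ) i).fieldDot (flip i (signs S ε) σ) x
      = (zeroField (blockOf β src dst S τ) i).fieldDot σ x := fun x => by
    refine sum_congr rfl fun k _ => ?_
    by_cases hk : k = i <;> simp [zeroField, co_flip, hk]
  simp only [rest, dot_flip, hf]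

lemma U_flip (hl : ∀ e, src e ≠ dst e) (hn : 0 < n) (β : ℝ) (S : Finset V) (τ : Conf V n)
    (i : Fin n) (ε : Cfg V) (σ : Conf ↥S n) :
    (zeroField (blockOf β src dst S τ) i).U (flip i (signs S ε) σ)
      = rest (zeroField (blockOf β src dst S τ) i) i σ
        + ener src dst (signedCoup src dst β (extend S fun y => co (σ y) i)) 0 ε := by
  rw [U_eq hl hn, rest_flip]
  simp only [ener, Pi.zero_apply, zero_mul, sum_const_zero, add_zero, signedCoup, extend_flip]
  congr 1
  exact sum_congr rfl fun e _ => by ring

lemma continuous_extend (S : Finset V) (i : Fin n) :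
    Continuous fun σ : Conf ↥S n => extend S fun y => co (σ y) i := by
  refine continuous_pi fun u => ?_
  by_cases h : u ∈ S
  · simp only [extend, h, dif_pos]; fun_prop
  · simp only [extend, h]; exact continuous_const

/-- The sum over the flips of the weighted difference is nonnegative. -/
lemma flips_nonneg (hI : IsingFacts src dst) (hl : ∀ e, src e ≠ dst e) (hn : 0 < n) {β : ℝ}
    (hβ : 0 ≤ β) (T S : Finset V) (τ : Conf V n) (i : Fin n) (w v : V) (hw : w ∈ S) (hv : v ∈ S)
    (σ : Conf ↥S n) :
    0 ≤ ∑ ε : Cfg V, Real.exp ((zeroField (blockOf β src dst S τ) i).U (flip i (signs S ε) σ)) *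
      (co (flip i (signs S ε) σ ⟨w, hw⟩) i * co (flip i (signs S ε) σ ⟨v, hv⟩) i
        - pairFn src dst β T w v (extend S fun y => co (flip i (signs S ε) σ y) i)) := by
  set a := extend S fun y => co (σ y) i with ha
  set J := signedCoup src dst β a
  set c := rest (zeroField (blockOf β src dst S τ) i) i σ
  have hle : pairFn src dst β T w v a ≤ a w * a v * corr src dst J w v := by
    refine (pairFn_mono hI hβ (subset_univ T) w v a).trans_eq ?_
    have : restrict src dst J univ = J := funext fun e => if_pos ⟨mem_univ _, mem_univ _⟩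
    rw [pairFn, this]
  have hinv : ∀ ε, pairFn src dst β T w v (extend S fun y => co (flip i (signs S ε) σ y) i)
      = pairFn src dst β T w v a := fun ε => pairFn_congr_abs hI β T w v fun u => by
    rw [extend_flip, abs_mul, abs_sgn, one_mul]
  have hobs : ∀ ε : Cfg V,
      co (flip i (signs S ε) σ ⟨w, hw⟩) i * co (flip i (signs S ε) σ ⟨v, hv⟩) i
      = a w * a v * (sgn (ε w) * sgn (ε v)) := fun ε => by
    simp only [co_flip, signs, if_true, ha, extend, hw, hv, dif_pos]
    ring
  simp only [U_flip hl hn, hinv, hobs]
  have hc : ∑ ε, Real.exp (ener src dst J 0 ε) * (sgn (ε w) * sgn (ε v))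
      = corr src dst J w v * part (ener src dst J 0) := by
    rw [corr, imean_eq, mean, part, div_mul_cancel₀]
    exact (part_pos _).ne'
  refine (mul_nonneg (Real.exp_pos c).le (mul_nonneg (part_pos (ener src dst J 0)).le
    (sub_nonneg.2 hle))).trans_eq ?_
  calc Real.exp c * (part (ener src dst J 0) *
        (a w * a v * corr src dst J w v - pairFn src dst β T w v a))
      = Real.exp c * (a w * a v * (corr src dst J w v * part (ener src dst J 0))
          - part (ener src dst J 0) * pairFn src dst β T w v a) := by ring
    _ = _ := by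
        rw [← hc, part, mul_sum, sum_mul, ← sum_sub_distrib, mul_sum]
        exact sum_congr rfl fun ε _ => by rw [Real.exp_add]; ring

end PairAux

open PairAux

/-- The analytic properties of the pair function. -/
theorem pairFnGoal : IsingGoal → PairFnGoal := fun hI V E _ _ _ src dst hl β hβ T w v hw hv => by
  have I := hI V E src dst hl
  exact ⟨continuous_pairFn β T w v, fun s => pairFn_abs I β T w v s,
    fun s => pairFn_bounds I hβ T w v s,
    fun x => ⟨pairD src dst β T w v x, continuous_pairD β T w v x,
      fun s => hasDerivAt_pairFn hl β T w v x s, fun hx s => pairD_eq_zero β hw hv hx s,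
      fun hdeg s d hs hd => abs_pairD_le I hβ hw hv x hdeg s hs hd⟩⟩

/-- Without a field in component `i` the pair function is below the two-point function. -/
theorem zeroFieldGoal : IsingGoal → ZeroFieldGoal := by
  intro hI V E _ _ _ src dst n hl hn β hβ T S τ i w v hw hv _ _ _
  have I := hI V E src dst hl
  have : NeZero n := ⟨by omega⟩
  set P := zeroField (blockOf β src dst S τ) i
  set g : Conf ↥S n → ℝ := fun σ => Real.exp (P.U σ) * (co (σ ⟨w, hw⟩) i * co (σ ⟨v, hv⟩) i
    - pairFn src dst β T w v (extend S fun y => co (σ y) i))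
  have hU := P.continuous_U
  have hf : Continuous fun σ : Conf ↥S n =>
      pairFn src dst β T w v (extend S fun y => co (σ y) i) :=
    (continuous_pairFn β T w v).comp (continuous_extend S i)
  have hg : Continuous g := by fun_prop
  have h0 : 0 ≤ ∑ ε : Cfg V, ∫ σ, g (flip i (signs S ε) σ) ∂base ↥S n := by
    rw [← integral_finsetSum _ (f := fun ε σ => g (flip i (signs S ε) σ)) fun ε _ =>
      integrable_base (hg.comp (continuous_flip i (signs S ε)))]
    exact integral_nonneg fun σ => flips_nonneg I hl (by omega) hβ T S τ i w v hw hv σ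
  simp only [integral_flip i _ hg, sum_const, nsmul_eq_mul] at h0
  have hpos : (0 : ℝ) < (univ : Finset (Cfg V)).card := by
    exact_mod_cast card_pos.2 univ_nonempty
  have h1 := nonneg_of_mul_nonneg_right h0 hpos
  simp only [g, mul_sub] at h1
  rw [integral_sub (integrable_base (by fun_prop)) (integrable_base (by fun_prop))] at h1
  exact div_le_div_of_nonneg_right (by linarith) (weight_pos hU).le

end Vale.Agent.P163.Gap
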