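import Vale.Agent.P163.Gap.StepSize
import Vale.Agent.P163.Gap.BlockGap
import Vale.Agent.P163.Gap.Pair
import Vale.Agent.P163.Gap.Ising

/-!
# The one-block estimate for `β ≤ c n log n`
-/

noncomputable section

namespace Vale.Agent.P163.Gap

open MeasureTheory Finset

theorem cancel_pow {q t : ℝ} (hqt : q * t = 1) (i k : ℕ) : q ^ i * t ^ (i + k) = t ^ k := by
  rw [pow_add, ← mul_assoc, ← mul_pow, hqt, one_pow, one_mul]

/-- The upper bound on the width. -/
theorem width_le {q t K C B : ℝ} {N n : ℕ} (hqt : q * t = 1) (hq : 1 ≤ q) (ht : 0 ≤ t)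
    (ht1 : t ≤ 1) (hnt : 1 / (n : ℝ) = t ^ 800) (hK : 0 ≤ K) (hC : 1100 * K ≤ C) (hC1 : 1 ≤ C)
    (hB : B ≤ q) (hN : (N : ℝ) ≤ 289 * q ^ 16) (hlog : Real.log n ≤ 800 * q) :
    width K B N n ≤ C * t ^ 391 := by
  have hC0 : 0 ≤ C := by linarith
  refine Real.sqrt_le_iff.2 ⟨mul_nonneg hC0 (pow_nonneg ht _), ?_⟩
  have hq17 : q ≤ q ^ 17 := le_self_pow₀ hq (by norm_num)
  have hsum : B * N + Real.log n + 1 ≤ 1100 * q ^ 17 := by
    have h1 : B * N ≤ q * (289 * q ^ 16) := mul_le_mul hB hN (Nat.cast_nonneg _) (by linarith)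
    have h2 : q * (289 * q ^ 16) = 289 * q ^ 17 := by
      rw [pow_succ' q 16]; ring
    linarith
  have hC1' : 1100 * K ≤ C ^ 2 := by nlinarith
  rw [div_eq_mul_one_div, hnt]
  calc K * (B * N + Real.log n + 1) * t ^ 800 ≤ K * (1100 * q ^ 17) * t ^ (17 + 783) :=
        mul_le_mul_of_nonneg_right (mul_le_mul_of_nonneg_left hsum hK) (pow_nonneg ht _)
    _ = 1100 * K * (q ^ 17 * t ^ (17 + 783)) := by generalize t ^ (17 + 783) = a; ring
    _ = 1100 * K * t ^ 783 := by rw [cancel_pow hqt]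
    _ ≤ C ^ 2 * t ^ (391 + 391) :=
        mul_le_mul hC1' (pow_le_pow_of_le_one ht ht1 (by norm_num)) (pow_nonneg ht _) (sq_nonneg C)
    _ = (C * t ^ 391) ^ 2 := by rw [pow_add]; generalize t ^ 391 = a; ring

/-- The lower bound on the width. -/
theorem le_width {t K B : ℝ} {N n : ℕ} (hnt : 1 / (n : ℝ) = t ^ 800) (hK : 1 ≤ K) (hB : 0 ≤ B)
    (hlog : 0 ≤ Real.log n) : t ^ 400 ≤ width K B N n := by
  refine Real.le_sqrt_of_sq_le ?_
  have h1 : 1 ≤ K * (B * N + Real.log n + 1) :=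
    one_le_mul_of_one_le_of_one_le hK (by nlinarith [Nat.cast_nonneg (α := ℝ) N])
  rw [← pow_mul, div_eq_mul_one_div, hnt]
  exact le_mul_of_one_le_left (by rw [← hnt]; positivity) h1

/-- The probability term. -/
theorem prob_le {q t K C : ℝ} {N n : ℕ} (hqt : q * t = 1) (hq : 1 ≤ q) (ht : 0 ≤ t) (ht1 : t ≤ 1)
    (hnt : 1 / (n : ℝ) = t ^ 800) (hK : 0 ≤ K) (hC : 290 * K ≤ C) (hN : (N : ℝ) ≤ 289 * q ^ 16) :
    K * ((N : ℝ) + 1) / (n : ℝ) ^ 20 ≤ C * t ^ 2000 := by
  have hq16 : (1 : ℝ) ≤ q ^ 16 := one_le_pow₀ hq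
  rw [div_eq_mul_one_div, ← one_div_pow, hnt, ← pow_mul]
  calc K * ((N : ℝ) + 1) * t ^ (800 * 20) ≤ K * (290 * q ^ 16) * t ^ (16 + 15984) :=
        mul_le_mul_of_nonneg_right (mul_le_mul_of_nonneg_left (by linarith) hK) (pow_nonneg ht _)
    _ = 290 * K * (q ^ 16 * t ^ (16 + 15984)) := by generalize t ^ (16 + 15984) = a; ring
    _ = 290 * K * t ^ 15984 := by rw [cancel_pow hqt]
    _ ≤ C * t ^ 2000 :=
        mul_le_mul hC (pow_le_pow_of_le_one ht ht1 (by norm_num)) (pow_nonneg ht _) (by linarith)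

/-- The decay term. -/
theorem decay_le {q t e γ B L : ℝ} (j : ℕ) (hj : 5 * j = 2010) (hqt : q * t = 1) (hq : 1 ≤ q)
    (he : 0 < e) (hγ : 1 / (50 * e ^ 2 * q ^ 2) ≤ γ) (hB : 0 < B) (hBq : B ≤ q)
    (hL : q ^ 8 / 2 ≤ L) :
    Real.sqrt (2 / γ) * Real.exp (-(γ / (8 * B)) * L)
      ≤ 10 * e * ((j.factorial : ℝ) * (800 * e ^ 2) ^ j) * t ^ 2009 := by
  have hq0 : 0 < q := by linarith
  have ht : t = q⁻¹ := eq_inv_of_mul_eq_one_right hqt
  have hγ0 : 0 < γ := lt_of_lt_of_le (by positivity) hγ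
  set x := q ^ 5 / (800 * e ^ 2) with hx
  have hx0 : 0 < x := by positivity
  have hxle : x ≤ γ / (8 * B) * L := by
    calc x = 1 / (50 * e ^ 2 * q ^ 2) / (8 * q) * (q ^ 8 / 2) := by
          rw [hx]; field_simp; ring
      _ ≤ γ / (8 * B) * L := by gcongr
  have hexp : Real.exp (-(γ / (8 * B)) * L)
      ≤ (j.factorial : ℝ) * (800 * e ^ 2) ^ j * t ^ 2010 := by
    refine le_trans (Real.exp_le_exp.2 (show -(γ / (8 * B)) * L ≤ -x by linarith)) ?_
    have h1 := Real.pow_div_factorial_le_exp x hx0.le j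
    rw [Real.exp_neg]
    refine le_trans (inv_anti₀ (by positivity) h1) (le_of_eq ?_)
    rw [hx, div_pow, ← pow_mul, hj, ht, inv_pow]
    generalize q ^ 2010 = a
    generalize (800 * e ^ 2) ^ j = b
    rw [inv_div, div_div_eq_mul_div]
    ring
  have hsq : Real.sqrt (2 / γ) ≤ 10 * e * q := by
    refine Real.sqrt_le_iff.2 ⟨by positivity, ?_⟩
    rw [div_le_iff₀ hγ0]
    have h1 := mul_le_mul_of_nonneg_left hγ (show 0 ≤ (10 * e * q) ^ 2 by positivity)
    have h2 : (10 * e * q) ^ 2 * (1 / (50 * e ^ 2 * q ^ 2)) = 2 := by field_simp; ring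
    linarith
  calc Real.sqrt (2 / γ) * Real.exp (-(γ / (8 * B)) * L)
      ≤ 10 * e * q * ((j.factorial : ℝ) * (800 * e ^ 2) ^ j * t ^ 2010) :=
        mul_le_mul hsq hexp (Real.exp_pos _).le (by positivity)
    _ = 10 * e * ((j.factorial : ℝ) * (800 * e ^ 2) ^ j) * (q ^ 1 * t ^ (1 + 2009)) := by
        generalize (j.factorial : ℝ) * (800 * e ^ 2) ^ j = a
        generalize t ^ (1 + 2009) = b
        rw [pow_one]
        ring
    _ = _ := by rw [cancel_pow hqt]

/-- The one-block estimate, from the concentration at the saddle. -/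
theorem stepGoal_of (hGood : GoodGoal) : StepGoal := by
  obtain ⟨K0, hK0, hgood⟩ := hGood
  set e := Real.exp 200 with he
  have he0 : 0 < e := Real.exp_pos _
  obtain ⟨j, hj⟩ : ∃ j : ℕ, 5 * j = 2010 := ⟨402, rfl⟩
  set F : ℝ := (j.factorial : ℝ) with hF
  have hF0 : 0 < F := by rw [hF]; exact_mod_cast j.factorial_pos
  set C1 := 10 * e * (F * (800 * e ^ 2) ^ j) with hC1
  have hC10 : 0 ≤ C1 := by positivity
  set C := 1100 * K0 + C1 + 289 with hC
  obtain ⟨C', hC'0, htot⟩ := exists_total_le C (by linarith)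
  set Q := 2 + 1156 * C1 + 13448 * C' + C with hQ
  refine ⟨1 / 160000, by norm_num, max 2 ⌈Q ^ 800⌉₊, le_max_left _ _, fun n hn β hβ hle => ?_⟩
  have hn2 : 2 ≤ n := le_trans (le_max_left _ _) hn
  have hn0 : (0 : ℝ) < n := by exact_mod_cast (by omega : 0 < n)
  have hnne : n ≠ 0 := by omega
  set q := Real.exp (Real.log n / 800) with hqdef
  set t := 1 / q with ht
  have hqn : q ^ 800 = n := by
    rw [hqdef, ← Real.exp_nat_mul, show ((800 : ℕ) : ℝ) * (Real.log n / 800) = Real.log n by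
      push_cast; ring, Real.exp_log hn0]
  have hq0 : 0 < q := Real.exp_pos _
  have hQ0 : 0 ≤ Q := by rw [hQ]; positivity
  have hqQ : Q ≤ q := by
    refine (pow_le_pow_iff_left₀ hQ0 hq0.le (by norm_num : (800 : ℕ) ≠ 0)).1 ?_
    rw [hqn]
    exact Nat.ceil_le.1 ((le_max_right _ _).trans hn)
  have hq1 : 1 ≤ q := by
    have : 0 ≤ 1156 * C1 + 13448 * C' + C := by positivity
    linarith
  have hqt : q * t = 1 := by rw [ht, mul_one_div, div_self hq0.ne']
  have ht0 : 0 < t := by positivity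
  have ht1 : t ≤ 1 := by rw [ht, div_le_one hq0]; exact hq1
  set b := β / n with hb
  set B := max b 1 with hB
  have hb0 : 0 < b := div_pos hβ hn0
  have hB1 : 1 ≤ B := le_max_right _ _
  have hlog : Real.log n = 800 * Real.log q := by rw [hqdef, Real.log_exp]; ring
  have hlq : 0 ≤ Real.log q := Real.log_nonneg hq1
  have hlq' : Real.log q ≤ q := by linarith [Real.log_le_sub_one_of_pos hq0]
  have hbl : b ≤ Real.log n / 160000 := by
    rw [hb, div_le_iff₀ hn0]
    linarith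
  have hBl : B ≤ 1 + Real.log n / 160000 := max_le (by linarith) (by linarith [hlog, hlq])
  have hBq : B ≤ q := max_le (by linarith [hlog]) hq1
  -- the cutoff radius and the gap
  have hr : (cutRadius B : ℝ) ≤ 2 * (e * q) := by
    have h1 : Real.exp (200 * B) ≤ e * q := by
      rw [he, hqdef, ← Real.exp_add]
      exact Real.exp_le_exp.2 (by linarith)
    have h2 : (1 : ℝ) ≤ Real.exp (200 * B) := Real.one_le_exp (by linarith)
    have h3 := (Nat.ceil_lt_add_one (Real.exp_pos (200 * B)).le).le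
    rw [cutRadius]
    linarith
  set γ := gapConst B with hγ
  have hden : ((2 * (2 * cutRadius B + 1) ^ 2 : ℕ) : ℝ) ≤ 50 * e ^ 2 * q ^ 2 := by
    push_cast
    have he1 : 1 ≤ e := Real.one_le_exp (by norm_num)
    have h1 : 2 * (cutRadius B : ℝ) + 1 ≤ 5 * (e * q) := by nlinarith
    have h2 := pow_le_pow_left₀ (by positivity) h1 2
    nlinarith
  have hden1 : (1 : ℝ) ≤ ((2 * (2 * cutRadius B + 1) ^ 2 : ℕ) : ℝ) := by
    exact_mod_cast Nat.one_le_iff_ne_zero.2 (by positivity)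
  have hγ0 : 0 < γ := by rw [hγ, gapConst]; positivity
  have hγ1 : γ ≤ 1 := by rw [hγ, gapConst, div_le_one (by linarith)]; exact hden1
  have hγl : 1 / (50 * e ^ 2 * q ^ 2) ≤ γ := by
    rw [hγ, gapConst]
    exact one_div_le_one_div_of_le (by linarith) hden
  -- the block size
  set L := ⌊q ^ 8⌋₊ with hLdef
  have hq8 : 1 ≤ q ^ 8 := one_le_pow₀ hq1
  have hL1 : 1 ≤ L := Nat.le_floor (by simpa using hq8)
  have hLle : (L : ℝ) ≤ q ^ 8 := Nat.floor_le (by positivity)
  have hLge : q ^ 8 / 2 ≤ (L : ℝ) := by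
    have := Nat.lt_floor_add_one (q ^ 8)
    rw [← hLdef] at this
    have : (1 : ℝ) ≤ L := by exact_mod_cast hL1
    linarith
  set N : ℕ := (16 * L + 1) ^ 2 with hNdef
  have hN1 : (1 : ℝ) ≤ N := by exact_mod_cast Nat.one_le_iff_ne_zero.2 (by positivity)
  have hNq : (N : ℝ) ≤ 289 * q ^ 16 := by
    rw [hNdef]
    push_cast
    have := pow_le_pow_left₀ (by positivity) (show 16 * (L : ℝ) + 1 ≤ 17 * q ^ 8 by linarith) 2
    linarith [show (17 * q ^ 8) ^ 2 = 289 * q ^ 16 by ring]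
  -- width, probability and decay
  set δ := width K0 B N n with hδdef
  have hδ0 : 0 ≤ δ := Real.sqrt_nonneg _
  have hnt : 1 / (n : ℝ) = t ^ 800 := by rw [ht, div_pow, one_pow, hqn]
  have hlog0 : 0 ≤ Real.log n := by linarith
  have hq17 : q ≤ q ^ 17 := le_self_pow₀ hq1 (by norm_num)
  have hδu : δ ≤ C * t ^ 391 := width_le hqt hq1 ht0.le ht1 hnt (by linarith) (by linarith)
    (by linarith) hBq hNq (by linarith)
  have hδl : t ^ 400 ≤ δ := le_width hnt hK0 (by linarith) hlog0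
  set p := K0 * ((N : ℝ) + 1) / (n : ℝ) ^ 20 with hp
  have hp0 : 0 ≤ p := by positivity
  have hpu : p ≤ C * t ^ 2000 :=
    prob_le hqt hq1 ht0.le ht1 hnt (by linarith) (by linarith) hNq
  set ε := Real.sqrt (2 / γ) * Real.exp (-(γ / (8 * B)) * L) with hε
  have hε0 : 0 ≤ ε := by positivity
  have hεu : ε ≤ C1 * t ^ 2000 :=
    (decay_le j hj hqt hq1 he0 hγl (by linarith) hBq hLge).trans
      (mul_le_mul_of_nonneg_left (pow_le_pow_of_le_one ht0.le ht1 (by norm_num)) hC10)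
  set k : StepConst := { n := n, b := b, B := B, N := N, δ := δ, p := p, ε := ε } with hk
  have hsize : StepSize k q t C := by
    constructor
    · exact hq1
    · exact hqt
    · exact hqn.symm
    · exact (by omega : 0 < n)
    · exact (by linarith : (0 : ℝ) ≤ B)
    · exact hBq
    · exact Nat.cast_nonneg _
    · exact hNq.trans (mul_le_mul_of_nonneg_right (by linarith) (by positivity))
    · exact hδ0
    · exact hδu
    · exact hp0
    · exact hpu
    · exact hε0
    · exact hεu.trans (mul_le_mul_of_nonneg_right (by linarith) (by positivity))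
  have hsmallq : ∀ a : ℝ, 0 ≤ a → a ≤ q → a * t ≤ 1 := fun a _ ha => by
    rw [← hqt]
    exact mul_le_mul_of_nonneg_right ha ht0.le
  have hsmall : 4 * B * N * ε ≤ δ := by
    refine le_trans ?_ hδl
    calc 4 * B * N * ε ≤ 4 * q * (289 * q ^ 16) * (C1 * t ^ 2000) := by gcongr
      _ = 1156 * C1 * (q ^ (1 + 16) * t ^ (1 + 16 + 1983)) := by
          rw [pow_add q, pow_one]
          generalize t ^ (1 + 16 + 1983) = a
          ring
      _ = 1156 * C1 * t ^ 1983 := by rw [cancel_pow hqt]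
      _ = 1156 * C1 * t * t ^ 1982 := by
          rw [show t ^ 1983 = t * t ^ 1982 from pow_succ' t 1982]
          generalize t ^ 1982 = a
          ring
      _ ≤ 1 * t ^ 1982 :=
          mul_le_mul_of_nonneg_right (hsmallq _ (by positivity) (by linarith)) (by positivity)
      _ ≤ t ^ 400 := by rw [one_mul]; exact pow_le_pow_of_le_one ht0.le ht1 (by norm_num)
  have hδ1 : δ ≤ 1 := by
    refine hδu.trans ?_
    calc C * t ^ 391 = C * t * t ^ 390 := by
          rw [show t ^ 391 = t * t ^ 390 from pow_succ' t 390]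
          generalize t ^ 390 = a
          ring
      _ ≤ 1 * 1 := mul_le_mul (hsmallq _ (by linarith) (by linarith))
          (pow_le_one₀ ht0.le ht1) (by positivity) zero_le_one
      _ = 1 := one_mul 1
  have hbβ : (n : ℝ) * b = β := by rw [hb]; field_simp
  have hyp : StepHyp k γ L := by
    refine ⟨hn2, hb0, rfl, le_rfl, hδ0, hp0, hγ0, hγ1, rfl, hsmall, ?_, ?_⟩
    · intro ι _ _ P hP hPb hcard S i
      have : NeZero n := ⟨hnne⟩
      have hcard' : (Fintype.card ι : ℝ) ≤ (N : ℝ) := hcard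
      have hcardN : Fintype.card ι ≤ N := by exact_mod_cast hcard'
      have hw : width K0 B (Fintype.card ι) n ≤ δ := by
        refine Real.sqrt_le_sqrt ?_
        gcongr
      have h := hgood ι n P hn2 hP S i B hB1 hPb (hw.trans hδ1)
      refine (avg_indicator_mono P.continuous_U (S.measurableSet_good i δ).compl
        (S.measurableSet_good i _).compl ?_).trans (h.trans ?_)
      · refine Set.compl_subset_compl.2 fun σ hσ x => ?_
        exact ⟨(hσ x).1.trans hw, (hσ x).2.trans hw⟩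
      · show _ ≤ p
        rw [hp]
        gcongr
    · intro V E _ _ _ src dst ℓ dir K hL S hS τ
      show (blockOf ((n : ℝ) * b) src dst S τ).Gap γ
      rw [hbβ]
      exact blockGapGoal V E src dst ℓ dir K n hL (by omega) β B hβ hB1 (le_max_left _ _) S hS τ
  refine ⟨L, hL1, fun V E _ _ _ src dst ℓ dir K hL i a w ha hbox τ => ?_⟩
  have hb1 := hyp.bound ibpGoal saddleGoal (pairFnGoal isingGoal) (zeroFieldGoal isingGoal)
    isingGoal hL1 hL i a w ha hbox τ
  change condAvg ((n : ℝ) * b) src dst _ τ (factor ((n : ℝ) * b) src dst ℓ i L a w) ≤ _ at hb1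
  rw [hbβ] at hb1
  have hM : ((4 * (2 * jump L + 1) ^ 2 : ℕ) : ℝ) ≤ 6724 * q ^ 16 := by
    simp only [jump]
    push_cast
    have := pow_le_pow_left₀ (by positivity)
      (show 2 * (16 * (L : ℝ) + 4) + 1 ≤ 41 * q ^ 8 by linarith) 2
    linarith [show (41 * q ^ 8) ^ 2 = 1681 * q ^ 16 by ring]
  refine (mul_le_mul_of_nonneg_left (hb1.trans (htot k q t hsize)) (Nat.cast_nonneg _)).trans ?_
  refine (mul_le_mul_of_nonneg_right hM (by positivity)).trans ?_
  have h2 : 13448 * C' * t ≤ 1 := hsmallq _ (by positivity) (by linarith)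
  calc 6724 * q ^ 16 * (C' * t ^ 200) = 6724 * C' * (q ^ 16 * t ^ (16 + 184)) := by
        generalize t ^ (16 + 184) = a
        ring
    _ = 6724 * C' * t ^ 184 := by rw [cancel_pow hqt]
    _ ≤ 6724 * C' * t ^ 1 :=
        mul_le_mul_of_nonneg_left (pow_le_pow_of_le_one ht0.le ht1 (by norm_num)) (by positivity)
    _ ≤ 1 / 2 := by rw [pow_one]; linarith

end Vale.Agent.P163.Gap
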