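import Vale.Agent.P163.Gap.BlockStat
import Vale.Agent.P163.Gap.BlockConv

/-!
# The one-block estimate with explicit constants
-/

noncomputable section

namespace Vale.Agent.P163.Gap

open MeasureTheory Finset Matrix

variable {V E : Type} [Fintype V] [Fintype E] [DecidableEq V] {n : ℕ}
  {src dst : E → V} {ℓ : V → Site} {dir : E → Bool} {K : ℕ}

/-- The constants of one block. -/
structure StepConst where
  n : ℕ
  b : ℝ
  B : ℝ
  N : ℝ
  δ : ℝ
  p : ℝ
  ε : ℝ

namespace StepConst

variable (k : StepConst)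

/-- `1 / n + B δ`. -/
def c : ℝ := 1 / k.n + k.B * k.δ

/-- The size of a component in the inner block. -/
def d : ℝ := 9 * k.B * k.N * k.δ

/-- The probability term. -/
def bad : ℝ := 17 * k.B * k.p

/-- The two-point function without field. -/
def zero : ℝ := k.N * ((k.ε + k.ε * k.p) / k.n + (k.δ * k.δ * k.c + k.bad))

/-- The change from switching on the field. -/
def switch : ℝ :=
  k.n * k.B * (k.N * (8 * k.δ)) *
    (k.N * ((k.ε * (2 * k.d + 8 * (k.n * k.B) * k.d ^ 3) + k.ε * (2 + 8 * (k.n * k.B)) * k.p) / k.n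
        + (k.d ^ 2 * k.d * k.c + k.bad))
      + (k.d ^ 2 + k.p) * (k.N * (k.d * k.c + k.bad)))

/-- The final bound. -/
def total : ℝ :=
  (k.n * k.B) ^ 2 * (4 * k.N) * (4 * k.δ ^ 2 * (k.zero + k.switch + k.p) + k.p)

end StepConst

omit [Fintype V] in
theorem pairFn_congr {β : ℝ} {T : Finset V} {w v : V} (hw : w ∈ T) (hv : v ∈ T) {s s' : V → ℝ}
    (h : ∀ y ∈ T, s y = s' y) [Fintype V] :
    pairFn src dst β T w v s = pairFn src dst β T w v s' := by
  have e : restrict src dst (signedCoup src dst β s) T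
      = restrict src dst (signedCoup src dst β s') T := funext fun e => by
    unfold restrict
    split_ifs with he
    · rw [signedCoup, signedCoup, h _ he.1, h _ he.2]
    · rfl
  rw [pairFn, pairFn, e, h w hw, h v hv]

omit [Fintype V] [Fintype E] in
theorem extend_update {S : Finset V} (s : ↥S → ℝ) (x : ↥S) (t : ℝ) :
    extend S (Function.update s x t) = Function.update (extend S s) x.1 t := by
  funext v
  rcases eq_or_ne v x.1 with rfl | hv
  · simp [extend]
  · rw [Function.update_of_ne hv]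
    by_cases h : v ∈ S
    · simp only [extend, h, dif_pos]
      rw [Function.update_of_ne fun hh => hv (congrArg Subtype.val hh)]
    · simp [extend, h]

omit [Fintype V] [Fintype E] in
theorem continuous_extend (S : Finset V) : Continuous fun s : ↥S → ℝ => extend S s :=
  continuous_pi fun v => by
    by_cases h : v ∈ S
    · simp only [extend, h, dif_pos]; exact continuous_apply _
    · simp only [extend, h]; exact continuous_const

theorem avg_indicator_mono {ι : Type} [Fintype ι] [NeZero n] {U : Conf ι n → ℝ} (hU : Continuous U)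
    {A A' : Set (Conf ι n)} (hA : MeasurableSet A) (hA' : MeasurableSet A') (h : A ⊆ A') :
    avg U (A.indicator fun _ => 1) ≤ avg U (A'.indicator fun _ => 1) := by
  have e : ∀ B : Set (Conf ι n), (fun σ => Real.exp (U σ) * B.indicator (fun _ => (1 : ℝ)) σ)
      = B.indicator fun σ => Real.exp (U σ) := fun B => funext fun σ => by
    by_cases hσ : σ ∈ B <;> simp [hσ]
  simp only [avg, e]
  refine div_le_div_of_nonneg_right ?_ (weight_pos hU).le
  exact integral_mono ((integrable_base (by fun_prop)).indicator hA)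
    ((integrable_base (by fun_prop)).indicator hA')
    fun σ => Set.indicator_le_indicator_of_subset h (fun _ => Real.exp_nonneg _) σ

/-- What is used of the constants. -/
structure StepHyp (k : StepConst) (γ : ℝ) (L : ℕ) : Prop where
  n_two : 2 ≤ k.n
  b_pos : 0 < k.b
  B_eq : k.B = max k.b 1
  N_le : ((16 * L + 1) ^ 2 : ℕ) ≤ k.N
  δ_nonneg : 0 ≤ k.δ
  p_nonneg : 0 ≤ k.p
  γ_pos : 0 < γ
  γ_le : γ ≤ 1
  ε_eq : k.ε = Real.sqrt (2 / γ) * Real.exp (-(γ / (8 * k.B)) * L)
  small : 4 * k.B * k.N * k.ε ≤ k.δ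
  conc : ∀ (ι : Type) [Fintype ι] [DecidableEq ι] (P : Blk ι k.n), P.Ok → P.b ≤ k.B →
    (Fintype.card ι : ℝ) ≤ k.N → ∀ (S : Saddle P) (i : Fin k.n),
      avg P.U ((S.good i k.δ)ᶜ.indicator fun _ => 1) ≤ k.p
  gap : ∀ (V E : Type) [Fintype V] [Fintype E] [DecidableEq V] (src dst : E → V) (ℓ : V → Site)
    (dir : E → Bool) (K : ℕ), Lat src dst ℓ dir K → ∀ (S : Finset V), (∀ v ∈ S, ℓ v ∈ box K) →
      ∀ τ : Conf V k.n, (blockOf (k.n * k.b) src dst S τ).Gap γ

namespace StepHyp

variable {k : StepConst} {γ : ℝ} {L : ℕ}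

theorem b_le (h : StepHyp k γ L) : k.b ≤ k.B := h.B_eq ▸ le_max_left _ _

theorem B_one (h : StepHyp k γ L) : 1 ≤ k.B := h.B_eq ▸ le_max_right _ _

theorem ε_nonneg (h : StepHyp k γ L) : 0 ≤ k.ε := h.ε_eq ▸ by positivity

theorem beta_le (h : StepHyp k γ L) : (k.n : ℝ) * k.b ≤ k.n * k.B :=
  mul_le_mul_of_nonneg_left h.b_le (Nat.cast_nonneg _)

/-- Decay of the Green function of a block in a window. -/
theorem decay (h : StepHyp k γ L) (hSad : SaddleGoal) (hL : Lat src dst ℓ dir K) {S : Finset V}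
    (hS : ∀ v ∈ S, ℓ v ∈ box K) (τ : Conf V k.n) (Q : Blk ↥S k.n) (hQ : Q.Ok)
    (hA : Q.A = (blockOf (k.n * k.b) src dst S τ).A) (hb : Q.b = k.b) (T : Saddle Q) {x y : ↥S}
    (hxy : L ≤ sdist (ℓ x.1) (ℓ y.1)) : |T.C x y| ≤ k.ε := by
  have hn : (0 : ℝ) < k.n := by exact_mod_cast (by have := h.n_two; omega : 0 < k.n)
  have hb' : Q.b = (blockOf (k.n * k.b) src dst S τ).b := by
    rw [hb]; exact (mul_div_cancel_left₀ k.b hn.ne').symm
  have hH : ∀ lam, Q.H lam = (blockOf (k.n * k.b) src dst S τ).H lam := fun lam => by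
    rw [Blk.H, Blk.H, hA, hb']
  have hgap : Q.Gap γ := by
    intro lam hp hd f
    have := h.gap V E src dst ℓ dir K hL S hS τ lam
    rw [← hH] at this
    exact this hp hd f
  have hdec := ((hSad ↥S k.n Q hQ).2 T).2.2.2.2 γ (fun z => (sdist (ℓ z.1) (ℓ y.1) : ℝ)) y h.γ_pos
    h.γ_le hgap (by simp [sdist_self]) (fun u v huv => ?_) x
  · rw [hb, ← h.B_eq] at hdec
    refine hdec.trans ?_
    rw [h.ε_eq]
    refine mul_le_mul_of_nonneg_left (Real.exp_le_exp.2 ?_) (Real.sqrt_nonneg _)
    have : 0 ≤ γ / (8 * k.B) := div_nonneg h.γ_pos.le (by linarith [h.B_one])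
    nlinarith [(by exact_mod_cast hxy : (L : ℝ) ≤ sdist (ℓ x.1) (ℓ y.1))]
  · rw [hA] at huv
    obtain ⟨e, he⟩ : ∃ e, (src e = u.1 ∧ dst e = v.1) ∨ (src e = v.1 ∧ dst e = u.1) := by
      by_contra hne
      refine huv ?_
      simp only [blockOf, Nat.cast_eq_zero, card_eq_zero, filter_eq_empty_iff]
      exact fun e _ he => hne ⟨e, he⟩
    have h1 : sdist (ℓ u.1) (ℓ v.1) = 1 := by
      rcases he with ⟨a, b⟩ | ⟨a, b⟩
      · rw [← a, ← b]
        exact hL.sdist_bond (v := u.1) (hS _ u.2) (Or.inl a)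
      · rw [sdist_comm, ← a, ← b]
        exact hL.sdist_bond (v := u.1) (hS _ u.2) (Or.inr b)
    have h2 := sdist_triangle (ℓ u.1) (ℓ v.1) (ℓ y.1)
    have h3 := sdist_triangle (ℓ v.1) (ℓ u.1) (ℓ y.1)
    rw [sdist_comm (ℓ v.1) (ℓ u.1)] at h3
    rw [h1] at h2 h3
    have h4 := (Nat.cast_le (α := ℝ)).2 h2
    have h5 := (Nat.cast_le (α := ℝ)).2 h3
    push_cast at h4 h5
    rw [abs_le]
    constructor <;> linarith

/-- The two-point function in a block without field in component `i`. -/
theorem zero_le (h : StepHyp k γ L) (hI : IBPGoal) (hSad : SaddleGoal)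
    (hL : Lat src dst ℓ dir K) {S : Finset V} (hS : ∀ v ∈ S, ℓ v ∈ box K)
    (hcard : (S.card : ℝ) ≤ k.N) (τ : Conf V k.n) (i : Fin k.n) (w v : ↥S)
    (hwv : L ≤ sdist (ℓ w.1) (ℓ v.1)) :
    avg (zeroField (blockOf (k.n * k.b) src dst S τ) i).U
      (fun σ => co (σ w) i * co (σ v) i) ≤ k.zero := by
  have : NeZero k.n := ⟨by have := h.n_two; omega⟩
  have hn : (0 : ℝ) < k.n := by exact_mod_cast (by have := h.n_two; omega : 0 < k.n)
  have hP0 := blockOf_ok hL (β := k.n * k.b) (mul_pos hn h.b_pos)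
    (by have := h.n_two; omega) S hS τ
  set P := zeroField (blockOf (k.n * k.b) src dst S τ) i
  have hP : P.Ok := by
    have hok := setField_ok hP0 i le_rfl zero_le_one
    rwa [setField_zero] at hok
  have hbP : P.b = k.b := mul_div_cancel_left₀ k.b hn.ne'
  obtain ⟨T⟩ := (hSad ↥S k.n P hP).1
  have hm : ∀ x, T.m x i = 0 := fun x => by simp [T.m_eq, P, zeroField]
  have hgood := h.conc ↥S P hP (hbP ▸ h.b_le) (by simpa using hcard) T i
  have hder : ∀ (x : ↥S) (s : ↥S → ℝ),
      HasDerivAt (fun t => Function.update s x t v) (if v = x then (1 : ℝ) else 0) (s x) := by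
    intro x s
    by_cases hx : v = x
    · subst hx; simpa using hasDerivAt_id' (s v)
    · simpa [Function.update_of_ne hx, hx] using hasDerivAt_const (s x) (s v)
  have hC : ∀ x : ↥S, |T.C w x| * |if v = x then (1 : ℝ) else 0| ≤ k.ε := fun x => by
    by_cases hx : v = x
    · subst hx
      simpa using h.decay hSad hL hS τ P hP rfl hbP T hwv
    · simpa [hx] using h.ε_nonneg
  have hb := T.abs_avg_centred_le i hI h.n_two hP h.δ_nonneg hgood (Ψ := fun s => s v)
    (D := fun x _ => if v = x then (1 : ℝ) else 0) (continuous_apply v) (fun _ => continuous_const)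
    hder w (F := k.δ) (d := k.δ) (M := k.ε) (M' := k.ε) h.δ_nonneg h.δ_nonneg h.ε_nonneg h.ε_nonneg
    (fun σ hσ x => by simpa [hm] using (hσ x).1) (fun σ hσ => by simpa [hm] using (hσ v).1)
    (fun σ => abs_co_le_one _ _) (fun σ _ x => hC x) (fun σ x => hC x)
  simp only [hm, sub_zero] at hb
  have hcomm : (fun σ : Conf ↥S k.n => co (σ w) i * co (σ v) i)
      = fun σ => co (σ v) i * co (σ w) i := funext fun σ => mul_comm _ _
  rw [hcomm]
  refine (le_abs_self _).trans (hb.trans ?_)
  have hB := h.B_one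
  have hδ := h.δ_nonneg
  have hp := h.p_nonneg
  have hε := h.ε_nonneg
  rw [Fintype.card_coe, hbP]
  simp only [StepConst.zero, StepConst.c, StepConst.bad]
  have hb0 : 0 < k.b := h.b_pos
  refine mul_le_mul hcard ?_ (by positivity) ((Nat.cast_nonneg _).trans hcard)
  gcongr
  · exact h.b_le
  · linarith [h.b_le]

/-- The pair function in an inner block whose boundary is small in component `i`. -/
theorem inner_le (h : StepHyp k γ L) (hI : IBPGoal) (hSad : SaddleGoal) (hPair : PairFnGoal)
    (hZero : ZeroFieldGoal) (hL : Lat src dst ℓ dir K) {w v : V}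
    (hbox : ∀ z, sdist z (ℓ w) ≤ 8 * L + 2 → z ∈ box K) (hv : v ∈ ball ℓ (ℓ w) L)
    (hwv : L ≤ sdist (ℓ w) (ℓ v)) (ω : Conf V k.n) (i : Fin k.n)
    (hω : ∀ y, y ∉ ball ℓ (ℓ w) (4 * L) → sdist (ℓ y) (ℓ w) ≤ 4 * L + 1 →
      |co (ω y) i| ≤ 2 * k.δ) :
    condAvg (k.n * k.b) src dst (ball ℓ (ℓ w) (4 * L)) ω
      (fun σ => pairFn src dst (k.n * k.b) (ball ℓ (ℓ w) L) w v (fun y => co (σ y) i))
      ≤ k.zero + k.switch := by
  have : NeZero k.n := ⟨by have := h.n_two; omega⟩
  have hn : (0 : ℝ) < k.n := by exact_mod_cast (by have := h.n_two; omega : 0 < k.n)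
  set β := (k.n : ℝ) * k.b with hβdef
  have hβ : 0 < β := mul_pos hn h.b_pos
  set S := ball ℓ (ℓ w) (4 * L) with hSdef
  set T := ball ℓ (ℓ w) L with hTdef
  have hS : ∀ y ∈ S, ℓ y ∈ box K := fun y hy => hbox _ (by rw [mem_ball] at hy; omega)
  have hTS : T ⊆ S := fun y hy => by rw [mem_ball] at hy ⊢; omega
  have hwT : w ∈ T := by simp [hTdef, mem_ball, sdist_self]
  have hwS := hTS hwT
  have hvS := hTS hv
  set P := blockOf β src dst S ω with hPdef
  have hP := blockOf_ok hL hβ (by have := h.n_two; omega) S hS ω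
  have hbP : P.b = k.b := mul_div_cancel_left₀ k.b hn.ne'
  have hN : (S.card : ℝ) ≤ k.N := le_trans (by
    exact_mod_cast (hL.card_ball _ _).trans (Nat.pow_le_pow_left (by omega) 2)) h.N_le
  obtain ⟨hcont, -, hbnd, hD⟩ := hPair V E src dst hL.loopless β hβ.le T w v hwT hv
  choose D hDc hDd hD0 hDb using hD
  set Ψ : (↥S → ℝ) → ℝ := fun s => pairFn src dst β T w v (extend S s) with hΨdef
  have hcond : condAvg β src dst S ω (fun σ => pairFn src dst β T w v (fun y => co (σ y) i))
      = avg P.U (fun σ => Ψ (fun y => co (σ y) i)) := by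
    rw [condAvg_eq hL.loopless β (by have := h.n_two; omega)]
    congr 1
    funext σ
    exact pairFn_congr hwT hv fun y hy => by simp [glue, extend, hTS hy]
  have hcard4 : ∀ x : ↥S, (univ.filter fun e => src e = x.1 ∨ dst e = x.1).card ≤ 4 :=
    fun x => hL.incident_card (hS x.1 x.2)
  have hext : ∀ (s : ↥S → ℝ) (d : ℝ), (∀ x, |s x| ≤ d) → ∀ y ∈ T, |extend S s y| ≤ d :=
    fun s d hs y hy => by simpa [extend, hTS hy] using hs ⟨y, hTS hy⟩
  have hder : ∀ (x : ↥S) (s : ↥S → ℝ), HasDerivAt (fun t => Ψ (Function.update s x t))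
      (D x.1 (extend S s)) (s x) := by
    intro x s
    have := hDd x.1 (extend S s)
    simp only [extend, x.2, dif_pos, Subtype.coe_eta] at this
    simpa only [hΨdef, extend_update] using this
  have hone : ∀ (σ : Conf ↥S k.n) (x : ↥S), |co (σ x) i| ≤ 1 := fun σ x => abs_co_le_one _ _
  have hΨd : ∀ (d : ℝ) (s : ↥S → ℝ), (∀ x, |s x| ≤ d) → |Ψ s| ≤ d ^ 2 := by
    intro d s hs
    obtain ⟨h0, h1⟩ := hbnd (extend S s)
    rw [hΨdef, abs_of_nonneg h0, pow_two]
    exact h1.trans (mul_le_mul (hext s d hs w hwT) (hext s d hs v hv) (abs_nonneg _)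
      ((abs_nonneg _).trans (hext s d hs w hwT)))
  have hΨa : ∀ σ : Conf ↥S k.n, |Ψ (fun y => co (σ y) i)| ≤ 1 := fun σ => by
    simpa using hΨd 1 (fun y => co (σ y) i) (hone σ)
  have hamax : ∀ x : ↥S, |P.h x i| ≤ 8 * k.δ := by
    intro x
    refine (abs_sum_le_sum_abs _ _).trans ((sum_le_card_nsmul _ _ (2 * k.δ) fun e he => ?_).trans ?_)
    · simp only [mem_filter, mem_univ, true_and] at he
      obtain ⟨hi, ho⟩ := inEnd_mem he.1
      refine hω _ ho ?_
      have hx := hS x.1 x.2
      rcases ends_cases (src := src) (dst := dst) S e with ⟨a, b⟩ | ⟨a, b⟩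
      · have h1 := hL.sdist_bond hx (Or.inl (a.symm.trans he.2))
        rw [← a, ← b, he.2, sdist_comm] at h1
        have h2 := sdist_triangle (ℓ (outEnd src dst S e)) (ℓ x.1) (ℓ w)
        have h3 := (mem_ball.1 x.2)
        omega
      · have h1 := hL.sdist_bond hx (Or.inr (a.symm.trans he.2))
        rw [← a, ← b, he.2] at h1
        have h2 := sdist_triangle (ℓ (outEnd src dst S e)) (ℓ x.1) (ℓ w)
        have h3 := (mem_ball.1 x.2)
        omega
    · rw [nsmul_eq_mul]
      have hc : ((univ.filter fun e => crossing src dst S e ∧ inEnd src dst S e = x.1).card : ℝ)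
          ≤ 4 := by
        refine le_trans (Nat.cast_le.2 (card_le_card fun e he => ?_)) (by exact_mod_cast hcard4 x)
        simp only [mem_filter, mem_univ, true_and] at he ⊢
        rcases ends_cases (src := src) (dst := dst) S e with ⟨a, -⟩ | ⟨a, -⟩
        · exact Or.inl (a ▸ he.2)
        · exact Or.inr (a ▸ he.2)
      nlinarith [h.δ_nonneg]
  have hB := h.B_one
  have hδ := h.δ_nonneg
  have hN1 : 1 ≤ k.N := le_trans (by norm_cast; nlinarith) h.N_le
  have hd : 0 ≤ k.d := by unfold StepConst.d; positivity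
  have hbB := h.b_le
  have hDlip : ∀ (d : ℝ) (s : ↥S → ℝ) (x : ↥S), 0 ≤ d → (∀ y, |s y| ≤ d) →
      |D x.1 (extend S s)| ≤ 2 * d + 8 * (k.n * k.B) * d ^ 3 := fun d s x hd0 hs => by
    refine (hDb x.1 (hcard4 x) _ d (hext s d hs) hd0).trans ?_
    have := h.beta_le
    gcongr
  have hsw := avg_switch_le hI h.n_two hP i (Ψ := Ψ) (D := fun x s => D x.1 (extend S s))
    (hcont.comp (continuous_extend S)) (fun x => (hDc x.1).comp (continuous_extend S)) hder
    (amax := 8 * k.δ) (δ := k.δ) (p := k.p) (d := k.d) (F := k.d ^ 2)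
    (M := 2 * k.d + 8 * (k.n * k.B) * k.d ^ 3) (M' := 2 + 8 * (k.n * k.B)) (ε := k.ε)
    hamax (by positivity) hδ h.p_nonneg (by
      rw [hbP, Fintype.card_coe, StepConst.d]
      have h1 : (S.card : ℝ) * k.b ≤ k.N * k.B :=
        mul_le_mul hN hbB h.b_pos.le (by linarith)
      have h2 : 1 ≤ k.B * k.N := one_le_mul_of_one_le_of_one_le hB hN1
      nlinarith [mul_le_mul_of_nonneg_right h1 (by linarith : (0 : ℝ) ≤ 8 * k.δ),
        mul_le_mul_of_nonneg_right h2 hδ])
    (by positivity) (by positivity) (by positivity) h.ε_nonneg (fun x => x.1 ∈ T)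
    (fun x s hx => hD0 x.1 hx _) (fun s hs => hΨd _ s hs) hΨa
    (fun x s hs => hDlip _ s x hd hs)
    (fun x σ => by simpa using hDlip 1 (fun y => co (σ y) i) x zero_le_one (hone σ))
    (fun t ht ht1 => by
      have hQ := setField_ok hP i ht ht1
      obtain ⟨R⟩ := (hSad ↥S k.n _ hQ).1
      refine ⟨R, h.conc ↥S _ hQ (hbP.le.trans h.b_le) (by simpa using hN) R i,
        fun z x hz hx => h.decay hSad hL hS ω _ hQ rfl hbP R ?_⟩
      have hz' : ∃ e, crossing src dst S e ∧ inEnd src dst S e = z.1 := by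
        by_contra hne
        refine hz (sum_eq_zero fun e he => ?_)
        simp only [mem_filter, mem_univ, true_and] at he
        exact absurd ⟨e, he⟩ hne
      obtain ⟨e, he, hez⟩ := hz'
      obtain ⟨-, ho⟩ := inEnd_mem he
      rw [mem_ball] at ho
      have hx' := mem_ball.1 hx
      have hbond : sdist (ℓ (outEnd src dst S e)) (ℓ z.1) = 1 := by
        rcases ends_cases (src := src) (dst := dst) S e with ⟨a, b⟩ | ⟨a, b⟩
        · rw [← hez, a, b, sdist_comm]
          exact hL.sdist_bond (hS _ z.2) (Or.inl (a.symm.trans hez))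
        · rw [← hez, a, b]
          exact hL.sdist_bond (hS _ z.2) (Or.inr (a.symm.trans hez))
      have := sdist_triangle (ℓ (outEnd src dst S e)) (ℓ z.1) (ℓ w)
      have := sdist_triangle (ℓ z.1) (ℓ x.1) (ℓ w)
      omega)
  have hzero : avg (zeroField P i).U (fun σ => Ψ (fun y => co (σ y) i)) ≤ k.zero :=
    (hZero V E src dst k.n hL.loopless h.n_two β hβ.le T S ω i w v hwS hvS hTS hwT hv).trans
      (h.zero_le hI hSad hL hS hN ω i ⟨w, hwS⟩ ⟨v, hvS⟩ hwv)
  rw [hcond]
  refine (sub_le_iff_le_add.1 (le_abs_self _ |>.trans hsw)).trans ?_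
  rw [add_comm k.zero]
  refine add_le_add ?_ hzero
  rw [hbP, Fintype.card_coe, StepConst.switch]
  simp only [StepConst.c, StepConst.bad]
  have hb0 := h.b_pos
  have hε := h.ε_nonneg
  have hp := h.p_nonneg
  have h17 : 1 + 16 * k.b ≤ 17 * k.B := by linarith
  gcongr

omit [Fintype V] in
theorem co_ball {S : Finset V} {σ : Conf ↥S k.n} {τ : Conf V k.n} {y : V} (hy : y ∈ S) :
    glue S σ τ y = σ ⟨y, hy⟩ := by simp [glue, hy]

/-- One block. -/
theorem bound (h : StepHyp k γ L) (hI : IBPGoal) (hSad : SaddleGoal) (hPair : PairFnGoal)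
    (hZero : ZeroFieldGoal) (hIs : IsingGoal) (hL1 : 1 ≤ L) (hL : Lat src dst ℓ dir K)
    (i : Fin k.n) (e : E) (w : V) (he : src e = w ∨ dst e = w)
    (hbox : ∀ z, sdist z (ℓ w) ≤ 8 * L + 2 → z ∈ box K) (τ : Conf V k.n) :
    condAvg (k.n * k.b) src dst (ball ℓ (ℓ w) (8 * L)) τ
      (factor (k.n * k.b) src dst ℓ i L e w) ≤ k.total := by
  classical
  have : NeZero k.n := ⟨by have := h.n_two; omega⟩
  have hn : (0 : ℝ) < k.n := by exact_mod_cast (by have := h.n_two; omega : 0 < k.n)
  set β := (k.n : ℝ) * k.b with hβdef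
  have hβ : 0 < β := mul_pos hn h.b_pos
  set S := ball ℓ (ℓ w) (8 * L) with hSdef
  set T := ball ℓ (ℓ w) L with hTdef
  set S4 := ball ℓ (ℓ w) (4 * L) with hS4def
  have hS : ∀ y ∈ S, ℓ y ∈ box K := fun y hy => hbox _ (by rw [mem_ball] at hy; omega)
  have hwT : w ∈ T := by simp [hTdef, mem_ball, sdist_self]
  have hwbox : ℓ w ∈ box K := hbox _ (by simp [sdist_self])
  have hIsing := hIs V E src dst hL.loopless
  set P := blockOf β src dst S τ with hPdef
  have hP := blockOf_ok hL hβ (by have := h.n_two; omega) S hS τ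
  have hbP : P.b = k.b := mul_div_cancel_left₀ k.b hn.ne'
  have hN : (S.card : ℝ) ≤ k.N := le_trans (by
    exact_mod_cast (hL.card_ball _ _).trans (Nat.pow_le_pow_left (by omega) 2)) h.N_le
  obtain ⟨R⟩ := (hSad ↥S k.n P hP).1
  have hgood := h.conc ↥S P hP (hbP.le.trans h.b_le) (by simpa using hN) R i
  have hG := R.measurableSet_good i k.δ
  have hUc := P.continuous_U
  have hsmall : ∀ σ ∈ R.good i k.δ, ∀ y, sdist (ℓ y) (ℓ w) ≤ 4 * L + 1 →
      |co (glue S σ τ y) i| ≤ 2 * k.δ := by
    intro σ hσ y hy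
    have hyS : y ∈ S := by rw [mem_ball]; omega
    rw [co_ball hyS]
    have hm : |R.m ⟨y, hyS⟩ i| ≤ 4 * k.B * k.N * k.ε := by
      rw [R.m_eq]
      refine (abs_sum_le_sum_abs _ _).trans ((sum_le_sum (g := fun _ : ↥S => 4 * k.B * k.ε)
        fun z _ => ?_).trans ?_)
      · rcases eq_or_ne (P.h z i) 0 with hz | hz
        · rw [hz, mul_zero, mul_zero, abs_zero]
          have := h.B_one
          have := h.ε_nonneg
          positivity
        obtain ⟨e', he', hez⟩ : ∃ e', crossing src dst S e' ∧ inEnd src dst S e' = z.1 := by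
          by_contra hne
          refine hz (sum_eq_zero fun e' he' => ?_)
          simp only [mem_filter, mem_univ, true_and] at he'
          exact absurd ⟨e', he'⟩ hne
        obtain ⟨-, ho⟩ := inEnd_mem he'
        rw [mem_ball] at ho
        have hbond : sdist (ℓ (outEnd src dst S e')) (ℓ z.1) = 1 := by
          rcases ends_cases (src := src) (dst := dst) S e' with ⟨a, b⟩ | ⟨a, b⟩
          · rw [← hez, a, b, sdist_comm]
            exact hL.sdist_bond (hS _ z.2) (Or.inl (a.symm.trans hez))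
          · rw [← hez, a, b]
            exact hL.sdist_bond (hS _ z.2) (Or.inr (a.symm.trans hez))
        have t1 := sdist_triangle (ℓ (outEnd src dst S e')) (ℓ z.1) (ℓ w)
        have t2 := sdist_triangle (ℓ z.1) (ℓ y) (ℓ w)
        have hC := h.decay hSad hL hS τ P hP rfl hbP R (x := ⟨y, hyS⟩) (y := z)
          (by rw [sdist_comm]; show L ≤ sdist (ℓ z.1) (ℓ y); omega)
        have hh : |P.h z i| ≤ 4 := by
          refine abs_le_of_sq_le_sq ?_ (by norm_num)
          exact le_trans (single_le_sum (f := fun j => P.h z j ^ 2) (fun j _ => sq_nonneg _)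
            (mem_univ i)) ((hP.field z).trans (by norm_num))
        rw [abs_mul, abs_mul, abs_of_pos hP.b_pos, hbP]
        calc |R.C ⟨y, hyS⟩ z| * (k.b * |P.h z i|) ≤ k.ε * (k.B * 4) :=
              mul_le_mul hC (mul_le_mul h.b_le hh (abs_nonneg _) (by linarith [h.B_one]))
                (mul_nonneg h.b_pos.le (abs_nonneg _)) h.ε_nonneg
          _ = 4 * k.B * k.ε := by ring
      · rw [sum_const, card_univ, Fintype.card_coe, nsmul_eq_mul]
        have : 0 ≤ 4 * k.B * k.ε := by
          have := h.B_one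
          have := h.ε_nonneg
          positivity
        nlinarith [mul_le_mul_of_nonneg_right hN this]
    have h1 := (hσ ⟨y, hyS⟩).1
    have h2 := abs_sub_abs_le_abs_sub (co (σ ⟨y, hyS⟩) i) (R.m ⟨y, hyS⟩ i)
    linarith [h.small]
  -- the pair functions
  set sv : Conf V k.n → V → ℝ := fun σ y => co (σ y) i
  have hsv : Continuous sv := continuous_comp_vec i
  set cross := univ.filter fun e' => crossing src dst T e'
  set u := if src e = w then dst e else src e with hu
  have hu1 : |co ((fun σ : Conf V k.n => σ) τ (src e)) i| ≤ 1 := abs_co_le_one _ _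
  set f : E → Conf V k.n → ℝ := fun e' σ =>
    pairFn src dst β T w (inEnd src dst T e') (sv σ) with hf
  have hpf : ∀ e' ∈ cross, ∀ σ, Continuous (f e') ∧ 0 ≤ f e' σ ∧ f e' σ ≤ 1 := by
    intro e' he' σ
    have hin := (inEnd_mem (mem_filter.1 he').2).1
    obtain ⟨hc, -, hb, -⟩ := hPair V E src dst hL.loopless β hβ.le T w _ hwT hin
    refine ⟨hc.comp hsv, (hb _).1, (hb _).2.trans ?_⟩
    exact mul_le_one₀ (abs_co_le_one _ _) (abs_nonneg _) (abs_co_le_one _ _)
  have hfac : ∀ σ, factor β src dst ℓ i L e w σ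
      ≤ ∑ e' ∈ cross, β ^ 2 * (|co (σ u) i| * |co (σ (outEnd src dst T e')) i| * f e' σ) := by
    intro σ
    set J := coup β src dst i σ
    have hJ : ∀ a, 0 ≤ J a := fun a => by
      simp only [J, coup]; positivity
    refine (mul_le_mul_of_nonneg_left (hIsing.plusMag_le J hJ T w) (hJ e)).trans ?_
    rw [mul_sum]
    refine sum_le_sum fun e' he' => le_of_eq ?_
    have hin := (inEnd_mem (mem_filter.1 he').2).1
    obtain ⟨-, habs, -, -⟩ := hPair V E src dst hL.loopless β hβ.le T w _ hwT hin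
    simp only [hf]
    rw [habs]
    have h1 : J e = β * (|co (σ u) i| * |co (σ w) i|) := by
      simp only [J, coup, hu]
      split_ifs with hs
      · rw [hs]; ring
      · rw [he.resolve_left hs]; ring
    have h2 : J e' = β * (|co (σ (inEnd src dst T e')) i| * |co (σ (outEnd src dst T e')) i|) := by
      simp only [J, coup]
      rcases ends_cases (src := src) (dst := dst) T e' with ⟨a, b⟩ | ⟨a, b⟩ <;> rw [a, b] <;> ring
    rw [h1, h2]
    have h3 : restrict src dst (fun a => β * |sv σ (src a)| * |sv σ (dst a)|) T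
        = restrict src dst J T := rfl
    rw [h3]
    simp only [sv]
    ring
  have hglue := continuous_glue (n := k.n) S τ
  have hfc : Continuous fun σ => factor β src dst ℓ i L e w σ := by
    unfold factor coup plusMag imean iw restrict plusField
    have hne : ∀ σ : Conf V k.n, ∑ ε : V → Bool, Real.exp
        (∑ a, (if inside src dst (ball ℓ (ℓ w) L) a then β * |co (σ (src a)) i| * |co (σ (dst a)) i|
          else 0) * sgn (ε (src a)) * sgn (ε (dst a))
        + ∑ y, (∑ a ∈ univ.filter (fun a => crossing src dst (ball ℓ (ℓ w) L) a ∧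
            inEnd src dst (ball ℓ (ℓ w) L) a = y),
            β * |co (σ (src a)) i| * |co (σ (dst a)) i|) * sgn (ε y)) ≠ 0 := fun σ =>
      (sum_pos (fun ε _ => Real.exp_pos _) univ_nonempty).ne'
    refine Continuous.mul (by fun_prop) ?_
    refine Continuous.div ?_ ?_ hne
    · refine continuous_finsetSum _ fun ε _ => Continuous.mul (Continuous.rexp ?_) continuous_const
      refine Continuous.add (continuous_finsetSum _ fun a _ => ?_) (by fun_prop)
      split_ifs <;> fun_prop
    · refine continuous_finsetSum _ fun ε _ => Continuous.rexp ?_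
      refine Continuous.add (continuous_finsetSum _ fun a _ => ?_) (by fun_prop)
      split_ifs <;> fun_prop
  have houtdist : ∀ e' ∈ cross, sdist (ℓ (outEnd src dst T e')) (ℓ w) ≤ L + 1 ∧
      L ≤ sdist (ℓ w) (ℓ (inEnd src dst T e')) ∧ inEnd src dst T e' ∈ T := by
    intro e' he'
    obtain ⟨hin, hout⟩ := inEnd_mem (mem_filter.1 he').2
    have hb : ℓ (inEnd src dst T e') ∈ box K := hbox _ (by rw [mem_ball] at hin; omega)
    have hd : sdist (ℓ (inEnd src dst T e')) (ℓ (outEnd src dst T e')) = 1 := by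
      rcases ends_cases (src := src) (dst := dst) T e' with ⟨a, b⟩ | ⟨a, b⟩
      · rw [a, b]; exact hL.sdist_bond hb (Or.inl a.symm)
      · rw [a, b, sdist_comm]; exact hL.sdist_bond hb (Or.inr a.symm)
    have t1 := sdist_triangle (ℓ (outEnd src dst T e')) (ℓ (inEnd src dst T e')) (ℓ w)
    have t2 := sdist_comm (ℓ (outEnd src dst T e')) (ℓ (inEnd src dst T e'))
    have t3 := sdist_comm (ℓ w) (ℓ (inEnd src dst T e'))
    refine ⟨?_, ?_, hin⟩
    · rw [mem_ball] at hin; omega
    · rw [mem_ball] at hout; omega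
  have hudist : sdist (ℓ u) (ℓ w) ≤ 1 := by
    have := hL.sdist_bond hwbox he
    simp only [hu]
    split_ifs with hs
    · rw [hs] at this; rw [sdist_comm]; exact this.le
    · rw [he.resolve_left hs] at this; exact this.le
  -- one bond leaving the small ball
  set M4 := k.zero + k.switch with hM4
  have hM4nn : 0 ≤ M4 := by
    simp only [hM4, StepConst.zero, StepConst.switch, StepConst.c, StepConst.bad, StepConst.d]
    have := h.B_one
    have := h.δ_nonneg
    have := h.p_nonneg
    have := h.ε_nonneg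
    have : 0 ≤ k.N := le_trans (Nat.cast_nonneg _) h.N_le
    positivity
  have hone : ∀ e' ∈ cross, avg P.U (fun σ => |co (glue S σ τ u) i|
      * |co (glue S σ τ (outEnd src dst T e')) i| * f e' (glue S σ τ))
      ≤ 4 * k.δ ^ 2 * (M4 + k.p) + k.p := by
    intro e' he'
    obtain ⟨ho, hwv, hin⟩ := houtdist e' he'
    have hfcont : Continuous (f e') := (hpf e' he' τ).1
    have hS4 : S4 ⊆ S := fun y hy => by rw [mem_ball] at hy ⊢; omega
    have hA : condAvg β src dst S τ (f e') ≤ M4 + k.p := by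
      rw [condAvg_tower β hS4 τ hfcont, condAvg_eq hL.loopless β (by have := h.n_two; omega)]
      have hg := continuous_condAvg (src := src) (dst := dst) β S4 hfcont
      refine (avg_le_of_good hUc (hg.comp hglue) hG hgood hM4nn zero_le_one (fun σ hσ => ?_)
        fun σ => ?_).trans (by rw [one_mul])
      · exact h.inner_le hI hSad hPair hZero hL hbox hin hwv (glue S σ τ) i
          fun y _ hy => hsmall σ hσ y hy
      · simp only [condAvg]
        refine le_trans (avg_mono ((continuous_energy β src dst).comp (continuous_glue S4 _))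
          (hfcont.comp (continuous_glue S4 _)) continuous_const fun σ' => (hpf e' he' _).2.2) ?_
        exact le_of_eq (avg_const ((continuous_energy β src dst).comp (continuous_glue S4 _)) 1)
    rw [condAvg_eq hL.loopless β (by have := h.n_two; omega)] at hA
    set H := fun σ : Conf ↥S k.n => |co (glue S σ τ u) i|
      * |co (glue S σ τ (outEnd src dst T e')) i| * f e' (glue S σ τ)
    have hHc : Continuous H := by fun_prop
    have hdiff := avg_le_of_good hUc (f := fun σ => H σ + (-(4 * k.δ ^ 2)) * f e' (glue S σ τ))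
      (by fun_prop) hG hgood le_rfl zero_le_one
      (fun σ hσ => by
        have h1 : |co (glue S σ τ u) i| * |co (glue S σ τ (outEnd src dst T e')) i|
            ≤ 4 * k.δ ^ 2 := le_trans (mul_le_mul (hsmall σ hσ u (by omega))
          (hsmall σ hσ _ (by omega)) (abs_nonneg _) (by linarith [h.δ_nonneg])) (le_of_eq (by ring))
        simp only [H]
        nlinarith [mul_le_mul_of_nonneg_right h1 (hpf e' he' (glue S σ τ)).2.1])
      (fun σ => by
        obtain ⟨-, h0, h1⟩ := hpf e' he' (glue S σ τ)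
        simp only [H]
        have : |co (glue S σ τ u) i| * |co (glue S σ τ (outEnd src dst T e')) i| * f e' (glue S σ τ)
            ≤ 1 := mul_le_one₀ (mul_le_one₀ (abs_co_le_one _ _) (abs_nonneg _) (abs_co_le_one _ _))
              h0 h1
        nlinarith [sq_nonneg k.δ])
    rw [avg_add hUc hHc (by fun_prop), avg_const_mul, zero_add, one_mul] at hdiff
    nlinarith [mul_le_mul_of_nonneg_left hA (by positivity : 0 ≤ 4 * k.δ ^ 2)]
  rw [condAvg_eq hL.loopless β (by have := h.n_two; omega)]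
  refine (avg_mono hUc (hfc.comp hglue) ?_ fun σ => hfac (glue S σ τ)).trans ?_
  · exact continuous_finsetSum _ fun e' he' => by
      have := (hpf e' he' τ).1
      fun_prop
  rw [avg_sum hUc _ fun e' he' => by
    have := (hpf e' he' τ).1
    fun_prop]
  simp only [avg_const_mul]
  refine (sum_le_card_nsmul _ _ (β ^ 2 * (4 * k.δ ^ 2 * (M4 + k.p) + k.p)) fun e' he' =>
    mul_le_mul_of_nonneg_left (hone e' he') (sq_nonneg β)).trans ?_
  rw [nsmul_eq_mul]
  have hcard : (cross.card : ℝ) ≤ 4 * k.N := by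
    have hTs : T ⊆ S := fun y hy => by rw [mem_ball] at hy ⊢; omega
    have h1 : cross ⊆ T.biUnion fun y => univ.filter fun a => src a = y ∨ dst a = y := by
      intro a ha
      obtain ⟨hin, -⟩ := inEnd_mem (mem_filter.1 ha).2
      simp only [mem_biUnion, mem_filter, mem_univ, true_and]
      rcases ends_cases (src := src) (dst := dst) T a with ⟨q, -⟩ | ⟨q, -⟩
      · exact ⟨_, hin, Or.inl q.symm⟩
      · exact ⟨_, hin, Or.inr q.symm⟩
    have h2 : cross.card ≤ T.card * 4 := (card_le_card h1).trans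
      (card_biUnion_le_card_mul _ _ 4 fun y hy => hL.incident_card (hS y (hTs hy)))
    have h3 : (T.card : ℝ) ≤ k.N :=
      le_trans (Nat.cast_le.2 (card_le_card hTs)) hN
    have h4 : (cross.card : ℝ) ≤ (T.card : ℝ) * 4 := by exact_mod_cast h2
    linarith
  have hpow : β ^ 2 ≤ (k.n * k.B) ^ 2 := pow_le_pow_left₀ hβ.le h.beta_le 2
  have hx : 0 ≤ 4 * k.δ ^ 2 * (M4 + k.p) + k.p := by
    have := h.p_nonneg
    positivity
  rw [StepConst.total, ← hM4]
  calc (cross.card : ℝ) * (β ^ 2 * (4 * k.δ ^ 2 * (M4 + k.p) + k.p))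
      ≤ (4 * k.N) * ((k.n * k.B) ^ 2 * (4 * k.δ ^ 2 * (M4 + k.p) + k.p)) := by
        refine mul_le_mul hcard (mul_le_mul_of_nonneg_right hpow hx) (mul_nonneg (sq_nonneg β) hx) ?_
        exact mul_nonneg (by norm_num) (le_trans (Nat.cast_nonneg _) h.N_le)
    _ = _ := by ring

end StepHyp

end Vale.Agent.P163.Gap
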