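import Vale.Agent.P163.Gap.StepBound

/-!
# The size of the one-block constants, in powers of `q = n ^ (1 / 800)`
-/

noncomputable section

namespace Vale.Agent.P163.Gap

variable {t q x y a b : ℝ} {i j m : ℕ}

theorem small_mul (hx : x ≤ a * t ^ i) (hy : y ≤ b * t ^ j) (ht : 0 ≤ t) (ha : 0 ≤ a)
    (hy0 : 0 ≤ y) : x * y ≤ a * b * t ^ (i + j) := by
  refine (mul_le_mul hx hy hy0 (mul_nonneg ha (pow_nonneg ht i))).trans (le_of_eq ?_)
  rw [pow_add]
  ring

theorem big_mul (hx : x ≤ a * q ^ i) (hy : y ≤ b * t ^ (i + j)) (hqt : q * t = 1) (hq : 0 ≤ q)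
    (ha : 0 ≤ a) (hy0 : 0 ≤ y) : x * y ≤ a * b * t ^ j := by
  refine (mul_le_mul hx hy hy0 (mul_nonneg ha (pow_nonneg hq i))).trans (le_of_eq ?_)
  have h : q ^ i * t ^ i = 1 := by rw [← mul_pow, hqt, one_pow]
  rw [pow_add]
  linear_combination a * b * t ^ j * h

theorem small_weaken (hx : x ≤ a * t ^ i) (hm : m ≤ i) (ht : 0 ≤ t) (ht1 : t ≤ 1) (ha : 0 ≤ a) :
    x ≤ a * t ^ m :=
  hx.trans (mul_le_mul_of_nonneg_left (pow_le_pow_of_le_one ht ht1 hm) ha)

theorem small_add (hx : x ≤ a * t ^ i) (hy : y ≤ b * t ^ j) (hi : m ≤ i) (hj : m ≤ j) (ht : 0 ≤ t)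
    (ht1 : t ≤ 1) (ha : 0 ≤ a) (hb : 0 ≤ b) : x + y ≤ (a + b) * t ^ m := by
  rw [add_mul]
  exact add_le_add (small_weaken hx hi ht ht1 ha) (small_weaken hy hj ht ht1 hb)

/-- The hypotheses on the sizes. -/
structure StepSize (k : StepConst) (q t C : ℝ) : Prop where
  q_one : 1 ≤ q
  qt : q * t = 1
  n_eq : (k.n : ℝ) = q ^ 800
  n_pos : 0 < k.n
  B_nonneg : 0 ≤ k.B
  B_le : k.B ≤ q
  N_nonneg : 0 ≤ k.N
  N_le : k.N ≤ C * q ^ 16
  δ_nonneg : 0 ≤ k.δ
  δ_le : k.δ ≤ C * t ^ 391
  p_nonneg : 0 ≤ k.p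
  p_le : k.p ≤ C * t ^ 2000
  ε_nonneg : 0 ≤ k.ε
  ε_le : k.ε ≤ C * t ^ 2000

/-- The total is a small power of `1 / q`. -/
theorem exists_total_le (C : ℝ) (hC : 1 ≤ C) :
    ∃ C' : ℝ, 0 ≤ C' ∧ ∀ k q t, StepSize k q t C → k.total ≤ C' * t ^ 200 := by
  suffices hs : ∃ C' : ℝ, ∀ k q t, StepSize k q t C → k.total ≤ C' * t ^ 200 by
    obtain ⟨C', hC'⟩ := hs
    refine ⟨max C' 0, le_max_right _ _, fun k q t h => (hC' k q t h).trans ?_⟩
    have hqp : (0 : ℝ) < q := by linarith [h.q_one]
    have ht : 0 ≤ t := by nlinarith [h.qt]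
    exact mul_le_mul_of_nonneg_right (le_max_left _ _) (pow_nonneg ht _)
  refine ⟨?w, fun k q t h => ?_⟩
  rotate_left
  · have hq : 0 ≤ q := by linarith [h.q_one]
    have hqp : 0 < q := by linarith [h.q_one]
    have hteq : t = 1 / q := by
      rw [eq_div_iff hqp.ne', mul_comm]
      exact h.qt
    have ht : 0 ≤ t := by rw [hteq]; positivity
    have ht1 : t ≤ 1 := by rw [hteq, div_le_one hqp]; exact h.q_one
    have hC0 : 0 ≤ C := by linarith
    have hinv : 1 / (k.n : ℝ) ≤ 1 * t ^ 800 := by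
      rw [h.n_eq, one_mul, hteq, div_pow, one_pow]
    have hδ0 := h.δ_nonneg
    have hp0 := h.p_nonneg
    have hε0 := h.ε_nonneg
    have hN0 := h.N_nonneg
    have hB0 := h.B_nonneg
    have hn0 : (0 : ℝ) ≤ k.n := Nat.cast_nonneg _
    have hB : k.B ≤ 1 * q ^ 1 := by simpa using h.B_le
    have hc0 : 0 ≤ k.c := by unfold StepConst.c; positivity
    have hd0 : 0 ≤ k.d := by unfold StepConst.d; positivity
    have hbad0 : 0 ≤ k.bad := by unfold StepConst.bad; positivity
    have hnB : (k.n : ℝ) * k.B ≤ 1 * q ^ 801 := by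
      rw [h.n_eq, one_mul, show q ^ 801 = q ^ 800 * q by ring]
      exact mul_le_mul_of_nonneg_left h.B_le (pow_nonneg hq _)
    -- `c`, `d` and `bad`
    have hc : k.c ≤ (1 + 1 * C) * t ^ 390 :=
      small_add hinv (big_mul (j := 390) hB h.δ_le h.qt hq zero_le_one hδ0)
        (by norm_num) le_rfl ht ht1 zero_le_one (by positivity)
    have hBN : 9 * k.B * k.N ≤ 9 * C * q ^ 17 := by
      calc 9 * k.B * k.N = 9 * (k.B * k.N) := by ring
        _ ≤ 9 * (q * (C * q ^ 16)) := by
            refine mul_le_mul_of_nonneg_left (mul_le_mul h.B_le h.N_le hN0 hq) (by norm_num)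
        _ = 9 * C * q ^ 17 := by ring
    have hd : k.d ≤ 9 * C * C * t ^ 374 :=
      big_mul (j := 374) hBN h.δ_le h.qt hq (by positivity) hδ0
    have hbad : k.bad ≤ 17 * C * t ^ 1999 := by
      refine (le_of_eq ?_).trans (big_mul (a := 17) (j := 1999) (x := 17 * k.B) (y := k.p) ?_
        h.p_le h.qt hq (by norm_num) hp0)
      · rfl
      · rw [pow_one]
        exact mul_le_mul_of_nonneg_left h.B_le (by norm_num)
    -- `zero`
    have hεp : k.ε + k.ε * k.p ≤ (C + C * C) * t ^ 2000 :=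
      small_add h.ε_le (small_mul h.ε_le h.p_le ht hC0 hp0) le_rfl (by norm_num) ht ht1 hC0
        (by positivity)
    have hεn : (k.ε + k.ε * k.p) / k.n ≤ (C + C * C) * t ^ 2000 := by
      refine le_trans (div_le_self (by positivity) ?_) hεp
      exact_mod_cast h.n_pos
    have hδδc : k.δ * k.δ * k.c + k.bad ≤ (C * C * (1 + 1 * C) + 17 * C) * t ^ 1172 :=
      small_add (small_mul (small_mul h.δ_le h.δ_le ht hC0 hδ0) hc ht (by positivity) hc0) hbad
        le_rfl (by norm_num) ht ht1 (by positivity) (by positivity)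
    have hz0 : 0 ≤ k.zero := by unfold StepConst.zero; positivity
    have hzero : k.zero ≤ C * ((C + C * C) + (C * C * (1 + 1 * C) + 17 * C)) * t ^ 1156 :=
      big_mul (j := 1156) h.N_le
        (small_add hεn hδδc (by norm_num) le_rfl ht ht1 (by positivity) (by positivity))
        h.qt hq hC0 (by positivity)
    -- `switch`
    have hd2 : k.d ^ 2 ≤ 9 * C * C * (9 * C * C) * t ^ 748 := by
      rw [pow_two]
      exact small_mul hd hd ht (by positivity) hd0
    have hd3 : k.d ^ 2 * k.d ≤ 9 * C * C * (9 * C * C) * (9 * C * C) * t ^ 1122 :=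
      small_mul hd2 hd ht (by positivity) hd0
    have hnd : (k.n : ℝ) * k.B * k.d ^ 3
        ≤ 1 * (9 * C * C * (9 * C * C) * (9 * C * C)) * t ^ 321 := by
      refine big_mul (j := 321) hnB ?_ h.qt hq zero_le_one (by positivity)
      rw [show k.d ^ 3 = k.d ^ 2 * k.d by ring]
      exact hd3
    have hM : 2 * k.d + 8 * (k.n * k.B) * k.d ^ 3
        ≤ (2 * (9 * C * C) + 8 * (1 * (9 * C * C * (9 * C * C) * (9 * C * C)))) * t ^ 321 := by
      refine small_add (i := 374) (j := 321) ?_ ?_ (by norm_num) le_rfl ht ht1 (by positivity)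
        (by positivity)
      · rw [mul_assoc 2 (9 * C * C)]
        exact mul_le_mul_of_nonneg_left hd (by norm_num)
      · rw [mul_assoc (8 : ℝ), mul_assoc 8 (1 * (9 * C * C * (9 * C * C) * (9 * C * C)))]
        exact mul_le_mul_of_nonneg_left hnd (by norm_num)
    have hM' : k.ε * (2 + 8 * (k.n * k.B)) ≤ 10 * C * t ^ 1199 := by
      rw [mul_comm k.ε]
      refine big_mul (i := 801) (j := 1199) ?_ h.ε_le h.qt hq (by norm_num) hε0
      have h1 : (1 : ℝ) ≤ q ^ 801 := one_le_pow₀ h.q_one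
      linarith [hnB]
    have hin1 : (k.ε * (2 * k.d + 8 * (k.n * k.B) * k.d ^ 3) + k.ε * (2 + 8 * (k.n * k.B)) * k.p)
        / k.n ≤ (C * (2 * (9 * C * C) + 8 * (1 * (9 * C * C * (9 * C * C) * (9 * C * C))))
          + 10 * C * C) * t ^ 1512 := by
      refine le_trans (div_le_self (by positivity) (by exact_mod_cast h.n_pos)) ?_
      exact small_add (small_mul h.ε_le hM ht hC0 (by positivity))
        (small_mul hM' h.p_le ht (by positivity) hp0) (by norm_num) (by norm_num) ht ht1
        (by positivity) (by positivity)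
    have hin2 : k.d ^ 2 * k.d * k.c + k.bad
        ≤ (9 * C * C * (9 * C * C) * (9 * C * C) * (1 + 1 * C) + 17 * C) * t ^ 1512 :=
      small_add (small_mul hd3 hc ht (by positivity) hc0) hbad le_rfl (by norm_num) ht ht1
        (by positivity) (by positivity)
    have hdc : k.d * k.c + k.bad ≤ (9 * C * C * (1 + 1 * C) + 17 * C) * t ^ 764 :=
      small_add (small_mul hd hc ht (by positivity) hc0) hbad le_rfl (by norm_num) ht ht1
        (by positivity) (by positivity)
    have hNdc : k.N * (k.d * k.c + k.bad) ≤ C * (9 * C * C * (1 + 1 * C) + 17 * C) * t ^ 748 :=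
      big_mul (j := 748) h.N_le hdc h.qt hq hC0 (by positivity)
    have hdp : k.d ^ 2 + k.p ≤ (9 * C * C * (9 * C * C) + C) * t ^ 748 :=
      small_add hd2 h.p_le le_rfl (by norm_num) ht ht1 (by positivity) hC0
    have hbr := small_add
      (big_mul (j := 1496) h.N_le
        (small_add hin1 hin2 le_rfl le_rfl ht ht1 (by positivity) (by positivity))
        h.qt hq hC0 (by positivity))
      (small_mul hdp hNdc ht (by positivity) (by positivity))
      le_rfl (by norm_num : 1496 ≤ 748 + 748) ht ht1 (by positivity) (by positivity)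
    have h8δ : k.N * (8 * k.δ) ≤ C * (8 * C) * t ^ 375 := by
      refine big_mul (j := 375) h.N_le ?_ h.qt hq hC0 (by positivity)
      rw [mul_assoc]
      exact mul_le_mul_of_nonneg_left h.δ_le (by norm_num)
    have hprod := small_weaken (m := 1871) (small_mul h8δ hbr ht (by positivity) (by positivity))
      (by norm_num) ht ht1 (by positivity)
    have hsw := big_mul (i := 801) (j := 1070) hnB hprod h.qt hq zero_le_one (by positivity)
    rw [← mul_assoc] at hsw
    change k.switch ≤ _ at hsw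
    -- `total`
    have hs0 : 0 ≤ k.switch := by unfold StepConst.switch; positivity
    have hzs := small_add
      (small_add hzero hsw (by norm_num) le_rfl ht ht1 (by positivity) (by positivity))
      h.p_le le_rfl (by norm_num : 1070 ≤ 2000) ht ht1 (by positivity) hC0
    have h4δ : 4 * k.δ ^ 2 ≤ 4 * (C * C) * t ^ 782 := by
      rw [mul_assoc 4 (C * C), pow_two]
      exact mul_le_mul_of_nonneg_left (small_mul h.δ_le h.δ_le ht hC0 hδ0) (by norm_num)
    have hlast := small_add (small_mul h4δ hzs ht (by positivity) (by positivity)) h.p_le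
      (by norm_num : 1852 ≤ 782 + 1070) (by norm_num : 1852 ≤ 2000) ht ht1 (by positivity) hC0
    have hpre : (k.n * k.B) ^ 2 * (4 * k.N) ≤ 4 * C * q ^ 1618 := by
      calc (k.n * k.B) ^ 2 * (4 * k.N) ≤ (1 * q ^ 801) ^ 2 * (4 * (C * q ^ 16)) :=
            mul_le_mul (pow_le_pow_left₀ (by positivity) hnB 2)
              (mul_le_mul_of_nonneg_left h.N_le (by norm_num)) (by positivity) (by positivity)
        _ = 4 * C * q ^ 1618 := by ring
    have hfin := big_mul (i := 1618) (j := 234) hpre hlast h.qt hq (by positivity) (by positivity)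
    have hfin' := small_weaken (m := 200) hfin (by norm_num) ht ht1 (by positivity)
    unfold StepConst.total
    exact hfin'

end Vale.Agent.P163.Gap
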