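import Vale.Agent.P163.Gap.Defs

/-!
# Mass gap for `β ≤ c n log n`: windows, conditional expectations and the final statements
-/

noncomputable section

namespace Vale.Agent.P163.Gap

open MeasureTheory Finset

variable {V E : Type} [Fintype V] [Fintype E] [DecidableEq V] {n : ℕ}

/-- A window whose labelling is injective and which has no loops. -/
structure Lat (src dst : E → V) (ℓ : V → Site) (dir : E → Bool) (K : ℕ) : Prop where
  window : IsWindow src dst ℓ dir K
  ℓinj : Function.Injective ℓ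
  loopless : ∀ e, src e ≠ dst e

/-- The sup distance of lattice sites. -/
def sdist (x y : Site) : ℕ := max (x.1 - y.1).natAbs (x.2 - y.2).natAbs

/-- The vertices whose label is within `r` of `c`. -/
def ball (ℓ : V → Site) (c : Site) (r : ℕ) : Finset V := univ.filter fun v => sdist (ℓ v) c ≤ r

/-- The configuration equal to `σ` on `S` and to `τ` elsewhere. -/
def glue (S : Finset V) (σ : Conf ↥S n) (τ : Conf V n) : Conf V n :=
  fun v => if h : v ∈ S then σ ⟨v, h⟩ else τ v

/-- The expectation in `S` given the spins outside. -/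
def condAvg (β : ℝ) (src dst : E → V) (S : Finset V) (τ : Conf V n) (f : Conf V n → ℝ) : ℝ :=
  avg (fun σ : Conf ↥S n => energy β src dst (glue S σ τ)) (fun σ => f (glue S σ τ))

/-- The block data of `S` given the spins outside. -/
def blockOf (β : ℝ) (src dst : E → V) (S : Finset V) (τ : Conf V n) : Blk ↥S n where
  b := β / n
  A x y := ((univ.filter fun e => (src e = x.1 ∧ dst e = y.1) ∨ (src e = y.1 ∧ dst e = x.1)).card : ℝ)
  h x i := ∑ e ∈ univ.filter (fun e => crossing src dst S e ∧ inEnd src dst S e = x.1),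
    co (τ (outEnd src dst S e)) i

/-- The couplings of component `i`. -/
def coup (β : ℝ) (src dst : E → V) (i : Fin n) (σ : Conf V n) (e : E) : ℝ :=
  β * |co (σ (src e)) i| * |co (σ (dst e)) i|

/-- One factor of a chain: a bond and the magnetisation of the block at its far end. -/
def factor (β : ℝ) (src dst : E → V) (ℓ : V → Site) (i : Fin n) (L : ℕ) (e : E) (w : V)
    (σ : Conf V n) : ℝ :=
  coup β src dst i σ e * plusMag src dst (coup β src dst i σ) (ball ℓ (ℓ w) L) w

/-- The radius of the exclusion boxes. -/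
def jump (L : ℕ) : ℕ := 16 * L + 4

/-- The one-block estimate. -/
def StepGoal : Prop :=
  ∃ c : ℝ, 0 < c ∧ ∃ n₀ : ℕ, 2 ≤ n₀ ∧ ∀ (n : ℕ), n₀ ≤ n → ∀ β : ℝ, 0 < β →
    β ≤ c * n * Real.log n → ∃ L : ℕ, 1 ≤ L ∧
      ∀ (V E : Type) [Fintype V] [Fintype E] [DecidableEq V] (src dst : E → V) (ℓ : V → Site)
        (dir : E → Bool) (K : ℕ), Lat src dst ℓ dir K →
        ∀ (i : Fin n) (e : E) (w : V), (src e = w ∨ dst e = w) →
          (∀ z, sdist z (ℓ w) ≤ 8 * L + 2 → z ∈ box K) →
          ∀ τ : Conf V n,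
            (4 * (2 * jump L + 1) ^ 2 : ℕ) *
              condAvg β src dst (ball ℓ (ℓ w) (8 * L)) τ (factor β src dst ℓ i L e w) ≤ 1 / 2

/-- The final statement. -/
def MassGoal : Prop :=
  ∃ c : ℝ, 0 < c ∧ ∀ n : ℕ, 2 ≤ n → ∀ β : ℝ, 0 < β → β ≤ c * n * Real.log n →
    ∃ C m : ℝ, 0 < C ∧ 0 < m ∧ ∀ μ : Measure (Site → Spin n), IsLimitState n β μ → ∀ x y : Site,
      |∫ σ, dot (σ x) (σ y) ∂μ| ≤ C * Real.exp (-m * rad (y - x))

end Vale.Agent.P163.Gap
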